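import Mathlib

/-!
# Inverse function theorem for smooth maps of manifolds
-/

set_option linter.unusedSectionVars false

open scoped Manifold ContDiff Topology
open Set Filter Function

noncomputable section

namespace Vale.Agent.P247Y

variable {E F : Type*} [NormedAddCommGroup E] [NormedSpace ℝ E] [FiniteDimensional ℝ E]
  [NormedAddCommGroup F] [NormedSpace ℝ F] [FiniteDimensional ℝ F]

/-- a bijective linear map as an equivalence -/
def eqv (A : E →L[ℝ] F) (h : Bijective A) : E ≃L[ℝ] F :=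
  (LinearEquiv.ofBijective (A : E →ₗ[ℝ] F) h).toContinuousLinearEquiv

theorem eqv_coe (A : E →L[ℝ] F) (h : Bijective A) : (eqv A h : E →L[ℝ] F) = A := by
  ext v
  rfl

theorem eqv_apply (A : E →L[ℝ] F) (h : Bijective A) (v : E) : eqv A h v = A v := rfl

theorem isOpen_bij : IsOpen {A : E →L[ℝ] F | Bijective A} := by
  have : CompleteSpace E := FiniteDimensional.complete ℝ E
  have h : {A : E →L[ℝ] F | Bijective A} = range ((↑) : (E ≃L[ℝ] F) → E →L[ℝ] F) := by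
    ext A
    exact ⟨fun h => ⟨eqv A h, eqv_coe A h⟩, by rintro ⟨B, rfl⟩; exact B.bijective⟩
  rw [h]
  exact ContinuousLinearEquiv.isOpen

/-- the inverse function theorem in vector spaces -/
theorem locInv_flat {g : E → F} {s : Set E} (hs : IsOpen s) (hg : ContDiffOn ℝ ∞ g s) {x : E}
    (hx : x ∈ s) (hb : Bijective (fderiv ℝ g x)) :
    ∃ e : OpenPartialHomeomorph E F, x ∈ e.source ∧ e.source ⊆ s ∧ (∀ y, e y = g y) ∧
      ContDiffOn ℝ ∞ e.symm e.target ∧ ∀ y ∈ e.source, Bijective (fderiv ℝ g y) := by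
  have : CompleteSpace E := FiniteDimensional.complete ℝ E
  have hat : ∀ y ∈ s, ContDiffAt ℝ ∞ g y := fun y hy => hg.contDiffAt (hs.mem_nhds hy)
  have hd : ∀ y ∈ s, HasFDerivAt g (fderiv ℝ g y) y := fun y hy =>
    ((hat y hy).differentiableAt (by simp)).hasFDerivAt
  have h1 : HasFDerivAt g (eqv _ hb : E →L[ℝ] F) x := by rw [eqv_coe]; exact hd x hx
  have hc : ContinuousOn (fderiv ℝ g) s := hg.continuousOn_fderiv_of_isOpen hs (by simp)
  have ho : IsOpen (s ∩ fderiv ℝ g ⁻¹' {A | Bijective A}) :=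
    hc.isOpen_inter_preimage hs isOpen_bij
  let e0 := (hat x hx).toOpenPartialHomeomorph g h1 (by simp)
  refine ⟨e0.restrOpen _ ho, ⟨(hat x hx).mem_toOpenPartialHomeomorph_source h1 (by simp), hx, hb⟩,
    fun y hy => hy.2.1, fun y => rfl, fun a ha => ?_, fun y hy => hy.2.2⟩
  have hm := (e0.restrOpen _ ho).map_target ha
  refine ((e0.restrOpen _ ho).contDiffAt_symm (f₀' := eqv _ hm.2.2) ha ?_ ?_).contDiffWithinAt
  · rw [eqv_coe]
    exact hd _ hm.2.1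
  · exact hat _ hm.2.1

variable {M N : Type*} [TopologicalSpace M] [ChartedSpace E M] [IsManifold 𝓘(ℝ, E) ∞ M]
  [TopologicalSpace N] [ChartedSpace F N] [IsManifold 𝓘(ℝ, F) ∞ N]

theorem chart_sm (x : M) : ContMDiffOn 𝓘(ℝ, E) 𝓘(ℝ, E) ∞ (chartAt E x) (chartAt E x).source :=
  contMDiffOn_chart

theorem chart_symm_sm (x : M) :
    ContMDiffOn 𝓘(ℝ, E) 𝓘(ℝ, E) ∞ (chartAt E x).symm (chartAt E x).target :=
  contMDiffOn_chart_symm

/-- the map in charts -/
theorem inChart_sm {f : M → N} {s : Set M} (hf : ContMDiffOn 𝓘(ℝ, E) 𝓘(ℝ, F) ∞ f s) (x : M)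
    (y : N) : ContDiffOn ℝ ∞ (chartAt F y ∘ f ∘ (chartAt E x).symm)
      ((chartAt E x).target ∩ (chartAt E x).symm ⁻¹' (s ∩ f ⁻¹' (chartAt F y).source)) := by
  rw [← contMDiffOn_iff_contDiffOn]
  refine (chart_sm y).comp (hf.comp ((chart_symm_sm x).mono inter_subset_left) ?_) ?_
  · exact fun z hz => hz.2.1
  · exact fun z hz => hz.2.2

theorem inChart_open {f : M → N} {s : Set M} (hs : IsOpen s) (hf : ContinuousOn f s) (x : M)
    (y : N) : IsOpen
      ((chartAt E x).target ∩ (chartAt E x).symm ⁻¹' (s ∩ f ⁻¹' (chartAt F y).source)) :=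
  (chartAt E x).continuousOn_symm.isOpen_inter_preimage (chartAt E x).open_target
    (hf.isOpen_inter_preimage hs (chartAt F y).open_source)

theorem mfderiv_inChart {f : M → N} {x : M} (hf : MDifferentiableAt 𝓘(ℝ, E) 𝓘(ℝ, F) f x) :
    (mfderiv 𝓘(ℝ, E) 𝓘(ℝ, F) f x : E →L[ℝ] F) =
      fderiv ℝ (chartAt F (f x) ∘ f ∘ (chartAt E x).symm) (chartAt E x x) := by
  rw [hf.mfderiv]
  simp only [writtenInExtChartAt, modelWithCornersSelf_coe, range_id, fderivWithin_univ]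
  rfl

/-- compositions with a left inverse -/
theorem mfderiv_left_inv {f : M → N} {r : N → M} {x : M}
    (hf : MDifferentiableAt 𝓘(ℝ, E) 𝓘(ℝ, F) f x)
    (hr : MDifferentiableAt 𝓘(ℝ, F) 𝓘(ℝ, E) r (f x)) (h : ∀ᶠ y in 𝓝 x, r (f y) = y) (v : E) :
    (mfderiv 𝓘(ℝ, F) 𝓘(ℝ, E) r (f x) (mfderiv 𝓘(ℝ, E) 𝓘(ℝ, F) f x v) : E) = v := by
  have h1 := mfderiv_comp x hr hf
  have h2 : (r ∘ f) =ᶠ[𝓝 x] id := h
  rw [h2.mfderiv_eq, mfderiv_id] at h1
  exact (congrArg (fun A : E →L[ℝ] E => A v) h1).symm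

/-- the inverse function theorem -/
theorem locInv {f : M → N} {s : Set M} (hs : IsOpen s) (hf : ContMDiffOn 𝓘(ℝ, E) 𝓘(ℝ, F) ∞ f s)
    {x : M} (hx : x ∈ s) (hb : Bijective (mfderiv 𝓘(ℝ, E) 𝓘(ℝ, F) f x)) :
    ∃ e : OpenPartialHomeomorph M N, x ∈ e.source ∧ e.source ⊆ s ∧ (∀ y, e y = f y) ∧
      ContMDiffOn 𝓘(ℝ, F) 𝓘(ℝ, E) ∞ e.symm e.target := by
  have hd : MDifferentiableAt 𝓘(ℝ, E) 𝓘(ℝ, F) f x :=
    (hf.contMDiffAt (hs.mem_nhds hx)).mdifferentiableAt (by simp)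
  have hxs := mem_chart_source E x
  obtain ⟨e0, h1, h2, h3, h4, -⟩ := locInv_flat (inChart_open hs hf.continuousOn x (f x))
    (inChart_sm hf x (f x)) (x := chartAt E x x)
    ⟨(chartAt E x).map_source hxs, by
      rw [mem_preimage, (chartAt E x).left_inv hxs]; exact ⟨hx, mem_chart_source F (f x)⟩⟩
    (by rw [← mfderiv_inChart hd]; exact hb)
  let e1 := (chartAt E x).trans (e0.trans (chartAt F (f x)).symm)
  have hsrc : ∀ y ∈ e1.source, y ∈ s ∧ e1 y = f y := by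
    intro y hy
    have h5 : (chartAt E x).symm (chartAt E x y) ∈ s ∩ f ⁻¹' (chartAt F (f x)).source :=
      (h2 hy.2.1).2
    rw [(chartAt E x).left_inv hy.1] at h5
    refine ⟨h5.1, ?_⟩
    change (chartAt F (f x)).symm (e0 (chartAt E x y)) = f y
    rw [h3, comp_apply, comp_apply, (chartAt E x).left_inv hy.1,
      (chartAt F (f x)).left_inv h5.2]
  let e : OpenPartialHomeomorph M N :=
    { toFun := f
      invFun := e1.symm
      source := e1.source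
      target := e1.target
      map_source' := fun y hy => by rw [← (hsrc y hy).2]; exact e1.map_source hy
      map_target' := fun y hy => e1.map_target hy
      left_inv' := fun y hy => by rw [← (hsrc y hy).2]; exact e1.left_inv hy
      right_inv' := fun y hy => by rw [← (hsrc _ (e1.map_target hy)).2]; exact e1.right_inv hy
      open_source := e1.open_source
      open_target := e1.open_target
      continuousOn_toFun := hf.continuousOn.mono fun y hy => (hsrc y hy).1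
      continuousOn_invFun := e1.continuousOn_symm }
  refine ⟨e, ⟨hxs, h1, ?_⟩, fun y hy => (hsrc y hy).1, fun y => rfl, ?_⟩
  · change e0 (chartAt E x x) ∈ (chartAt F (f x)).target
    rw [h3, comp_apply, comp_apply, (chartAt E x).left_inv hxs]
    exact (chartAt F (f x)).map_source (mem_chart_source F (f x))
  · change ContMDiffOn 𝓘(ℝ, F) 𝓘(ℝ, E) ∞
      ((chartAt E x).symm ∘ e0.symm ∘ chartAt F (f x)) e1.target
    refine (chart_symm_sm x).comp ((contMDiffOn_iff_contDiffOn.2 h4).comp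
      ((chart_sm (f x)).mono fun y hy => hy.1.1) fun y hy => hy.1.2) fun y hy => hy.2

theorem map_nhds_bij {f : M → N} {s : Set M} (hs : IsOpen s)
    (hf : ContMDiffOn 𝓘(ℝ, E) 𝓘(ℝ, F) ∞ f s) {x : M} (hx : x ∈ s)
    (hb : Bijective (mfderiv 𝓘(ℝ, E) 𝓘(ℝ, F) f x)) : map f (𝓝 x) = 𝓝 (f x) := by
  obtain ⟨e, h1, -, h3, -⟩ := locInv hs hf hx hb
  have h : (e : M → N) = f := funext h3
  rw [← h]
  exact e.map_nhds_eq h1

/-- local diffeomorphisms are open -/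
theorem isOpen_image_bij {f : M → N} {s : Set M} (hs : IsOpen s)
    (hf : ContMDiffOn 𝓘(ℝ, E) 𝓘(ℝ, F) ∞ f s)
    (hb : ∀ x ∈ s, Bijective (mfderiv 𝓘(ℝ, E) 𝓘(ℝ, F) f x)) {t : Set M} (ht : IsOpen t)
    (hts : t ⊆ s) : IsOpen (f '' t) := by
  rw [isOpen_iff_mem_nhds]
  rintro _ ⟨x, hx, rfl⟩
  rw [← map_nhds_bij hs hf (hts hx) (hb x (hts hx))]
  exact image_mem_map (ht.mem_nhds hx)

/-- local diffeomorphisms are locally injective -/
theorem injOn_nhds_bij {f : M → N} {s : Set M} (hs : IsOpen s)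
    (hf : ContMDiffOn 𝓘(ℝ, E) 𝓘(ℝ, F) ∞ f s) {x : M} (hx : x ∈ s)
    (hb : Bijective (mfderiv 𝓘(ℝ, E) 𝓘(ℝ, F) f x)) : ∃ t ∈ 𝓝 x, InjOn f t := by
  obtain ⟨e, h1, -, h3, -⟩ := locInv hs hf hx hb
  have h : (e : M → N) = f := funext h3
  exact ⟨e.source, e.open_source.mem_nhds h1, h ▸ e.injOn⟩

/-- injective local diffeomorphisms -/
theorem globInv {f : M → N} {s : Set M} (hs : IsOpen s) (hf : ContMDiffOn 𝓘(ℝ, E) 𝓘(ℝ, F) ∞ f s)
    (hb : ∀ x ∈ s, Bijective (mfderiv 𝓘(ℝ, E) 𝓘(ℝ, F) f x)) (hi : InjOn f s) [Nonempty M] :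
    ∃ e : OpenPartialHomeomorph M N, e.source = s ∧ e.target = f '' s ∧ (∀ y, e y = f y) ∧
      ContMDiffOn 𝓘(ℝ, F) 𝓘(ℝ, E) ∞ e.symm e.target := by
  have key : ContMDiffOn 𝓘(ℝ, F) 𝓘(ℝ, E) ∞ (invFunOn f s) (f '' s) := by
    rintro _ ⟨x, hx, rfl⟩
    obtain ⟨e, h1, h2, h3, h4⟩ := locInv hs hf hx (hb x hx)
    have h5 : e.target ∈ 𝓝 (f x) := e.open_target.mem_nhds (h3 x ▸ e.map_source h1)
    refine ((h4.contMDiffAt h5).congr_of_eventuallyEq ?_).contMDiffWithinAt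
    filter_upwards [h5] with y hy
    have h6 := h2 (e.map_target hy)
    have h7 : f (e.symm y) = y := by rw [← h3]; exact e.right_inv hy
    conv_lhs => rw [← h7]
    exact hi.leftInvOn_invFunOn h6
  refine ⟨{ toFun := f
            invFun := invFunOn f s
            source := s
            target := f '' s
            map_source' := fun y hy => mem_image_of_mem f hy
            map_target' := fun y hy => invFunOn_mem hy
            left_inv' := fun y hy => hi.leftInvOn_invFunOn hy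
            right_inv' := fun y hy => invFunOn_eq hy
            open_source := hs
            open_target := isOpen_image_bij hs hf hb hs Subset.rfl
            continuousOn_toFun := hf.continuousOn
            continuousOn_invFun := key.continuousOn }, rfl, rfl, fun _ => rfl, key⟩

/-- the derivatives of a partial diffeomorphism and of its inverse -/
theorem mfderiv_symm_apply (e : OpenPartialHomeomorph M N)
    (h1 : ContMDiffOn 𝓘(ℝ, E) 𝓘(ℝ, F) ∞ e e.source)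
    (h2 : ContMDiffOn 𝓘(ℝ, F) 𝓘(ℝ, E) ∞ e.symm e.target) {x : M} (hx : x ∈ e.source) (v : E) :
    (mfderiv 𝓘(ℝ, F) 𝓘(ℝ, E) e.symm (e x) (mfderiv 𝓘(ℝ, E) 𝓘(ℝ, F) e x v) : E) = v :=
  mfderiv_left_inv ((h1.contMDiffAt (e.open_source.mem_nhds hx)).mdifferentiableAt (by simp))
    ((h2.contMDiffAt (e.open_target.mem_nhds (e.map_source hx))).mdifferentiableAt (by simp))
    (e.eventually_left_inverse hx) v

theorem mfderiv_apply_symm (e : OpenPartialHomeomorph M N)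
    (h1 : ContMDiffOn 𝓘(ℝ, E) 𝓘(ℝ, F) ∞ e e.source)
    (h2 : ContMDiffOn 𝓘(ℝ, F) 𝓘(ℝ, E) ∞ e.symm e.target) {y : N} (hy : y ∈ e.target) (v : F) :
    (mfderiv 𝓘(ℝ, E) 𝓘(ℝ, F) e (e.symm y) (mfderiv 𝓘(ℝ, F) 𝓘(ℝ, E) e.symm y v) : F) = v :=
  mfderiv_symm_apply e.symm h2 h1 hy v

theorem mfderiv_bij (e : OpenPartialHomeomorph M N)
    (h1 : ContMDiffOn 𝓘(ℝ, E) 𝓘(ℝ, F) ∞ e e.source)
    (h2 : ContMDiffOn 𝓘(ℝ, F) 𝓘(ℝ, E) ∞ e.symm e.target) {x : M} (hx : x ∈ e.source) :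
    Bijective (mfderiv 𝓘(ℝ, E) 𝓘(ℝ, F) e x) := by
  refine ⟨fun u v h => ?_, fun v => ?_⟩
  · have h3 := mfderiv_symm_apply e h1 h2 hx u
    rw [h, mfderiv_symm_apply e h1 h2 hx v] at h3
    exact h3.symm
  · have h3 := mfderiv_apply_symm e h1 h2 (e.map_source hx) v
    rw [e.left_inv hx] at h3
    exact ⟨_, h3⟩

/-- immersions have local smooth retractions -/
theorem exists_retr {f : M → N} {s : Set M} (hs : IsOpen s)
    (hf : ContMDiffOn 𝓘(ℝ, E) 𝓘(ℝ, F) ∞ f s) {x : M} (hx : x ∈ s)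
    (hi : Injective (mfderiv 𝓘(ℝ, E) 𝓘(ℝ, F) f x)) :
    ∃ (r : N → M) (U : Set N), IsOpen U ∧ f x ∈ U ∧ ContMDiffOn 𝓘(ℝ, F) 𝓘(ℝ, E) ∞ r U ∧
      ∀ᶠ y in 𝓝 x, r (f y) = y := by
  have hd : MDifferentiableAt 𝓘(ℝ, E) 𝓘(ℝ, F) f x :=
    (hf.contMDiffAt (hs.mem_nhds hx)).mdifferentiableAt (by simp)
  have hyc := mem_chart_source F (f x)
  have hc : MDifferentiableAt 𝓘(ℝ, F) 𝓘(ℝ, F) (chartAt F (f x)) (f x) :=
    ((chart_sm (f x)).contMDiffAt ((chartAt F (f x)).open_source.mem_nhds hyc)).mdifferentiableAt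
      (by simp)
  let A : E →L[ℝ] F := mfderiv 𝓘(ℝ, F) 𝓘(ℝ, F) (chartAt F (f x)) (f x) ∘L
    mfderiv 𝓘(ℝ, E) 𝓘(ℝ, F) f x
  have hA : Injective A :=
    (mfderiv_bij (chartAt F (f x)) (chart_sm _) (chart_symm_sm _) hyc).1.comp hi
  obtain ⟨L, hL⟩ := (A : E →ₗ[ℝ] F).exists_leftInverse_of_injective
    (LinearMap.ker_eq_bot.2 hA)
  let L' : F →L[ℝ] E := LinearMap.toContinuousLinearMap L
  have ho : IsOpen (s ∩ f ⁻¹' (chartAt F (f x)).source) :=
    hf.continuousOn.isOpen_inter_preimage hs (chartAt F (f x)).open_source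
  have hg : ContMDiffOn 𝓘(ℝ, E) 𝓘(ℝ, E) ∞ (L' ∘ chartAt F (f x) ∘ f)
      (s ∩ f ⁻¹' (chartAt F (f x)).source) :=
    L'.contMDiff.comp_contMDiffOn ((chart_sm (f x)).comp (hf.mono inter_subset_left)
      fun y hy => hy.2)
  have hder : (mfderiv 𝓘(ℝ, E) 𝓘(ℝ, E) (L' ∘ chartAt F (f x) ∘ f) x : E →L[ℝ] E) = L' ∘L A := by
    rw [mfderiv_comp x L'.mdifferentiableAt (hc.comp x hd), mfderiv_comp x hc hd,
      L'.mfderiv_eq]
    rfl
  have hid : ∀ v, (L' ∘L A) v = v := fun v => LinearMap.congr_fun hL v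
  obtain ⟨e, h1, h2, h3, h4⟩ := locInv ho hg (x := x) ⟨hx, hyc⟩ (by
    rw [hder]
    exact ⟨fun u v h => (hid u).symm.trans (h.trans (hid v)), fun v => ⟨v, hid v⟩⟩)
  have hk : ContMDiffOn 𝓘(ℝ, F) 𝓘(ℝ, E) ∞ (L' ∘ chartAt F (f x)) (chartAt F (f x)).source :=
    L'.contMDiff.comp_contMDiffOn (chart_sm (f x))
  refine ⟨e.symm ∘ L' ∘ chartAt F (f x), (chartAt F (f x)).source ∩
    (L' ∘ chartAt F (f x)) ⁻¹' e.target,
    hk.continuousOn.isOpen_inter_preimage (chartAt F (f x)).open_source e.open_target,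
    ⟨hyc, ?_⟩, h4.comp (hk.mono inter_subset_left) fun y hy => hy.2, ?_⟩
  · have := e.map_source h1
    rwa [h3] at this
  · filter_upwards [e.eventually_left_inverse h1] with y hy
    rwa [h3] at hy

/-- continuous lifts through an immersion are smooth -/
theorem lift_sm {G : Type*} [NormedAddCommGroup G] [NormedSpace ℝ G] {A : Type*}
    [TopologicalSpace A] [ChartedSpace G A] {f : M → N} {s : Set M} (hs : IsOpen s)
    (hf : ContMDiffOn 𝓘(ℝ, E) 𝓘(ℝ, F) ∞ f s) {g : A → M} {a : A} (hx : g a ∈ s)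
    (hi : Injective (mfderiv 𝓘(ℝ, E) 𝓘(ℝ, F) f (g a))) (hg : ContinuousAt g a)
    (h : ContMDiffAt 𝓘(ℝ, G) 𝓘(ℝ, F) ∞ (fun b => f (g b)) a) :
    ContMDiffAt 𝓘(ℝ, G) 𝓘(ℝ, E) ∞ g a := by
  obtain ⟨r, U, h1, h2, h3, h4⟩ := exists_retr hs hf hx hi
  refine ((h3.contMDiffAt (h1.mem_nhds h2)).comp a h).congr_of_eventuallyEq ?_
  filter_upwards [hg.eventually h4] with b hb
  exact hb.symm

/-- immersions are locally injective -/
theorem injOn_nhds {f : M → N} {s : Set M} (hs : IsOpen s)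
    (hf : ContMDiffOn 𝓘(ℝ, E) 𝓘(ℝ, F) ∞ f s) {x : M} (hx : x ∈ s)
    (hi : Injective (mfderiv 𝓘(ℝ, E) 𝓘(ℝ, F) f x)) : ∃ t ∈ 𝓝 x, InjOn f t := by
  obtain ⟨r, U, -, -, -, h4⟩ := exists_retr hs hf hx hi
  refine ⟨_, h4, fun y hy z hz h => ?_⟩
  have h1 : r (f y) = y := hy
  have h2 : r (f z) = z := hz
  rw [← h1, h, h2]

end Vale.Agent.P247Y
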