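import Vale.Agent.P247Y.Cov

/-!
# P247, block Y: COB, LIFT, TOCOV
-/

set_option linter.all false

open scoped Topology Manifold
open Set Filter Metric

noncomputable section

namespace Vale.Agent.P247Y

open Vale.Agent.P247.SCY
open Vale.Agent.P247X

theorem COB : COB_statement := by
  intro E _ _ D ho hD G _ ι V hV hVD hcov c hlc hco
  rcases D.eq_empty_or_nonempty with rfl | hne
  · exact ⟨fun _ _ => 0, fun i x hx => (hVD i hx).elim, fun i j x hx => (hVD i hx.1).elim⟩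
  let C : Coc D G := ⟨ι, V, hV, hVD, hcov, c, hlc, hco⟩
  obtain ⟨F, hc, hF⟩ := C.gcov.lift_convex ho hD hne continuousOn_id fun a ha => ha
  have hF' : ∀ a ∈ D, Coc.Tot.x (c := C) (F a) = a := hF
  refine ⟨fun i x => Coc.Tot.co (c := C) i (F x), fun i x hx => ?_, fun i j x hx => ?_⟩
  · have h1 : ContinuousAt F x := hc.continuousAt (ho.mem_nhds (hVD i hx))
    exact h1.eventually (Coc.co_near (c := C) (i := i) (by rw [hF' x (hVD i hx)]; exact hx))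
  · have e := hF' x (hVD i hx.1)
    have h1 := Coc.Tot.co_co (c := C) (i := i) (j := j) (z := F x) (by rw [e]; exact hx.1)
      (by rw [e]; exact hx.2)
    rw [e] at h1
    exact eq_sub_of_add_eq h1.symm

theorem LIFTX : LIFTX_statement := by
  classical
  intro cob X _ W G _ Z
  refine ⟨fun B _ s hs f g hf hg h => Z.uniq hs hf hg h, ?_⟩
  intro E _ _ D S ho hD hS f hf hW ℓ hℓ
  have hop : IsOpen (D \ S) := by
    rw [isOpen_iff_mem_nhds]
    intro x hx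
    have h1 := hS x hx.1
    rw [eventually_nhdsWithin_iff] at h1
    filter_upwards [h1, ho.mem_nhds hx.1] with y hy hy'
    refine ⟨hy', ?_⟩
    by_cases e : y = x
    · rw [e]; exact hx.2
    · exact hy e
  rcases D.eq_empty_or_nonempty with rfl | ⟨x₀, hx₀⟩
  · exact ⟨ℓ 0, by simp, by simp, by simp⟩
  -- local lifts
  have key : ∀ x : D, ∃ (V : Set E) (l : E → Z.Z), IsOpen V ∧ x.1 ∈ V ∧ V ⊆ D ∧
      (∀ y ∈ V, y ∈ S → y = x) ∧ ContinuousOn l (V \ S) ∧ (∀ y ∈ V \ S, Z.π (l y) = f y) ∧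
      (x.1 ∈ S → l = ℓ x) := by
    rintro ⟨x, hx⟩
    by_cases hxS : x ∈ S
    · obtain ⟨N, hN, hc, hp⟩ := hℓ x ⟨hx, hxS⟩
      have h1 := hS x hx
      rw [eventually_nhdsWithin_iff] at h1
      obtain ⟨V, hV, hVo, hxV⟩ := _root_.mem_nhds_iff.1
        (inter_mem (inter_mem hN (ho.mem_nhds hx)) h1)
      have hsub : V \ S ⊆ N \ {x} := fun y hy =>
        ⟨(hV hy.1).1.1, fun e => hy.2 (by rw [mem_singleton_iff.1 e]; exact hxS)⟩
      refine ⟨V, ℓ x, hVo, hxV, fun y hy => (hV hy).1.2, fun y hy hyS => ?_, hc.mono hsub,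
        fun y hy => hp y (hsub hy), fun _ => rfl⟩
      by_contra e
      exact (hV hy).2 e hyS
    · obtain ⟨z, hz⟩ := Z.exists_mem (hW x ⟨hx, hxS⟩)
      obtain ⟨U, σ, hU, hzU, -, hσ, hπ, -⟩ := Z.sec z
      rw [hz] at hzU
      refine ⟨(D \ S) ∩ f ⁻¹' U, fun y => σ (f y), hf.isOpen_inter_preimage hop hU,
        ⟨⟨hx, hxS⟩, hzU⟩, fun y hy => hy.1.1, fun y hy hyS => (hy.1.2 hyS).elim,
        hσ.comp (hf.mono fun y hy => hy.1.1) fun y hy => hy.1.2, fun y hy => hπ _ hy.1.2,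
        fun h => (hxS h).elim⟩
  choose V l hVo hxV hVD hVS hlc hlp hlS using key
  have h1 : ∀ (i j : D) (y : E), ∃ a, y ∈ (V i ∩ V j) \ S → l i y = Z.act a (l j y) := by
    intro i j y
    by_cases hy : y ∈ (V i ∩ V j) \ S
    · obtain ⟨a, ha⟩ := Z.trans (l j y) (l i y)
        ((hlp j y ⟨hy.1.2, hy.2⟩).trans (hlp i y ⟨hy.1.1, hy.2⟩).symm)
      exact ⟨a, fun _ => ha⟩
    · exact ⟨0, fun h => (hy h).elim⟩
  choose c₀ hc₀ using h1
  let c : D → D → E → G := fun i j y => if y ∈ S then 0 else c₀ i j y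
  have hc : ∀ i j, ∀ y ∈ (V i ∩ V j) \ S, l i y = Z.act (c i j y) (l j y) := fun i j y hy => by
    simp only [c, if_neg hy.2]
    exact hc₀ i j y hy
  have hcS : ∀ i j, ∀ y ∈ S, c i j y = 0 := fun i j y hy => by simp only [c, if_pos hy]
  have hVo' : ∀ i, IsOpen (V i \ S) := fun i => by
    have : V i \ S = V i ∩ (D \ S) := by
      ext y
      exact ⟨fun h => ⟨h.1, hVD i h.1, h.2⟩, fun h => ⟨h.1, h.2.2⟩⟩
    rw [this]
    exact (hVo i).inter hop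
  obtain ⟨ε, hε, hεc⟩ := cob E D ho hD G D V hVo hVD (fun x hx => ⟨⟨x, hx⟩, hxV _⟩) c
    (by
      intro i j x hx
      by_cases hxS : x ∈ S
      · obtain rfl : i = j := Subtype.ext ((hVS i x hx.1 hxS).symm.trans (hVS j x hx.2 hxS))
        filter_upwards [(hVo i).mem_nhds hx.1] with y hy
        rw [hcS i i x hxS]
        by_cases hyS : y ∈ S
        · exact hcS i i y hyS
        · exact Z.free _ _ (hc i i y ⟨⟨hy, hy⟩, hyS⟩).symm
      · have hi := (hVo' i).mem_nhds (⟨hx.1, hxS⟩ : x ∈ V i \ S)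
        have hj := (hVo' j).mem_nhds (⟨hx.2, hxS⟩ : x ∈ V j \ S)
        have h2 : Tendsto (fun y => Z.act (c i j x) (l j y)) (𝓝 x) (𝓝 (l i x)) := by
          rw [hc i j x ⟨hx, hxS⟩]
          exact ((Z.act_cont _).tendsto _).comp ((hlc j).continuousAt hj)
        have h3 := Z.near ((hlc i).continuousAt hi) h2 (by
          filter_upwards [hi, hj] with y h h'
          rw [Z.π_act, hlp i y h, hlp j y h'])
        filter_upwards [h3, hi, hj] with y e h h'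
        exact Z.act_cancel ((hc i j y ⟨⟨h.1, h'.1⟩, h.2⟩).symm.trans e))
    (by
      intro i j k x hx
      by_cases hxS : x ∈ S
      · rw [hcS i j x hxS, hcS j k x hxS, hcS i k x hxS, add_zero]
      · refine Z.act_cancel (z := l k x) ?_
        rw [Z.act_add, ← hc j k x ⟨⟨hx.1.2, hx.2⟩, hxS⟩, ← hc i j x ⟨hx.1, hxS⟩,
          ← hc i k x ⟨⟨hx.1.1, hx.2⟩, hxS⟩])
  let g : E → Z.Z := fun y =>
    if h : y ∈ D then Z.act (-ε ⟨y, h⟩ y) (l ⟨y, h⟩ y) else ℓ y y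
  have hg : ∀ i, ∀ y ∈ V i \ S, g y = Z.act (-ε i y) (l i y) := by
    intro i y hy
    have hyD := hVD i hy.1
    simp only [g, dif_pos hyD]
    rw [hc i ⟨y, hyD⟩ y ⟨⟨hy.1, hxV ⟨y, hyD⟩⟩, hy.2⟩, ← Z.act_add,
      hεc i ⟨y, hyD⟩ y ⟨hy.1, hxV ⟨y, hyD⟩⟩]
    congr 1
    abel
  refine ⟨g, fun x hx => ?_, fun x hx => ?_, fun s hs => ?_⟩
  · have hi := (hVo' ⟨x, hx.1⟩).mem_nhds (⟨hxV _, hx.2⟩ : x ∈ V ⟨x, hx.1⟩ \ S)
    refine ContinuousAt.continuousWithinAt ?_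
    refine (((Z.act_cont (-ε ⟨x, hx.1⟩ x)).continuousAt).comp
      ((hlc ⟨x, hx.1⟩).continuousAt hi)).congr ?_
    filter_upwards [hi, hε ⟨x, hx.1⟩ x (hxV _)] with y hy e
    rw [hg _ y hy, e]
    rfl
  · rw [hg ⟨x, hx.1⟩ x ⟨hxV _, hx.2⟩, Z.π_act, hlp ⟨x, hx.1⟩ x ⟨hxV _, hx.2⟩]
  · refine ⟨-ε ⟨s, hs.1⟩ s, ?_⟩
    filter_upwards [hS s hs.1, nhdsWithin_le_nhds ((hVo ⟨s, hs.1⟩).mem_nhds (hxV _)),
      nhdsWithin_le_nhds (hε ⟨s, hs.1⟩ s (hxV _))] with y h1 h2 h3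
    rw [hg _ y ⟨h2, h1⟩, h3, hlS ⟨s, hs.1⟩ hs.2]

theorem LIFT : LIFT_statement := LIFTX COB

theorem isOpen_B2 (r : ℝ) : IsOpen (B2 r) := isOpen_lt (by fun_prop) continuous_const

theorem isOpen_B0 (r : ℝ) : IsOpen (B0 r) := (isOpen_B2 r).sdiff isClosed_singleton

theorem neg_mem_B2 {r : ℝ} {z : ℂ × ℂ} (h : z ∈ B2 r) : -z ∈ B2 r := by
  simpa [B2] using h

theorem neg_mem_B0 {r : ℝ} {z : ℂ × ℂ} (h : z ∈ B0 r) : -z ∈ B0 r :=
  ⟨neg_mem_B2 h.1, fun e => h.2 (by simpa using e)⟩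

theorem TOCOV : TOCOV_statement := by
  classical
  intro X _ _ _ _ w W G _ c
  refine ⟨c.gcov, fun S γ hW hc hev ⟨ε, hlc, hco, hmon⟩ => ?_⟩
  rcases (B0 S.r).eq_empty_or_nonempty with e | ⟨z₀, hz₀⟩
  · exfalso
    have : ((Real.sqrt (S.r / 2) : ℂ), (0 : ℂ)) ∈ B0 S.r := by
      have h2 : 0 < S.r / 2 := half_pos S.r_pos
      refine ⟨?_, fun h => ?_⟩
      · simp only [B2, mem_setOf_eq, Complex.norm_real, Real.norm_eq_abs, sq_abs, norm_zero]
        rw [Real.sq_sqrt h2.le]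
        linarith
      · have := congrArg (fun z : ℂ × ℂ => z.1.re) (mem_singleton_iff.1 h)
        simp only [Complex.ofReal_re, Prod.fst_zero, Complex.zero_re] at this
        exact (Real.sqrt_pos.2 h2).ne' this
    rw [e] at this
    exact this
  have hW' : ∀ z ∈ B0 S.r, sq S z ∈ W := fun z hz => hW ⟨z, hz, rfl⟩
  let ℓ : ℂ × ℂ → c.Tot := fun z => if h : z ∈ B0 S.r then
    c.pt (c.idx (hW' z h)) (hW' z h) (ε (c.idx (hW' z h)) z) else
    c.pt (c.idx (hW' z₀ hz₀)) (hW' z₀ hz₀) 0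
  have hx : ∀ z ∈ B0 S.r, (ℓ z).x = sq S z := fun z hz => by
    simp only [ℓ, dif_pos hz]
    rfl
  have hl : ∀ i, ∀ z ∈ B0 S.r, sq S z ∈ c.V i → (ℓ z).co i = ε i z := by
    intro i z hz hi
    have hj := c.idx_mem (hW' z hz)
    rw [Coc.Tot.co_co (i := i) (j := c.idx (hW' z hz)) (by rw [hx z hz]; exact hi)
      (by rw [hx z hz]; exact hj), hx z hz, hco i _ z hz ⟨hi, hj⟩]
    simp only [ℓ, dif_pos hz, Coc.co_pt, sub_add_cancel]
  refine ⟨ℓ, fun z hz => ?_, hx, fun z hz => ?_⟩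
  · obtain ⟨i, hi⟩ := c.cov _ (hW' z hz)
    refine Coc.tendsto_tot (i := i) (by rw [hx z hz]; exact hi) ?_ ?_
    · rw [hx z hz]
      refine (hc z hz).tendsto.congr' ?_
      filter_upwards [self_mem_nhdsWithin] with y hy
      exact (hx y hy).symm
    · filter_upwards [self_mem_nhdsWithin, (hc z hz).tendsto ((c.opn i).mem_nhds hi),
        nhdsWithin_le_nhds (hlc i z ⟨hz, hi⟩)] with y h1 h2 h3
      rw [hl i y h1 h2, hl i z hz hi]
      exact h3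
  · obtain ⟨i, hi⟩ := c.cov _ (hW' z hz)
    have hz' := neg_mem_B0 hz
    refine Coc.Tot.ext' (i := i) ((hx _ hz').trans ((hev z hz).trans (hx z hz).symm)) ?_
    rw [hl i _ hz' (by rw [hev z hz]; exact hi), hmon i z hz hi]
    exact ((Coc.co_act i γ (ℓ z)).trans (by rw [hl i z hz hi])).symm

end Vale.Agent.P247Y
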