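import Vale.Agent.P247Y.Sta
import Vale.Agent.P247.H74.RPFIN.Asm

/-!
# P247, block Y, row FAM: the family of tori near the standard torus
-/

set_option linter.all false

open scoped ContDiff Topology
open Set Filter Metric

noncomputable section

namespace Vale.Agent.P247Y.FamP

open Vale.Agent.P247.H74
open Vale.Agent.P247 (H832.fam_contDiffOn_tot H832.fam_tendC1 H832.imm_up H832.contDiff_up
  H832.exists_coord H832.phi_add_int H832.fam_per H832.fderiv_slice)

variable {D : Data} {U : Set P2} {F : P2 → P2 → R4} {T : P2 → ℂ}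

theorem fam_mono (h : Fam D U F T) {V : Set P2} (hV : V ⊆ U) : Fam D V F T where
  smooth := h.smooth.mono (prod_mono hV subset_rfl)
  smoothT := h.smoothT.mono hV
  jt y hy := h.jt y (hV hy)
  cen y hy := h.cen y (hV hy)
  flux_eq y hy := h.flux_eq y (hV hy)
  imm y hy := h.imm y (hV hy)

theorem tot_contDiffAt (h : Fam D U F T) (hU : IsOpen U) {q : P2 × P2} (hq : q.1 ∈ U) :
    ContDiffAt ℝ ∞ (tot F) q :=
  (H832.fam_contDiffOn_tot h).contDiffAt ((hU.prod isOpen_univ).mem_nhds ⟨hq, mem_univ _⟩)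

theorem tot_bij (h : Fam D U F T) (hU : IsOpen U) {q : P2 × P2} (hq : q.1 ∈ U) :
    Function.Bijective (fderiv ℝ (tot F) q) := by
  have hinj : Function.Injective (fderiv ℝ (tot F) q) := RPFIN.DPsi D U F T hU h q.1 hq q.2
  have hfin : Module.finrank ℝ (P2 × P2) = Module.finrank ℝ R4 := by simp
  exact ⟨hinj, (LinearMap.injective_iff_surjective_of_finrank_eq_finrank hfin
      (f := (fderiv ℝ (tot F) q).toLinearMap)).1 hinj⟩

theorem tot_map_nhds (h : Fam D U F T) (hU : IsOpen U) {q : P2 × P2} (hq : q.1 ∈ U) :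
    map (tot F) (𝓝 q) = 𝓝 (tot F q) := by
  have hst : HasStrictFDerivAt (tot F) (fderiv ℝ (tot F) q) q :=
    (tot_contDiffAt h hU hq).hasStrictFDerivAt (by simp)
  refine hst.map_nhds_eq_of_surj ?_
  exact LinearMap.range_eq_top.2 (tot_bij h hU hq).2

theorem tot_per (h : Fam D U F T) {y : P2} (hy : y ∈ U) (p : P2) (m n : ℤ) :
    tot F (y, (p.1 + m, p.2 + n)) = tr2 m n (tot F (y, p)) := by
  have := H832.phi_add_int (H832.fam_per h hy) m n p
  unfold tr2
  rw [add_assoc]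
  exact this

theorem tendC1_const (u : ℂ → R4) (hu : ContDiff ℝ 1 u) : TendC1 (fun _ : ℕ => u) u := by
  constructor
  · exact (tendstoUniformly_const_of_eq u).tendstoLocallyUniformly
  · exact (tendstoUniformly_const_of_eq _).tendstoLocallyUniformly
where
  tendstoUniformly_const_of_eq {X E : Type} [UniformSpace E] (f : X → E) :
      TendstoUniformly (fun _ : ℕ => f) f atTop := fun s hs =>
    Eventually.of_forall fun _ x => refl_mem_uniformity hs

/-- the maximum principle -/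
theorem maxp (h : Fam D U F T) (hU : IsOpen U) (hinj : InjOn (tot F) (U ×ˢ univ)) {u : ℂ → R4}
    (hu : JH D u) (hr : ∀ z, ∃ y ∈ U, ∃ p, u z = tot F (y, p))
    (hC : ∃ C, IsCompact C ∧ ∀ z, ∃ z' ∈ C, ∃ m n, u z = tr2 m n (u z')) :
    ∃ y ∈ U, ∀ z, ∃ p, u z = tot F (y, p) := by
  choose Y hY P hP using hr
  have huniq : ∀ z, ∀ y ∈ U, ∀ p, u z = tot F (y, p) → Y z = y := by
    intro z y hy p hz
    have := hinj (x₁ := (Y z, P z)) (x₂ := (y, p)) ⟨hY z, mem_univ _⟩ ⟨hy, mem_univ _⟩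
      ((hP z).symm.trans hz)
    exact congrArg Prod.fst this
  have hYc : Continuous Y := by
    refine continuous_iff_continuousAt.2 fun z₀ => ?_
    intro N hN
    have h1 : (N ∩ U) ×ˢ (univ : Set P2) ∈ 𝓝 (Y z₀, P z₀) :=
      prod_mem_nhds (inter_mem hN (hU.mem_nhds (hY z₀))) univ_mem
    have h2 : tot F '' ((N ∩ U) ×ˢ (univ : Set P2)) ∈ 𝓝 (u z₀) := by
      rw [hP z₀, ← tot_map_nhds h hU (q := (Y z₀, P z₀)) (hY z₀)]
      exact image_mem_map h1
    have h3 := hu.1.continuous.continuousAt h2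
    rw [mem_map] at h3 ⊢
    filter_upwards [h3] with z hz
    obtain ⟨q, hq, hqz⟩ := hz
    rw [mem_preimage, huniq z q.1 hq.1.2 q.2 hqz.symm]
    exact hq.1.1
  obtain ⟨C, hCc, hC⟩ := hC
  obtain ⟨z₁, hz₁, -⟩ := hC 0
  obtain ⟨z₀, -, hmax⟩ := hCc.exists_isMaxOn ⟨z₁, hz₁⟩
    (continuous_fst.comp hYc).continuousOn
  have hmax' : ∀ z, (Y z).1 ≤ (Y z₀).1 := by
    intro z
    obtain ⟨z', hz', m, n, he⟩ := hC z
    have : Y z = Y z' := by
      refine huniq z (Y z') (hY z') ((P z').1 + m, (P z').2 + n) ?_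
      rw [tot_per h (hY z'), ← hP z', he]
    rw [this]
    exact hmax hz'
  set y := Y z₀ with hy
  have hyU : y ∈ U := hY z₀
  -- leaves beyond the maximum
  obtain ⟨δ, hδ, hδU⟩ := Metric.isOpen_iff.1 hU y hyU
  set yn : ℕ → P2 := fun n => y + ((δ / 2) * (1 / ((n : ℝ) + 1)), 0) with hyn
  have hpos : ∀ n : ℕ, 0 < (δ / 2) * (1 / ((n : ℝ) + 1)) := fun n => by positivity
  have hynU : ∀ n, yn n ∈ U := by
    intro n
    refine hδU ?_
    rw [mem_ball, dist_eq_norm, hyn]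
    simp only [add_sub_cancel_left, Prod.norm_def, norm_zero, Real.norm_eq_abs]
    rw [abs_of_pos (hpos n), max_eq_left (hpos n).le]
    have : 1 / ((n : ℝ) + 1) ≤ 1 := by
      rw [div_le_one (by positivity)]
      linarith [n.cast_nonneg (α := ℝ)]
    nlinarith
  have hlim : Tendsto yn atTop (𝓝 y) := by
    have h1 : Tendsto (fun n : ℕ => (δ / 2) * (1 / ((n : ℝ) + 1))) atTop (𝓝 ((δ / 2) * 0)) :=
      tendsto_one_div_add_atTop_nhds_zero_nat.const_mul _
    rw [mul_zero] at h1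
    have h2 := (tendsto_const_nhds (x := y)).add
      (h1.prodMk_nhds (tendsto_const_nhds (x := (0 : ℝ))))
    have h3 : y + ((0 : ℝ), (0 : ℝ)) = y := add_zero y
    rw [h3] at h2
    exact h2
  have hτ := (h.jt y hyU).im_pos
  have hopen : IsOpen {z | Y z = y} := by
    rw [isOpen_iff_mem_nhds]
    intro z hz
    obtain ⟨w, hw⟩ := H832.exists_coord hτ (P z)
    have hz' : Y z = y := hz
    have he : u z = up (F y) (T y) w := by
      rw [hP z, hz']
      unfold up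
      rw [hw]
      rfl
    rcases L1 D u _ z w hu (K2H.JH_up (h.jt y hyU)) he (H832.imm_up h hyU w) with
      ⟨ε, hε, ζ, -, -, hζ⟩ | ⟨-, hst⟩
    · filter_upwards [ball_mem_nhds z hε] with z' hz'
      exact huniq z' y hyU _ (hζ z' hz')
    · exfalso
      have h1 : ContDiff ℝ 1 u := hu.1.of_le (by simp)
      obtain ⟨n, z', -, w', -, hn⟩ := (hst 1 one_pos (fun _ => u) _ (fun _ => h1)
        (fun n => H832.contDiff_up h (hynU n)) (tendC1_const u h1)
        (H832.fam_tendC1 h hU hyU hynU hlim)).exists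
      have h2 : Y z' = yn n := huniq z' _ (hynU n) _ hn
      have h3 := hmax' z'
      rw [h2, hyn] at h3
      simp only [Prod.fst_add] at h3
      linarith [hpos n]
  have hcl : IsClosed {z | Y z = y} := isClosed_eq hYc continuous_const
  have hall : {z | Y z = y} = univ := IsClopen.eq_univ ⟨hcl, hopen⟩ ⟨z₀, rfl⟩
  refine ⟨y, hyU, fun z => ⟨P z, ?_⟩⟩
  have : Y z = y := (hall ▸ mem_univ z : z ∈ {z | Y z = y})
  rw [← this]
  exact hP z

/-- the tori near the zero section stay in the tube -/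
theorem small (h : Fam D U F T) (hU : IsOpen U) {y₀ : P2} (hy₀ : y₀ ∈ U)
    (h0 : F y₀ = fun _ => 0) {r : ℝ} (hr : 0 < r) :
    ∀ᶠ y in 𝓝 y₀, ∀ p, ‖F y p‖ < r := by
  have hc : ∀ p ∈ Icc (0 : P2) 1, ∀ᶠ q : P2 × P2 in 𝓝 (y₀, p), ‖F q.1 q.2‖ < r := by
    intro p _
    have h1 : ContinuousAt (fun q : P2 × P2 => F q.1 q.2) (y₀, p) :=
      h.smooth.continuousOn.continuousAt ((hU.prod isOpen_univ).mem_nhds ⟨hy₀, mem_univ _⟩)
    refine h1.norm.eventually_lt continuousAt_const ?_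
    simp only [h0, norm_zero]
    exact hr
  have h2 := isCompact_Icc.eventually_forall_of_forall_eventually
    (P := fun y p => ‖F y p‖ < r) hc
  filter_upwards [h2, hU.mem_nhds hy₀] with y hy hyU p
  have h1 : F y (Int.fract p.1, Int.fract p.2) = F y p := by
    have := H832.fam_per h hyU (-⌊p.1⌋) (-⌊p.2⌋) p
    rw [← this]
    congr 2 <;> rw [Int.fract] <;> push_cast <;> ring
  rw [← h1]
  refine hy _ ⟨?_, ?_⟩
  · exact ⟨Int.fract_nonneg _, Int.fract_nonneg _⟩
  · exact ⟨(Int.fract_lt_one _).le, (Int.fract_lt_one _).le⟩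

theorem ds_lin (p : P2) : ds (phi fun _ => 0) p = e 2 := by
  have h1 : phi (fun _ => 0) = lin := by
    funext p
    simp [phi]
  rw [h1]
  obtain ⟨L, hL⟩ : ∃ L : P2 →L[ℝ] R4, ∀ p, L p = lin p := by
    refine ⟨(ContinuousLinearMap.fst ℝ ℝ ℝ).smulRight (e 2) +
      (ContinuousLinearMap.snd ℝ ℝ ℝ).smulRight (e 3), fun p => ?_⟩
    have := Vale.Agent.P247.H832.lin_int p.1 p.2
    simpa using this.symm
  have h2 : lin = L := funext fun p => (hL p).symm
  unfold ds
  rw [h2, L.fderiv, hL]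
  rw [Vale.Agent.P247.H832.lin_int]
  simp

theorem lin_per (p : P2) (m n : ℤ) : lin (p.1 + m, p.2 + n) = tr2 m n (lin p) := by
  have h1 : ((p.1 + m, p.2 + n) : P2) = p + ((m : ℝ), (n : ℝ)) := rfl
  rw [h1, Vale.Agent.P247.H832.lin_add, Vale.Agent.P247.H832.lin_int (m : ℝ) (n : ℝ), tr2,
    add_assoc]

theorem slice (h : Fam D U F T) (hU : IsOpen U) {q : P2 × P2} (hq : q.1 ∈ U) (a : P2) :
    fderiv ℝ (tot F) q (0, a) = fderiv ℝ (phi (F q.1)) q.2 a := by
  have h1 := H832.fderiv_slice (G := tot F) (y := q.1) (z := q.2)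
    ((tot_contDiffAt h hU hq).differentiableAt (by simp))
  have h2 : (fun z => tot F (q.1, z)) = phi (F q.1) := rfl
  rw [h2] at h1
  rw [h1.fderiv]
  rfl

end Vale.Agent.P247Y.FamP

namespace Vale.Agent.P247Y

open Vale.Agent.P247.H74 FamP

theorem FAM : FAM_statement := by
  intro D τ₀ hJ r hr
  have hcen : Cen fun _ : P2 => (0 : R4) := by
    constructor <;> simp [mean]
  have himm : Imm fun _ : P2 => (0 : R4) := by
    intro p
    rw [ds_lin]
    intro h
    have := congrFun h 2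
    simp [e] at this
  have hinj0 : Inj fun _ : P2 => (0 : R4) := by
    intro p q hpq
    have h2 := congrFun hpq 2
    have h3 := congrFun hpq 3
    simp [phi, lin] at h2 h3
    exact Prod.ext h2 h3
  obtain ⟨ε₁, hε₁, F, T, hF, hF0, -, -⟩ := RPFIN.K3 D _ τ₀ hJ hcen himm
  set y₀ := flux D fun _ : P2 => (0 : R4) with hy₀
  obtain ⟨ε₂, hε₂, h21, hinj⟩ := RPFIN.INJ0 D y₀ ε₁ F T hε₁ hF (by rw [hF0]; exact hinj0)
  obtain ⟨ε₃, hε₃, hsm⟩ := Metric.eventually_nhds_iff_ball.1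
    (small hF isOpen_ball (mem_ball_self hε₁) hF0 hr)
  set ε := min ε₂ ε₃ with hε
  have hε0 : 0 < ε := lt_min hε₂ hε₃
  have hG : Fam D (ball y₀ ε) F T :=
    fam_mono hF (ball_subset_ball ((min_le_left _ _).trans h21))
  have hGi : InjOn (tot F) (ball y₀ ε ×ˢ univ) :=
    hinj.mono (prod_mono (ball_subset_ball (min_le_left _ _)) subset_rfl)
  have hmem : ∀ {y : P2}, y ∈ ball (0 : P2) ε → y₀ + y ∈ ball y₀ ε := by
    intro y hy
    rw [mem_ball, dist_eq_norm] at hy ⊢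
    simpa using hy
  classical
  set s : P2 × P2 → P2 × P2 := fun q => (y₀, 0) + q with hs
  have hs1 : ∀ q, s q = (y₀ + q.1, q.2) := fun q => Prod.ext rfl (zero_add _)
  set Φ : P2 × P2 → R4 := fun q => if q.1 ∈ ball (0 : P2) ε then tot F (s q) else lin q.2
    with hΦ
  have hΦ1 : ∀ q ∈ Dom ε, Φ q = tot F (s q) := fun q hq => if_pos hq.1
  have hDo : IsOpen (Dom ε) := isOpen_ball.prod isOpen_univ
  have hΦ2 : ∀ q ∈ Dom ε, Φ =ᶠ[𝓝 q] fun q => tot F (s q) := fun q hq => by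
    filter_upwards [hDo.mem_nhds hq] with q' hq' using hΦ1 q' hq'
  have hsm1 : ∀ q ∈ Dom ε, (s q).1 ∈ ball y₀ ε := fun q hq => by
    rw [hs1]; exact hmem hq.1
  have hfd : ∀ q ∈ Dom ε, fderiv ℝ Φ q = fderiv ℝ (tot F) (s q) := by
    intro q hq
    rw [(hΦ2 q hq).fderiv_eq]
    exact fderiv_comp_add_left _
  refine ⟨ε, hε0, Φ, fun y => T (y₀ + y), ?_, ?_, ?_, ?_, ?_, ?_, ?_, ?_, ?_⟩
  · intro q hq
    refine ContDiffAt.contDiffWithinAt (ContDiffAt.congr_of_eventuallyEq ?_ (hΦ2 q hq))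
    exact (tot_contDiffAt hG isOpen_ball (hsm1 q hq)).comp q
      (contDiff_const.add contDiff_id).contDiffAt
  · intro q hq
    rw [hfd q hq]
    exact tot_bij hG isOpen_ball (hsm1 q hq)
  · intro y p m n
    by_cases hy : y ∈ ball (0 : P2) ε
    · rw [hΦ1 _ ⟨hy, mem_univ _⟩, hΦ1 _ ⟨hy, mem_univ _⟩, hs1, hs1]
      exact tot_per hG (hmem hy) p m n
    · simp only [hΦ, if_neg hy]
      exact lin_per p m n
  · intro q hq q' hq' he
    rw [hΦ1 q hq, hΦ1 q' hq'] at he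
    exact add_left_cancel (hGi ⟨hsm1 q hq, mem_univ _⟩ ⟨hsm1 q' hq', mem_univ _⟩ he)
  · rintro _ ⟨q, hq, rfl⟩
    rw [hΦ1 q hq]
    have h1 := hsm (s q).1 (ball_subset_ball (min_le_right _ _) (hsm1 q hq)) (s q).2
    have h2 : ∀ i : Fin 4, lin (s q).2 i = 0 → |tot F (s q) i| < r := by
      intro i hi
      have h3 : tot F (s q) i = F (s q).1 (s q).2 i := by
        show lin (s q).2 i + _ = _
        rw [hi, zero_add]
      rw [h3]
      exact (norm_le_pi_norm _ i).trans_lt h1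
    exact ⟨h2 0 rfl, h2 1 rfl⟩
  · intro p
    rw [hΦ1 _ ⟨mem_ball_self hε0, mem_univ _⟩, hs1]
    simp [tot, phi, hF0]
  · intro y hy
    exact (hG.jt _ (hmem hy)).im_pos
  · intro q hq
    rw [hfd q hq, hΦ1 q hq, slice hG isOpen_ball (hsm1 q hq), slice hG isOpen_ball (hsm1 q hq)]
    have := (hG.jt _ (hsm1 q hq)).eq (s q).2
    exact this
  · intro u hu hr hC
    obtain ⟨y, hy, hz⟩ := maxp hG isOpen_ball hGi hu (fun z => by
      obtain ⟨q, hq, he⟩ := hr (mem_range_self z)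
      exact ⟨(s q).1, hsm1 q hq, (s q).2, by rw [← he, hΦ1 q hq]⟩) hC
    have hy' : y - y₀ ∈ ball (0 : P2) ε := by
      rw [mem_ball, dist_eq_norm] at hy ⊢
      simpa using hy
    refine ⟨y - y₀, hy', fun z => ?_⟩
    obtain ⟨p, hp⟩ := hz z
    refine ⟨p, ?_⟩
    rw [hΦ1 _ ⟨hy', mem_univ _⟩, hs1, hp]
    simp

end Vale.Agent.P247Y
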