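import Vale.Agent.P247Y.Sta
import Vale.Agent.P247Y.LocInv
import Vale.Agent.P247C.T3

/-!
# P247, block Y: basic properties of foliated neighbourhoods, tangent vectors of curves
-/

set_option linter.all false

open scoped Manifold ContDiff Topology
open Set MeasureTheory Filter Metric Function

noncomputable section

namespace Vale.Agent.P247Y.FolH

open Vale.Agent.P247.SCY
open Vale.Agent.P247.SCY.HS
open Vale.Agent.P247X
open Vale.Agent.P247.H74 (P2)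

/-- `p ↦ p.1 + p.2 τ` -/
def un (τ : ℂ) : P2 →L[ℝ] ℂ :=
  (ContinuousLinearMap.fst ℝ ℝ ℝ).smulRight 1 + (ContinuousLinearMap.snd ℝ ℝ ℝ).smulRight τ

theorem un_apply (τ : ℂ) (p : P2) : un τ p = p.1 + p.2 * τ := by
  simp [un]

/-- the coordinates in the basis `1, τ` -/
def co (τ : ℂ) : ℂ →L[ℝ] P2 :=
  (Complex.reCLM - (τ.re / τ.im) • Complex.imCLM).prod ((1 / τ.im) • Complex.imCLM)

theorem co_apply (τ z : ℂ) : co τ z = (z.re - τ.re / τ.im * z.im, 1 / τ.im * z.im) := rfl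

theorem co_un {τ : ℂ} (h : 0 < τ.im) (p : P2) : co τ (p.1 + p.2 * τ) = p := by
  rw [co_apply]
  ext
  · simp
    field_simp
    ring
  · simp
    field_simp

theorem un_co {τ : ℂ} (h : 0 < τ.im) (z : ℂ) : ((co τ z).1 + (co τ z).2 * τ : ℂ) = z := by
  rw [co_apply]
  apply Complex.ext
  · simp
    field_simp
    ring
  · simp
    field_simp

theorem co_add {τ : ℂ} (h : 0 < τ.im) (z : ℂ) (m n : ℤ) :
    co τ (z + m + n * τ) = ((co τ z).1 + m, (co τ z).2 + n) := by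
  have h1 := co_un h ((m : ℝ), (n : ℝ))
  simp only [Complex.ofReal_intCast] at h1
  rw [add_assoc, map_add, h1]
  rfl

theorem isOpen_Dom (ε : ℝ) : IsOpen (Dom ε) := isOpen_ball.prod isOpen_univ

theorem Dom_mono {ε ε' : ℝ} (h : ε ≤ ε') : Dom ε ⊆ Dom ε' :=
  prod_mono (ball_subset_ball h) Subset.rfl

theorem round_mem (p : P2) : (p.1 + ((-round p.1 : ℤ) : ℝ), p.2 + ((-round p.2 : ℤ) : ℝ)) ∈
    closedBall (0 : P2) (1 / 2) := by
  rw [mem_closedBall_zero_iff, Prod.norm_def, max_le_iff, Real.norm_eq_abs, Real.norm_eq_abs]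
  push_cast
  exact ⟨abs_sub_round p.1, abs_sub_round p.2⟩

variable {Z : Type} [TopologicalSpace Z] [ChartedSpace HS.E4 Z] {J : EndF Z}

/-- the slice of a family -/
theorem slice_der {Ψ : P2 × P2 → Z} {y : P2} {A : ℂ →L[ℝ] P2} {z : ℂ}
    (h : MDifferentiableAt 𝓘(ℝ, P2 × P2) (𝓡 4) Ψ (y, A z)) (a : ℂ) :
    dm (fun w => Ψ (y, A w)) z a = dmP Ψ (y, A z) (0, A a) := by
  have h1 : HasFDerivAt (fun w => (y, A w)) ((0 : ℂ →L[ℝ] P2).prod A) z :=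
    (hasFDerivAt_const y z).prodMk A.hasFDerivAt
  exact DFunLike.congr_fun (h.hasMFDerivAt.comp z h1.hasMFDerivAt).mfderiv a

theorem slice_sm {Ψ : P2 × P2 → Z} {s : Set P2} (hs : IsOpen s)
    (h : ContMDiffOn 𝓘(ℝ, P2 × P2) (𝓡 4) ∞ Ψ (s ×ˢ univ)) {y : P2} (hy : y ∈ s)
    (A : ℂ →L[ℝ] P2) : ContMDiff 𝓘(ℝ, ℂ) (𝓡 4) ∞ fun w => Ψ (y, A w) := by
  intro z
  have h1 : ContDiff ℝ ∞ fun w => (y, A w) := contDiff_const.prodMk A.contDiff
  exact (h.contMDiffAt ((hs.prod isOpen_univ).mem_nhds ⟨hy, trivial⟩)).comp z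
    h1.contMDiff.contMDiffAt

/-- the leaves as tori -/
def leafTor (F : Fol J) {y : P2} (hy : y ∈ ball (0 : P2) F.ε) : Tor J where
  u w := F.Ψ (y, co (F.τ y) w)
  τ := F.τ y
  τ_pos := F.τ_pos y hy
  smooth := slice_sm isOpen_ball F.smooth hy _
  per m n z := by rw [co_add (F.τ_pos y hy), F.per]
  inj z z' h := by
    obtain ⟨-, m, n, h2⟩ := F.inj _ ⟨hy, trivial⟩ _ ⟨hy, trivial⟩ h
    refine ⟨m, n, ?_⟩
    rw [← un_co (F.τ_pos y hy) z', ← un_co (F.τ_pos y hy) (z + m + n * F.τ y),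
      co_add (F.τ_pos y hy), show co (F.τ y) z' = _ from h2]
  imm z h := by
    have hq : (y, co (F.τ y) z) ∈ Dom F.ε := ⟨hy, trivial⟩
    rw [slice_der ((F.smooth.contMDiffAt ((isOpen_Dom _).mem_nhds hq)).mdifferentiableAt
      (by simp))] at h
    have h2 := (F.bij _ hq).1 (h.trans (map_zero
      (mfderiv 𝓘(ℝ, P2 × P2) (𝓡 4) F.Ψ (y, co (F.τ y) z))).symm)
    have h3 : (co (F.τ y) 1).1 = 0 := congrArg (fun q : P2 × P2 => q.2.1) h2
    simp [co_apply] at h3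
  hol z := by
    have hq : (y, co (F.τ y) z) ∈ Dom F.ε := ⟨hy, trivial⟩
    have hd := (F.smooth.contMDiffAt ((isOpen_Dom _).mem_nhds hq)).mdifferentiableAt (by simp)
    have hτ := F.τ_pos y hy
    have h1 : co (F.τ y) 1 = (1, 0) := by simp [co_apply]
    have h2 : ((0 : P2), co (F.τ y) Complex.I) =
        (-((F.τ y).re / (F.τ y).im)) • ((0 : P2), ((1 : ℝ), (0 : ℝ))) +
          (1 / (F.τ y).im) • ((0 : P2), ((0 : ℝ), (1 : ℝ))) := by
      simp [co_apply]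
    have h3 : ∀ (L : P2 × P2 →L[ℝ] HS.E4) (v : HS.E4),
        L (0, (0, 1)) = (F.τ y).re • L (0, (1, 0)) + (F.τ y).im • v →
        L (0, co (F.τ y) Complex.I) = v := by
      intro L v h
      rw [h2, map_add, map_smul, map_smul, h, smul_add, smul_smul, smul_smul, ← add_assoc,
        ← add_smul, one_div_mul_cancel hτ.ne', one_smul]
      have : -((F.τ y).re / (F.τ y).im) + 1 / (F.τ y).im * (F.τ y).re = 0 := by ring
      rw [this, zero_smul, zero_add]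
    unfold JAt
    rw [slice_der hd, slice_der hd, h1]
    exact h3 (mfderiv 𝓘(ℝ, P2 × P2) (𝓡 4) F.Ψ (y, co (F.τ y) z)) _ (F.hol _ hq)

/-- shrinking -/
def shrink (F : Fol J) (ε : ℝ) (h0 : 0 < ε) (h : ε ≤ F.ε) : Fol J where
  ε := ε
  ε_pos := h0
  Ψ := F.Ψ
  τ := F.τ
  smooth := F.smooth.mono (Dom_mono h)
  bij q hq := F.bij q (Dom_mono h hq)
  per := F.per
  inj q hq q' hq' := F.inj q (Dom_mono h hq) q' (Dom_mono h hq')
  τ_pos y hy := F.τ_pos y (ball_subset_ball h hy)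
  hol q hq := F.hol q (Dom_mono h hq)
  maxp T hT := by
    obtain ⟨y, hy, h2⟩ := F.maxp T (hT.trans (image_mono (Dom_mono h)))
    obtain ⟨q, hq, h3⟩ := hT ⟨0, rfl⟩
    obtain ⟨p, h4⟩ : T.u 0 ∈ range fun p => F.Ψ (y, p) := h2 ▸ ⟨0, rfl⟩
    have h5 := (F.inj q (Dom_mono h hq) (y, p) ⟨hy, trivial⟩ (h3.trans h4.symm)).1
    exact ⟨y, show (y, p).1 ∈ _ from h5 ▸ hq.1, h2⟩

section tang

/-- near `f z` the set `K` is the image of small neighbourhoods of `z` -/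
theorem near [T2Space Z] {f : ℂ → Z} (hf : Continuous f) {z : ℂ} {A : Set ℂ} (hA : IsCompact A)
    {K C : Set Z} (hC : IsClosed C) (hz : f z ∉ C) (hK : K ⊆ f '' A ∪ C)
    (hi : ∀ a ∈ A, f a = f z → a = z) {W : Set ℂ} (hW : W ∈ 𝓝 z) :
    ∀ᶠ x in 𝓝 (f z), x ∈ K → x ∈ f '' W := by
  have h1 := P247C.far_aux (hA.diff (t := interior W) isOpen_interior) hf.continuousOn
    (y := f z) fun a ha h => ha.2 (hi a ha.1 h ▸ mem_interior_iff_mem_nhds.2 hW)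
  filter_upwards [h1, hC.isOpen_compl.mem_nhds hz] with x hx hx2 hxK
  rcases hK hxK with ⟨a, ha, rfl⟩ | h
  · by_cases h : a ∈ interior W
    · exact mem_image_of_mem f (interior_subset h)
    · exact (hx a ⟨ha, h⟩ rfl).elim
  · exact (hx2 h).elim

variable [IsManifold (𝓡 4) ∞ Z]

theorem tang_core {f : ℂ → Z} (hf : ContMDiff 𝓘(ℝ, ℂ) (𝓡 4) ∞ f) {z : ℂ}
    (hi : Injective (mfderiv 𝓘(ℝ, ℂ) (𝓡 4) f z)) {K : Set Z}
    (hK : ∀ W ∈ 𝓝 z, ∀ᶠ x in 𝓝 (f z), x ∈ K → x ∈ f '' W) {γ : ℝ → Z}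
    (hγ : MDifferentiableAt 𝓘(ℝ, ℝ) (𝓡 4) γ 0) (hm : ∀ᶠ t in 𝓝 (0 : ℝ), γ t ∈ K)
    (h0 : γ 0 = f z) :
    ∃ a, (mfderiv 𝓘(ℝ, ℝ) (𝓡 4) γ 0 (1 : ℝ) : HS.E4) = (dm f z a : HS.E4) := by
  obtain ⟨r, U, h1, h2, h3, h4⟩ := exists_retr isOpen_univ hf.contMDiffOn (mem_univ z) hi
  have h5 := hK _ h4
  rw [← h0] at h5 h2
  have h6 : γ =ᶠ[𝓝 0] f ∘ r ∘ γ := by
    filter_upwards [hγ.continuousAt.eventually h5, hm] with t ht ht2
    obtain ⟨y, hy, h7⟩ := ht ht2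
    have h8 : r (f y) = y := hy
    rw [comp_apply, comp_apply, ← h7, h8]
  have hr : MDifferentiableAt (𝓡 4) 𝓘(ℝ, ℂ) r (γ 0) :=
    (h3.contMDiffAt (h1.mem_nhds h2)).mdifferentiableAt (by simp)
  have hz : (r ∘ γ) 0 = z := by
    rw [comp_apply, h0]
    exact h4.self_of_nhds
  have h9 := mfderiv_comp 0 ((hf ((r ∘ γ) 0)).mdifferentiableAt (by simp)) (hr.comp 0 hγ)
  refine ⟨mfderiv 𝓘(ℝ, ℝ) 𝓘(ℝ, ℂ) (r ∘ γ) 0 (1 : ℝ), ?_⟩
  have h10 := DFunLike.congr_fun (h6.mfderiv_eq.trans h9) (1 : ℝ)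
  subst hz
  exact h10

omit [IsManifold (𝓡 4) ∞ Z] in
theorem imm_inj (hJ : ∀ x v, J x (J x v) = -v) {u : ℂ → Z} {z : ℂ} (h : JAt J u z)
    (hne : dm u z 1 ≠ 0) : Injective (mfderiv 𝓘(ℝ, ℂ) (𝓡 4) u z) :=
  (injective_iff_map_eq_zero _).2 fun _ ha => P247C.dm_inj hJ h hne ha

omit [IsManifold (𝓡 4) ∞ Z] in
theorem tor_near [T2Space Z] (T : Tor J) (z : ℂ) {W : Set ℂ} (hW : W ∈ 𝓝 z) :
    ∀ᶠ x in 𝓝 (T.u z), x ∈ T.set → x ∈ T.u '' W := by
  refine near T.smooth.continuous (A := (fun p => z + un T.τ p) '' closedBall 0 (1 / 2))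
    ((isCompact_closedBall _ _).image (by fun_prop)) isClosed_empty (notMem_empty _) ?_ ?_ hW
  · rintro _ ⟨w, rfl⟩
    refine Or.inl ⟨_, ⟨_, round_mem (co T.τ (w - z)), rfl⟩, ?_⟩
    rw [← T.per (-round (co T.τ (w - z)).1) (-round (co T.τ (w - z)).2) w]
    congr 1
    have h := un_co T.τ_pos (w - z)
    simp only [un_apply]
    push_cast
    linear_combination h
  · rintro _ ⟨p, hp, rfl⟩ h
    obtain ⟨m, n, h2⟩ := T.inj _ _ h.symm
    have h3 : un T.τ p = ((m : ℝ), (n : ℝ)).1 + ((m : ℝ), (n : ℝ)).2 * T.τ := by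
      simp only [Complex.ofReal_intCast]
      linear_combination h2
    have h4 := congrArg (co T.τ) h3
    rw [un_apply, co_un T.τ_pos, co_un T.τ_pos] at h4
    rw [h4, mem_closedBall_zero_iff, Prod.norm_def, max_le_iff, Real.norm_eq_abs,
      Real.norm_eq_abs] at hp
    have h5 : ∀ k : ℤ, |(k : ℝ)| ≤ 1 / 2 → k = 0 := fun k hk => by
      have h6 : |(k : ℝ)| < 1 := by linarith
      have h7 : |k| < 1 := by exact_mod_cast h6
      exact Int.abs_lt_one_iff.1 h7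
    rw [h5 m hp.1, h5 n hp.2] at h2
    simpa using h2

omit [IsManifold (𝓡 4) ∞ Z] in
theorem sph_near [T2Space Z] (S : Sph J) (z : ℂ) {W : Set ℂ} (hW : W ∈ 𝓝 z) :
    ∀ᶠ x in 𝓝 (S.u z), x ∈ S.set → x ∈ S.u '' W := by
  have hR : 0 < ‖z‖ + 1 := by positivity
  refine near S.u_smooth.continuous (isCompact_closedBall 0 (‖z‖ + 1))
    ((isCompact_closedBall 0 (‖z‖ + 1)⁻¹).image S.v_smooth.continuous).isClosed ?_ ?_
    (fun a _ h => S.inj h) hW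
  · rintro ⟨b, hb, h⟩
    by_cases hb0 : b = 0
    · exact S.inf ⟨z, by rw [← h, hb0]⟩
    · rw [S.glue b hb0] at h
      rw [mem_closedBall_zero_iff, ← S.inj h, norm_inv,
        le_inv_comm₀ (norm_pos_iff.2 hb0) (by positivity)] at hb
      linarith
  · rintro _ (rfl | ⟨w, rfl⟩)
    · exact Or.inr ⟨0, mem_closedBall_self (by positivity), rfl⟩
    · by_cases hw : ‖w‖ ≤ ‖z‖ + 1
      · exact Or.inl ⟨w, mem_closedBall_zero_iff.2 hw, rfl⟩
      · have hw0 : w ≠ 0 := by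
          rintro rfl
          exact hw (by simpa using hR.le)
        refine Or.inr ⟨w⁻¹, ?_, by rw [S.glue _ (inv_ne_zero hw0), inv_inv]⟩
        rw [mem_closedBall_zero_iff, norm_inv]
        exact inv_anti₀ hR (not_le.1 hw).le

/-- the sphere with the charts exchanged -/
def swap (S : Sph J) : Sph J where
  u := S.v
  v := S.u
  u_smooth := S.v_smooth
  v_smooth := S.u_smooth
  glue z hz := by rw [S.glue _ (inv_ne_zero hz), inv_inv]
  inj a b h := by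
    by_cases ha : a = 0
    · by_cases hb : b = 0
      · rw [ha, hb]
      · exact (S.inf ⟨b⁻¹, by rw [← S.glue b hb, ← h, ha]⟩).elim
    · by_cases hb : b = 0
      · exact (S.inf ⟨a⁻¹, by rw [← S.glue a ha, h, hb]⟩).elim
      · rw [S.glue a ha, S.glue b hb] at h
        exact inv_injective (S.inj h)
  inf := by
    rintro ⟨b, h⟩
    by_cases hb : b = 0
    · exact S.inf ⟨0, by rw [← h, hb]⟩
    · rw [S.glue b hb] at h
      exact inv_ne_zero hb (S.inj h)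
  u_imm := S.v_imm
  v_imm := S.u_imm
  u_hol := S.v_hol
  v_hol := S.u_hol

omit [IsManifold (𝓡 4) ∞ Z] in
theorem swap_set (S : Sph J) : S.set ⊆ (swap S).set := by
  rintro _ (rfl | ⟨w, rfl⟩)
  · exact Or.inr ⟨0, rfl⟩
  · by_cases hw : w = 0
    · exact Or.inl (by rw [hw]; rfl)
    · exact Or.inr ⟨w⁻¹, ((swap S).glue w hw).symm⟩

end tang

end Vale.Agent.P247Y.FolH

namespace Vale.Agent.P247Y

open Vale.Agent.P247.SCY
open Vale.Agent.P247.SCY.HS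
open Vale.Agent.P247X
open Vale.Agent.P247.H74 (P2)
open FolH

theorem FOLB : FOLB_statement := by
  intro Z _ _ _ _ J F
  have hopen : ∀ s : Set P2, IsOpen s → s ⊆ ball 0 F.ε → IsOpen (F.Ψ '' (s ×ˢ univ)) :=
    fun s hs h => isOpen_image_bij (isOpen_Dom _) F.smooth F.bij (hs.prod isOpen_univ)
      (prod_mono h Subset.rfl)
  refine ⟨hopen, fun y hy => ⟨leafTor F hy, rfl, fun p => ?_⟩, ?_, fun O hO h => ?_,
    fun ε h0 h => ⟨shrink F ε h0 h, rfl, rfl, rfl⟩⟩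
  · exact congrArg (fun q => F.Ψ (y, q)) (co_un (F.τ_pos y hy) p)
  · have hπ : ∀ q ∈ Dom F.ε, (invFunOn F.Ψ (Dom F.ε) (F.Ψ q)).1 = q.1 := fun q hq =>
      (F.inj _ (invFunOn_mem ⟨q, hq, rfl⟩) q hq (invFunOn_eq ⟨q, hq, rfl⟩)).1
    refine ⟨fun x => (invFunOn F.Ψ (Dom F.ε) x).1, ?_, hπ⟩
    rintro _ ⟨q, hq, rfl⟩
    obtain ⟨e, h1, h2, h3, h4⟩ := locInv (isOpen_Dom _) F.smooth hq (F.bij q hq)
    have h5 : e.target ∈ 𝓝 (F.Ψ q) := e.open_target.mem_nhds (h3 q ▸ e.map_source h1)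
    have h6 := (ContinuousLinearMap.fst ℝ P2 P2).contMDiff.contMDiffAt.comp _ (h4.contMDiffAt h5)
    refine (h6.congr_of_eventuallyEq ?_).contMDiffWithinAt
    filter_upwards [h5] with x hx
    have h7 : F.Ψ (e.symm x) = x := by rw [← h3]; exact e.right_inv hx
    conv_lhs => rw [← h7]
    exact hπ _ (h2 (e.map_target hx))
  · obtain ⟨u, v, hu, -, h1, h2, h3⟩ := generalized_tube_lemma (isCompact_singleton (x := (0 : P2)))
      (isCompact_closedBall (0 : P2) (1 / 2))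
      (F.smooth.continuousOn.isOpen_inter_preimage (isOpen_Dom _) hO) (by
        rintro ⟨_, p⟩ ⟨rfl, -⟩
        exact ⟨⟨mem_ball_self F.ε_pos, trivial⟩, h ⟨p, rfl⟩⟩)
    obtain ⟨δ, hδ, h4⟩ := Metric.isOpen_iff.1 hu 0 (h1 rfl)
    refine ⟨min δ F.ε, lt_min hδ F.ε_pos, min_le_right _ _, ?_⟩
    rintro _ ⟨⟨y, p⟩, hq, rfl⟩
    rw [← F.per y p (-round p.1) (-round p.2)]
    exact (h3 (mk_mem_prod (h4 (ball_subset_ball (min_le_left _ _) hq.1)) (h2 (round_mem p)))).2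

/-- velocities of curves in an embedded torus or sphere are tangent -/
theorem tang0 (Z : Type) [TopologicalSpace Z] [ChartedSpace HS.E4 Z]
    [IsManifold (𝓡 4) ∞ Z] [T2Space Z] (J : EndF Z) (hJ : ∀ x u, J x (J x u) = -u) (γ : ℝ → Z)
    (hγ : MDifferentiableAt 𝓘(ℝ, ℝ) (𝓡 4) γ 0) :
    (∀ (T : Tor J) (z : ℂ), (∀ᶠ t in 𝓝 (0 : ℝ), γ t ∈ T.set) → γ 0 = T.u z →
      ∃ a, (mfderiv 𝓘(ℝ, ℝ) (𝓡 4) γ 0 (1 : ℝ) : HS.E4) = (dm T.u z a : HS.E4)) ∧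
    (∀ (S : Sph J) (z : ℂ), (∀ᶠ t in 𝓝 (0 : ℝ), γ t ∈ S.set) → γ 0 = S.u z →
      ∃ a, (mfderiv 𝓘(ℝ, ℝ) (𝓡 4) γ 0 (1 : ℝ) : HS.E4) = (dm S.u z a : HS.E4)) ∧
    ∀ (S : Sph J) (z : ℂ), (∀ᶠ t in 𝓝 (0 : ℝ), γ t ∈ S.set) → γ 0 = S.v z →
      ∃ a, (mfderiv 𝓘(ℝ, ℝ) (𝓡 4) γ 0 (1 : ℝ) : HS.E4) = (dm S.v z a : HS.E4) :=
  ⟨fun T z h h0 => tang_core T.smooth (imm_inj hJ (T.hol z) (T.imm z))
      (fun _ hW => tor_near T z hW) hγ h h0,
    fun S z h h0 => tang_core S.u_smooth (imm_inj hJ (S.u_hol z) (S.u_imm z))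
      (fun _ hW => sph_near S z hW) hγ h h0,
    fun S z h h0 => tang_core S.v_smooth (imm_inj hJ (S.v_hol z) (S.v_imm z))
      (fun _ hW => sph_near (swap S) z hW) hγ (h.mono fun _ ht => swap_set S ht) h0⟩

theorem TANG : TANG_statement := tang0

end Vale.Agent.P247Y
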