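import Vale.Agent.P247Y.Folx1
import Vale.Agent.P267.H175.Alt

/-!
# P247, block Y, row FOLX: foliated neighbourhoods of tori
-/

set_option linter.all false

open scoped Manifold ContDiff Topology
open Set MeasureTheory Filter Metric Function

noncomputable section

namespace Vale.Agent.P247Y

open Vale.Agent.P247.SCY Vale.Agent.P247.SCY.HS Vale.Agent.P247X Vale.Agent.P247C
open Vale.Agent.P247.H74 (R4 P2 Data e lin JT JH phi ds dt)
open FolH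

namespace FolX

/-- the linear embedding of the plane -/
def linL : P2 →L[ℝ] R4 := (ContinuousLinearMap.fst ℝ ℝ ℝ).smulRight (e 2) +
  (ContinuousLinearMap.snd ℝ ℝ ℝ).smulRight (e 3)

theorem lin_eq : lin = linL := by
  funext p i
  fin_cases i <;> simp [lin, linL, e]

theorem bij_two (A : ℂ →L[ℝ] P2) (h : Injective A) : Bijective A :=
  ⟨h, (LinearMap.injective_iff_surjective_of_finrank_eq_finrank (f := A.toLinearMap)
    (by simp)).1 h⟩

theorem line_zero (α : HS.E4 [⋀^Fin 2]→L[ℝ] ℝ) {K : HS.E4 →L[ℝ] HS.E4} (hK : ∀ u, K (K u) = -u)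
    (h : ∀ u v, α ![K u, K v] = -α ![u, v]) {u v : HS.E4} {a b : ℝ} (hv : v = a • u + b • K u) :
    α ![u, v] = 0 := by
  rw [hv, alt2_add_right, alt2_smul_right, alt2_smul_right, alt2_self, anti_zero α K hK h]
  simp

variable {Z : Type} [TopologicalSpace Z] [ChartedSpace HS.E4 Z] {J : EndF Z}

theorem tor_red (T : Tor J) (z : ℂ) :
    ∃ z' ∈ un T.τ '' closedBall 0 (1 / 2), T.u z' = T.u z := by
  refine ⟨_, ⟨_, round_mem (co T.τ z), rfl⟩, ?_⟩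
  rw [← T.per (-round (co T.τ z).1) (-round (co T.τ z).2) z]
  congr 1
  have h := un_co T.τ_pos z
  simp only [un_apply]
  push_cast
  linear_combination h

theorem dd4_per {Φ : R4 → Z} {x : R4} {m n : ℤ} (hp : ∀ x, Φ (tr2 m n x) = Φ x)
    (h : MDifferentiableAt 𝓘(ℝ, R4) (𝓡 4) Φ (tr2 m n x)) : dd4 Φ (tr2 m n x) = dd4 Φ x := by
  have h1 : HasFDerivAt (tr2 m n) (.id ℝ R4) x := ((hasFDerivAt_id x).add_const _).add_const _
  have h2 := (h.hasMFDerivAt.comp x h1.hasMFDerivAt).mfderiv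
  rw [show Φ ∘ tr2 m n = Φ from funext hp] at h2
  exact h2.symm

theorem dd4_lin {Φ : R4 → Z} (T : Tor J) (h : ∀ p : P2, Φ (lin p) = T.u (p.1 + p.2 * T.τ))
    {p : P2} (hd : MDifferentiableAt 𝓘(ℝ, R4) (𝓡 4) Φ (lin p)) :
    dd4 Φ (lin p) (e 2) ≠ 0 ∧ dd4 Φ (lin p) (e 3) =
      T.τ.re • dd4 Φ (lin p) (e 2) + T.τ.im • jj J (Φ (lin p)) (dd4 Φ (lin p) (e 2)) := by
  have h1 : HasFDerivAt lin linL p := lin_eq ▸ linL.hasFDerivAt
  have h2 := (hd.hasMFDerivAt.comp p h1.hasMFDerivAt).mfderiv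
  have h3 := (((T.smooth (un T.τ p)).mdifferentiableAt (by simp)).hasMFDerivAt.comp p
    (un T.τ).hasFDerivAt.hasMFDerivAt).mfderiv
  have e1 : Φ ∘ lin = T.u ∘ un T.τ := funext fun p => by rw [comp_apply, h, comp_apply, un_apply]
  have h4 : ∀ a, dd4 Φ (lin p) (linL a) = (dm T.u (un T.τ p) (un T.τ a) : HS.E4) := fun a => by
    have k : (mfderiv 𝓘(ℝ, P2) (𝓡 4) (Φ ∘ lin) p : P2 →L[ℝ] HS.E4) =
      mfderiv 𝓘(ℝ, P2) (𝓡 4) (T.u ∘ un T.τ) p := by rw [e1]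
    exact DFunLike.congr_fun (h2.symm.trans (k.trans h3)) a
  have h5 := h4 (1, 0)
  have h6 := h4 (0, 1)
  simp only [linL, un_apply, ContinuousLinearMap.add_apply, ContinuousLinearMap.smulRight_apply,
    ContinuousLinearMap.coe_fst', ContinuousLinearMap.coe_snd', one_smul, zero_smul, add_zero,
    zero_add, Complex.ofReal_one, Complex.ofReal_zero, zero_mul, one_mul] at h5 h6
  refine ⟨h5 ▸ T.imm _, ?_⟩
  rw [h5, h6, h, dm_expand, T.hol, ← un_apply]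
  rfl

variable [IsManifold (𝓡 4) ∞ Z]

theorem cd_pbf {k : ℕ} {φ : Form Z k} (hφ : Smooth φ) {Φ : R4 → Z} {s : Set R4} (hs : IsOpen s)
    (hΦ : ContMDiffOn 𝓘(ℝ, R4) (𝓡 4) ∞ Φ s) : ContDiffOn ℝ ∞ (pbf φ Φ) s := fun x hx => by
  have hc := chart_mem_atlas HS.E4 (Φ x)
  have hz := mem_chart_source HS.E4 (Φ x)
  exact ((P267.H175.contDiffAt_pullback (cd_chart hc (hΦ.contMDiffAt (hs.mem_nhds hx)) hz)
    ((hφ _ hc).contDiffAt ((chartAt HS.E4 (Φ x)).open_target.mem_nhds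
      (mem_chart_target _ _)))).congr_of_eventuallyEq (pbf_ev φ hs hΦ hx hc hz)).contDiffWithinAt

theorem closed_pbf {k : ℕ} {φ : Form Z k} (hφ : SC φ) {Φ : R4 → Z} {s : Set R4} (hs : IsOpen s)
    (hΦ : ContMDiffOn 𝓘(ℝ, R4) (𝓡 4) ∞ Φ s) {x : R4} (hx : x ∈ s) : extDeriv (pbf φ Φ) x = 0 := by
  have hc := chart_mem_atlas HS.E4 (Φ x)
  rw [extDeriv_pbf φ hs hΦ hx hc (mem_chart_source HS.E4 (Φ x)) (((hφ.1 _ hc).contDiffAt
    ((chartAt HS.E4 (Φ x)).open_target.mem_nhds (mem_chart_target _ _))).differentiableAt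
      (by simp)), hφ.2 _ hc _ (mem_chart_target _ _)]
  rfl

omit [IsManifold (𝓡 4) ∞ Z] in
theorem pbf_two (φ : Form Z 2) (Φ : R4 → Z) (x u v : R4) :
    pbf φ Φ x ![u, v] = φ (Φ x) ![dm4 Φ x u, dm4 Φ x v] := by
  refine congrArg (φ (Φ x)) ?_
  funext i
  fin_cases i <;> rfl

/-- a torus inside a leaf is the leaf -/
theorem leaf_sub [T2Space Z] (hJ : ∀ x v, J x (J x v) = -v) {Ψ : P2 × P2 → Z} {ε : ℝ}
    (hs : ContMDiffOn 𝓘(ℝ, P2 × P2) (𝓡 4) ∞ Ψ (Dom ε)) (hb : ∀ q ∈ Dom ε, Bijective (dmP Ψ q))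
    (hi : ∀ q ∈ Dom ε, ∀ q' ∈ Dom ε, Ψ q = Ψ q' → q.1 = q'.1) (T : Tor J) {y : P2}
    (hy : y ∈ ball (0 : P2) ε) (h : ∀ z, ∃ p, T.u z = Ψ (y, p)) (p : P2) : Ψ (y, p) ∈ T.set := by
  have hg : ContMDiff 𝓘(ℝ, P2) (𝓡 4) ∞ fun p => Ψ (y, p) := fun p =>
    (hs.contMDiffAt ((isOpen_Dom ε).mem_nhds ⟨hy, trivial⟩)).comp p
      (contDiff_const.prodMk contDiff_id).contMDiff.contMDiffAt
  have h1 : IsCompact T.set := by
    convert ((isCompact_closedBall (0 : P2) (1 / 2)).image (un T.τ).continuous).image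
      T.smooth.continuous using 1
    exact subset_antisymm (range_subset_iff.2 (tor_red T)) (image_subset_range _ _)
  have h2 : IsClopen {p | Ψ (y, p) ∈ T.set} := by
    refine ⟨h1.isClosed.preimage hg.continuous, isOpen_iff_mem_nhds.2 fun p ⟨z, hz⟩ => ?_⟩
    obtain ⟨c, k1, k2, k3, k4⟩ := locInv (isOpen_Dom ε) hs (x := (y, p)) ⟨hy, trivial⟩
      (hb _ ⟨hy, trivial⟩)
    have k5 : IsOpen (T.u ⁻¹' c.target) := c.open_target.preimage T.smooth.continuous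
    have k6 : z ∈ T.u ⁻¹' c.target := by
      rw [mem_preimage, hz, ← k3]
      exact c.map_source k1
    have k7 : ContMDiffOn 𝓘(ℝ, ℂ) 𝓘(ℝ, P2) ∞ (fun z => (c.symm (T.u z)).2) (T.u ⁻¹' c.target) :=
      contDiff_snd.contMDiff.comp_contMDiffOn (k4.comp T.smooth.contMDiffOn fun _ h => h)
    have k8 : ∀ w ∈ T.u ⁻¹' c.target, T.u w = Ψ (y, (c.symm (T.u w)).2) := fun w hw => by
      have m1 : Ψ (c.symm (T.u w)) = T.u w := (k3 _).symm.trans (c.right_inv hw)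
      obtain ⟨q, hq⟩ := h w
      have m2 : (c.symm (T.u w)).1 = y :=
        hi _ (k2 (c.map_target hw)) (y, q) ⟨hy, trivial⟩ (m1.trans hq)
      rw [← m2]
      exact m1.symm
    have k9 : T.u =ᶠ[𝓝 z] (fun p => Ψ (y, p)) ∘ fun z => (c.symm (T.u z)).2 :=
      eventually_of_mem (k5.mem_nhds k6) k8
    have k10 := k9.mfderiv_eq.trans (mfderiv_comp z ((hg _).mdifferentiableAt (by simp))
      ((k7.contMDiffAt (k5.mem_nhds k6)).mdifferentiableAt (by simp)))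
    have k11 : Injective (mfderiv 𝓘(ℝ, ℂ) 𝓘(ℝ, P2) (fun z => (c.symm (T.u z)).2) z) := by
      have m1 := imm_inj hJ (T.hol z) (T.imm z)
      rw [k10] at m1
      exact Injective.of_comp m1
    have k12 := map_nhds_bij k5 k7 k6 (bij_two _ k11)
    rw [hz, ← k3, c.left_inv k1] at k12
    exact k12.ge (mem_map.2 (mem_of_superset (k5.mem_nhds k6) fun w hw => ⟨w, k8 w hw⟩))
  obtain ⟨q, hq⟩ := h 0
  exact (h2.eq_univ ⟨q, 0, hq⟩).ge trivial

end FolX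

open FolX in
theorem FOLX : FOLX_statement := by
  intro _ hT hR hF Z _ _ _ _ P T O hO hTO
  obtain ⟨r, hr, Φ, t1, t2, t3, t4, t5, t6, t7⟩ := hT Z P T O hO hTO
  have md : ∀ x ∈ Tb r, MDifferentiableAt 𝓘(ℝ, R4) (𝓡 4) Φ x := fun x hx =>
    (t1.contMDiffAt ((isOpen_Tb r).mem_nhds hx)).mdifferentiableAt (by simp)
  have jj2 : ∀ x u, jj P.J x (jj P.J x u) = -u := P.ac.sq
  have hj : ∀ x ∈ Tb r, ∃ K : R4 →L[ℝ] R4, (∀ u, K (K u) = -u) ∧
      (∀ u, dd4 Φ x (K u) = jj P.J (Φ x) (dd4 Φ x u)) ∧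
      ∀ j u v, pbf (P.η j) Φ x ![K u, K v] = -pbf (P.η j) Φ x ![u, v] := fun x hx => by
    have k : ∀ u, dd4 Φ x ((eqv (dd4 Φ x) (t2 x hx)).symm u) = u :=
      (eqv (dd4 Φ x) (t2 x hx)).apply_symm_apply
    refine ⟨((eqv (dd4 Φ x) (t2 x hx)).symm : HS.E4 →L[ℝ] R4).comp
      ((jj P.J (Φ x)).comp (dd4 Φ x)), fun u => (t2 x hx).1 ?_, fun u => k _, fun j u v => ?_⟩
    · exact (k _).trans (((congrArg (jj P.J (Φ x)) (k _)).trans (jj2 _ _)).trans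
        (map_neg (dd4 Φ x) u).symm)
    · rw [pbf_two, pbf_two, ← P.anti]
      exact congrArg₂ (fun a b : HS.E4 => P.η j (Φ x) ![a, b]) (k _) (k _)
  obtain ⟨r', hr', r1, D, hD⟩ := hR r hr (fun j => pbf (P.η j) Φ)
    (fun j => cd_pbf (P.sc j).1 (isOpen_Tb r) t1)
    (fun j x => closed_pbf (P.sc j) (isOpen_Tb r) t1) (fun j m n x hx => by
      ext v
      refine (form_congr _ (t3 m n x) _).trans (congrArg _ (funext fun i => ?_))
      exact DFunLike.congr_fun (dd4_per (t3 m n) (md _ (tr2_mem m n hx))) _)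
    (fun j p => (pbf_two _ _ _ _ _).trans (line_zero (P.η j _) (jj2 _) (P.anti j _)
      (dd4_lin T t6 (md _ (lin_mem hr p))).2))
    (fun p => by simpa only [pbf_two] using t7 p) fun p a b hab => by
      obtain ⟨K, k1, -, k3⟩ := hj _ (lin_mem hr p)
      obtain ⟨u, v, huv⟩ : ∃ u v, (a • pbf (P.η 0) Φ (lin p) + b • pbf (P.η 1) Φ (lin p))
          ![u, v] ≠ 0 := by
        by_contra! k
        have k4 := P.ind (Φ (lin p)) a b fun u v => by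
          obtain ⟨u, rfl⟩ := (t2 _ (lin_mem hr p)).2 u
          obtain ⟨v, rfl⟩ := (t2 _ (lin_mem hr p)).2 v
          rw [← pbf_two, ← pbf_two]
          exact k u v
        exact hab.elim (fun h => h k4.1) fun h => h k4.2
      refine wedge_ne k1 (fun u v => ?_) huv
      simp only [ContinuousAlternatingMap.add_apply, ContinuousAlternatingMap.smul_apply, k3,
        smul_eq_mul]
      ring
  have sb := Tb_mono r1
  obtain ⟨D', hD'⟩ := sign_glob (isOpen_Tb r') (convex_Tb r').isPreconnected (t1.mono sb)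
    (fun x hx => (t2 x (sb hx)).1) P.ac.smooth D fun x hx => by
      obtain ⟨K, k1, k2, k3⟩ := hj x (sb hx)
      exact (sign_pt D x k1 fun j u v => by rw [hD j x hx, hD j x hx, k3]).imp
        (fun h u => by rw [← k2, h]) fun h u => by rw [← k2, h]
  have ph : phi (fun _ => 0) = linL := by
    rw [← lin_eq]
    funext p
    simp [phi]
  obtain ⟨ε, hε, Θ, τ, f1, f2, f3, f4, f5, f6, f7, f8, f9⟩ := hF D' T.τ
    ⟨contDiff_const, fun _ _ _ => rfl, T.τ_pos, fun p => by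
      have k := (dd4_lin T t6 (md _ (lin_mem hr p))).2
      rw [hD' _ (lin_mem hr' p), ← map_smul, ← map_smul, ← map_add] at k
      have k1 := (t2 _ (lin_mem hr p)).1 k
      rw [ph, ds, dt, linL.fderiv, ← lin_eq]
      simpa [lin_eq, linL] using k1⟩ r' hr'
  have m1 : ∀ q ∈ Dom ε, Θ q ∈ Tb r' := fun q hq => f5 ⟨q, hq, rfl⟩
  have m2 : ∀ q ∈ Dom ε, ∀ a, (dmP (Φ ∘ Θ) q a : HS.E4) = dd4 Φ (Θ q) (fderiv ℝ Θ q a) :=
    fun q hq a => DFunLike.congr_fun ((md _ (sb (m1 q hq))).hasMFDerivAt.comp q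
      ((f1.contDiffAt ((isOpen_Dom ε).mem_nhds hq)).differentiableAt
        (by simp)).hasFDerivAt.hasMFDerivAt).mfderiv a
  have m3 : ContMDiffOn 𝓘(ℝ, P2 × P2) (𝓡 4) ∞ (Φ ∘ Θ) (Dom ε) :=
    t1.comp f1.contMDiffOn fun q hq => sb (m1 q hq)
  have m4 : ∀ q ∈ Dom ε, Bijective (dmP (Φ ∘ Θ) q) := fun q hq => by
    rw [show dmP (Φ ∘ Θ) q = dm4 Φ (Θ q) ∘ fderiv ℝ Θ q from funext (m2 q hq)]
    exact (t2 _ (sb (m1 q hq))).comp (f2 q hq)
  have m5 : ∀ q ∈ Dom ε, ∀ q' ∈ Dom ε, (Φ ∘ Θ) q = (Φ ∘ Θ) q' →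
      q.1 = q'.1 ∧ ∃ m n : ℤ, q'.2 = (q.2.1 + m, q.2.2 + n) := fun q hq q' hq' h => by
    obtain ⟨m, n, k⟩ := t4 _ (sb (m1 q hq)) _ (sb (m1 q' hq')) h
    have k1 := f4 hq' (show (q.1, (q.2.1 + m, q.2.2 + n)) ∈ Dom ε from ⟨hq.1, trivial⟩)
      (k.trans (f3 q.1 q.2 m n).symm)
    exact ⟨by rw [k1], m, n, by rw [k1]⟩
  refine ⟨⟨ε, hε, Φ ∘ Θ, τ, m3, m4, fun y p m n => by rw [comp_apply, f3, t3, comp_apply], m5, f7,
    fun q hq => ?_, fun S hS => ?_⟩, ?_, fun p => by rw [← t6, ← f6]; rfl⟩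
  · refine (m2 q hq _).trans ?_
    rw [f8 q hq, map_add, map_smul, map_smul, ← hD' _ (m1 q hq), ← m2 q hq]
    rfl
  · obtain ⟨u, u1, u2⟩ := lift_tube (t1.mono sb) (fun x hx => t2 x (sb hx)) t3
      (fun x hx y hy => t4 x (sb hx) y (sb hy)) S.smooth.continuous fun z => by
        obtain ⟨q, hq, k⟩ := hS ⟨z, rfl⟩
        exact ⟨_, m1 q hq, k⟩
    have u3 : (fun z => Φ (u z)) = S.u := funext fun z => (u2 z).2
    have u4 : ContDiff ℝ ∞ u := ContMDiff.contDiff fun z => lift_sm (isOpen_Tb r) t1 (sb (u2 z).1)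
      (t2 _ (sb (u2 z).1)).1 u1.continuousAt (u3 ▸ S.smooth z)
    have u5 : ∀ z a, dd4 Φ (u z) (fderiv ℝ u z a) = (dm S.u z a : HS.E4) := fun z a => by
      have k := ((md _ (sb (u2 z).1)).hasMFDerivAt.comp z
        (u4.differentiable (by simp) z).hasFDerivAt.hasMFDerivAt).mfderiv
      have k1 : (mfderiv 𝓘(ℝ, ℂ) (𝓡 4) (Φ ∘ u) z : ℂ →L[ℝ] HS.E4) =
        mfderiv 𝓘(ℝ, ℂ) (𝓡 4) S.u z := by rw [← u3]; rfl
      exact DFunLike.congr_fun (k.symm.trans k1) a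
    obtain ⟨y, hy, k⟩ := f9 u ⟨u4, fun z => (t2 _ (sb (u2 z).1)).1 ((u5 z _).trans (by
      refine Eq.trans ?_ (hD' _ (u2 z).1 _)
      rw [u5, (u2 z).2]
      exact S.hol z))⟩ (by
        rintro _ ⟨z, rfl⟩
        obtain ⟨q, hq, k⟩ := hS ⟨z, rfl⟩
        obtain ⟨m, n, k1⟩ := t4 _ (sb (m1 q hq)) _ (sb (u2 z).1) (k.trans (u2 z).2.symm)
        exact ⟨(q.1, (q.2.1 + m, q.2.2 + n)), ⟨hq.1, trivial⟩, (f3 q.1 q.2 m n).trans k1.symm⟩)
      ⟨_, (isCompact_closedBall (0 : P2) (1 / 2)).image (un S.τ).continuous, fun z => by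
        obtain ⟨z', k1, k2⟩ := tor_red S z
        exact ⟨z', k1, t4 _ (sb (u2 z').1) _ (sb (u2 z).1) (by rw [(u2 z).2, (u2 z').2, k2])⟩⟩
    have k1 : ∀ z, ∃ p, S.u z = (Φ ∘ Θ) (y, p) := fun z => (k z).imp fun p hp => by
      rw [comp_apply, ← hp, (u2 z).2]
    exact ⟨y, hy, subset_antisymm (range_subset_iff.2 fun z => (k1 z).imp fun _ h => h.symm)
      (range_subset_iff.2 (leaf_sub P.ac.sq m3 m4 (fun q hq q' hq' h => (m5 q hq q' hq' h).1)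
        S hy k1))⟩
  · rintro _ ⟨q, hq, rfl⟩
    exact t5 ⟨_, sb (m1 q hq), rfl⟩

end Vale.Agent.P247Y
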