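import Vale.Agent.P247X.Base

/-!
# P247, block Y: from the configuration of spheres to the Kummer presentation; statements
-/

open scoped Manifold ContDiff Topology
open Set MeasureTheory Filter Metric

noncomputable section

namespace Vale.Agent.P247Y

open Vale.Agent.P247.SCY
open Vale.Agent.P247.SCY.HS
open Vale.Agent.P247X
open Vale.Agent.P247.H74 (R4 Data e P2 lin JT JH)
open Vale.Agent.P247.H574 (tr)
open Vale.Agent.P290.H726 (bil)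
open Vale.Agent.P290Z.Lat (cs)

/-! ## Part 1: foliated neighbourhoods of tori -/

section fol

variable {Z : Type} [TopologicalSpace Z] [ChartedSpace HS.E4 Z]

/-- a pair of closed forms which span the anti-invariant forms of `J` -/
structure PairJ (Z : Type) [TopologicalSpace Z] [ChartedSpace HS.E4 Z] where
  η : Fin 2 → Form Z 2
  sc : ∀ j, SC (η j)
  J : EndF Z
  ac : P204.Mfd.AlmostComplex J
  anti : ∀ j x (u v : TangentSpace (𝓡 4) x), η j x ![J x u, J x v] = - η j x ![u, v]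
  ind : ∀ x (a b : ℝ), (∀ u v : TangentSpace (𝓡 4) x,
    a * η 0 x ![u, v] + b * η 1 x ![u, v] = 0) → a = 0 ∧ b = 0

/-- the differential of a map `P2 × P2 → Z` -/
abbrev dmP (Ψ : P2 × P2 → Z) (q a : P2 × P2) : TangentSpace (𝓡 4) (Ψ q) :=
  mfderiv 𝓘(ℝ, P2 × P2) (𝓡 4) Ψ q a

/-- the domain of a family -/
def Dom (ε : ℝ) : Set (P2 × P2) := ball 0 ε ×ˢ univ

/-- A neighbourhood foliated by `J`-tori `Ψ (y, ·)`, `‖y‖ < ε`. -/
structure Fol (J : EndF Z) where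
  ε : ℝ
  ε_pos : 0 < ε
  Ψ : P2 × P2 → Z
  τ : P2 → ℂ
  smooth : ContMDiffOn 𝓘(ℝ, P2 × P2) (𝓡 4) ∞ Ψ (Dom ε)
  bij : ∀ q ∈ Dom ε, Function.Bijective (dmP Ψ q)
  per : ∀ y (p : P2) (m n : ℤ), Ψ (y, (p.1 + m, p.2 + n)) = Ψ (y, p)
  inj : ∀ q ∈ Dom ε, ∀ q' ∈ Dom ε, Ψ q = Ψ q' →
    q.1 = q'.1 ∧ ∃ m n : ℤ, q'.2 = (q.2.1 + m, q.2.2 + n)
  τ_pos : ∀ y ∈ ball (0 : P2) ε, 0 < (τ y).im
  hol : ∀ q ∈ Dom ε, dmP Ψ q (0, (0, 1)) =
    (τ q.1).re • dmP Ψ q (0, (1, 0)) + (τ q.1).im • J (Ψ q) (dmP Ψ q (0, (1, 0)))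
  maxp : ∀ T : Tor J, T.set ⊆ Ψ '' Dom ε → ∃ y ∈ ball (0 : P2) ε, T.set = range fun p => Ψ (y, p)

/-- the leaves -/
def Fol.leaf {J : EndF Z} (F : Fol J) (y : P2) : Set Z := range fun p => F.Ψ (y, p)
/-- the foliated neighbourhood -/
def Fol.img {J : EndF Z} (F : Fol J) : Set Z := F.Ψ '' Dom F.ε

end fol

/-- tubes in `ℝ⁴` -/
def Tb (r : ℝ) : Set R4 := {x | |x 0| < r ∧ |x 1| < r}

/-- translation along the torus -/
def tr2 (m n : ℤ) (x : R4) : R4 := x + (m : ℝ) • e 2 + (n : ℝ) • e 3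

/-- a tubular neighbourhood, normalised by `η 0` -/
def TUBE_statement : Prop := ∀ (Z : Type) [TopologicalSpace Z] [ChartedSpace HS.E4 Z]
  [IsManifold (𝓡 4) ∞ Z] [T2Space Z] (P : PairJ Z) (T : Tor P.J) (O : Set Z), IsOpen O →
  T.set ⊆ O → ∃ r > 0, ∃ Φ : R4 → Z, ContMDiffOn 𝓘(ℝ, R4) (𝓡 4) ∞ Φ (Tb r) ∧
    (∀ x ∈ Tb r, Function.Bijective (dm4 Φ x)) ∧ (∀ m n x, Φ (tr2 m n x) = Φ x) ∧
    (∀ x ∈ Tb r, ∀ y ∈ Tb r, Φ x = Φ y → ∃ m n, y = tr2 m n x) ∧ Φ '' Tb r ⊆ O ∧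
    (∀ p : P2, Φ (lin p) = T.u (p.1 + p.2 * T.τ)) ∧
    ∀ p : P2, P.η 0 (Φ (lin p)) ![dm4 Φ (lin p) (e 0), dm4 Φ (lin p) (e 2)] = 0 ∧
      P.η 0 (Φ (lin p)) ![dm4 Φ (lin p) (e 0), dm4 Φ (lin p) (e 3)] = 1 ∧
      P.η 0 (Φ (lin p)) ![dm4 Φ (lin p) (e 1), dm4 Φ (lin p) (e 2)] = 1 ∧
      P.η 0 (Φ (lin p)) ![dm4 Φ (lin p) (e 1), dm4 Φ (lin p) (e 3)] = 0

/-- transplantation of a tube into periodic data -/
def TRANSPL_statement : Prop := ∀ (r : ℝ), 0 < r → ∀ η : Fin 2 → R4 → R4 [⋀^Fin 2]→L[ℝ] ℝ,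
  (∀ j, ContDiffOn ℝ ∞ (η j) (Tb r)) → (∀ j, ∀ x ∈ Tb r, extDeriv (η j) x = 0) →
  (∀ j m n, ∀ x ∈ Tb r, η j (tr2 m n x) = η j x) →
  (∀ j (p : P2), η j (lin p) ![e 2, e 3] = 0) →
  (∀ p : P2, η 0 (lin p) ![e 0, e 2] = 0 ∧ η 0 (lin p) ![e 0, e 3] = 1 ∧
    η 0 (lin p) ![e 1, e 2] = 1 ∧ η 0 (lin p) ![e 1, e 3] = 0) →
  (∀ (p : P2) (a b : ℝ), (a ≠ 0 ∨ b ≠ 0) →
    HS.wedge (a • η 0 (lin p) + b • η 1 (lin p)) (a • η 0 (lin p) + b • η 1 (lin p)) e ≠ 0) →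
  ∃ r' > 0, r' ≤ r ∧ ∃ D : Data, ∀ j, ∀ x ∈ Tb r', ∀ u v, (D.η j).val x u v = η j x ![u, v]

/-- the family of tori near the standard torus, with the maximum principle -/
def FAM_statement : Prop := ∀ (D : Data) (τ₀ : ℂ), JT D (fun _ => 0) τ₀ → ∀ r > 0,
  ∃ ε > 0, ∃ (Φ : P2 × P2 → R4) (τ : P2 → ℂ), ContDiffOn ℝ ∞ Φ (Dom ε) ∧
    (∀ q ∈ Dom ε, Function.Bijective (fderiv ℝ Φ q)) ∧
    (∀ y (p : P2) (m n : ℤ), Φ (y, (p.1 + m, p.2 + n)) = tr2 m n (Φ (y, p))) ∧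
    InjOn Φ (Dom ε) ∧ Φ '' Dom ε ⊆ Tb r ∧ (∀ p, Φ (0, p) = lin p) ∧
    (∀ y ∈ ball (0 : P2) ε, 0 < (τ y).im) ∧
    (∀ q ∈ Dom ε, fderiv ℝ Φ q (0, (0, 1)) = (τ q.1).re • fderiv ℝ Φ q (0, (1, 0)) +
      (τ q.1).im • D.J (Φ q) (fderiv ℝ Φ q (0, (1, 0)))) ∧
    ∀ u : ℂ → R4, JH D u → range u ⊆ Φ '' Dom ε →
      (∃ C, IsCompact C ∧ ∀ z, ∃ z' ∈ C, ∃ m n, u z = tr2 m n (u z')) →
      ∃ y ∈ ball (0 : P2) ε, ∀ z, ∃ p, u z = Φ (y, p)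

/-- foliated neighbourhoods exist -/
def FOL_statement : Prop := ∀ (Z : Type) [TopologicalSpace Z] [ChartedSpace HS.E4 Z]
  [IsManifold (𝓡 4) ∞ Z] [T2Space Z] (P : PairJ Z) (T : Tor P.J) (O : Set Z), IsOpen O →
  T.set ⊆ O → ∃ F : Fol P.J, F.img ⊆ O ∧ ∀ p : P2, F.Ψ (0, p) = T.u (p.1 + p.2 * T.τ)

/-- Basic properties of a foliated neighbourhood: the image is open, the leaves are tori, the
projection to the base is smooth; the neighbourhood can be shrunk. -/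
def FOLB_statement : Prop := ∀ (Z : Type) [TopologicalSpace Z] [ChartedSpace HS.E4 Z]
  [IsManifold (𝓡 4) ∞ Z] [T2Space Z] (J : EndF Z) (F : Fol J),
  (∀ s : Set P2, IsOpen s → s ⊆ ball 0 F.ε → IsOpen (F.Ψ '' (s ×ˢ univ))) ∧
  (∀ y ∈ ball (0 : P2) F.ε, ∃ T : Tor J, T.τ = F.τ y ∧
    ∀ p : P2, T.u (p.1 + p.2 * T.τ) = F.Ψ (y, p)) ∧
  (∃ π : Z → P2, ContMDiffOn (𝓡 4) 𝓘(ℝ, P2) ∞ π F.img ∧ ∀ q ∈ Dom F.ε, π (F.Ψ q) = q.1) ∧
  (∀ O : Set Z, IsOpen O → F.leaf 0 ⊆ O → ∃ ε > 0, ε ≤ F.ε ∧ F.Ψ '' Dom ε ⊆ O) ∧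
  ∀ ε > 0, ε ≤ F.ε → ∃ F' : Fol J, F'.ε = ε ∧ F'.Ψ = F.Ψ ∧ F'.τ = F.τ

/-- velocities of curves in an embedded torus or sphere are tangent -/
def TANG_statement : Prop := ∀ (Z : Type) [TopologicalSpace Z] [ChartedSpace HS.E4 Z]
  [IsManifold (𝓡 4) ∞ Z] [T2Space Z] (J : EndF Z), (∀ x u, J x (J x u) = -u) → ∀ γ : ℝ → Z,
  MDifferentiableAt 𝓘(ℝ, ℝ) (𝓡 4) γ 0 →
  (∀ (T : Tor J) (z : ℂ), (∀ᶠ t in 𝓝 (0 : ℝ), γ t ∈ T.set) → γ 0 = T.u z →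
    ∃ a, (mfderiv 𝓘(ℝ, ℝ) (𝓡 4) γ 0 (1 : ℝ) : HS.E4) = (dm T.u z a : HS.E4)) ∧
  (∀ (S : Sph J) (z : ℂ), (∀ᶠ t in 𝓝 (0 : ℝ), γ t ∈ S.set) → γ 0 = S.u z →
    ∃ a, (mfderiv 𝓘(ℝ, ℝ) (𝓡 4) γ 0 (1 : ℝ) : HS.E4) = (dm S.u z a : HS.E4)) ∧
  ∀ (S : Sph J) (z : ℂ), (∀ᶠ t in 𝓝 (0 : ℝ), γ t ∈ S.set) → γ 0 = S.v z →
    ∃ a, (mfderiv 𝓘(ℝ, ℝ) (𝓡 4) γ 0 (1 : ℝ) : HS.E4) = (dm S.v z a : HS.E4)

/-! ## Part 2: coverings -/

/-- locally constant on an open set -/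
def LC {B G : Type} [TopologicalSpace B] (f : B → G) (s : Set B) : Prop :=
  ∀ x ∈ s, ∀ᶠ y in 𝓝 x, f y = f x

/-- locally constant cocycles on an open convex set are coboundaries -/
def COB_statement : Prop := ∀ (E : Type) [NormedAddCommGroup E] [NormedSpace ℝ E] (D : Set E),
  IsOpen D → Convex ℝ D → ∀ (G : Type) [AddCommGroup G] (ι : Type) (V : ι → Set E),
  (∀ i, IsOpen (V i)) → (∀ i, V i ⊆ D) → (∀ x ∈ D, ∃ i, x ∈ V i) → ∀ c : ι → ι → E → G,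
  (∀ i j, LC (c i j) (V i ∩ V j)) →
  (∀ i j k, ∀ x ∈ V i ∩ V j ∩ V k, c i j x + c j k x = c i k x) →
  ∃ ε : ι → E → G, (∀ i, LC (ε i) (V i)) ∧ ∀ i j, ∀ x ∈ V i ∩ V j, c i j x = ε i x - ε j x

def FOLX_statement : Prop := COB_statement → TUBE_statement → TRANSPL_statement → FAM_statement →
  FOL_statement

/-- locally constant cocycles on an open subset `W` of `X` -/
structure Coc {X : Type} [TopologicalSpace X] (W : Set X) (G : Type) [AddCommGroup G] where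
  ι : Type
  V : ι → Set X
  opn : ∀ i, IsOpen (V i)
  sub : ∀ i, V i ⊆ W
  cov : ∀ x ∈ W, ∃ i, x ∈ V i
  c : ι → ι → X → G
  lc : ∀ i j, LC (c i j) (V i ∩ V j)
  co : ∀ i j k, ∀ x ∈ V i ∩ V j ∩ V k, c i j x + c j k x = c i k x

/-- principal coverings of `W` with group `G` -/
structure GCov {X : Type} [TopologicalSpace X] (W : Set X) (G : Type) [AddCommGroup G] where
  Z : Type
  top : TopologicalSpace Z
  t2 : T2Space Z
  π : Z → X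
  act : G → Z → Z
  π_cont : Continuous π
  act_cont : ∀ g, Continuous (act g)
  act_zero : ∀ z, act 0 z = z
  act_add : ∀ g h z, act (g + h) z = act g (act h z)
  π_act : ∀ g z, π (act g z) = π z
  free : ∀ g z, act g z = z → g = 0
  trans : ∀ z z', π z = π z' → ∃ g, z' = act g z
  mem : ∀ z, π z ∈ W
  loc : ∀ x ∈ W, ∃ V, IsOpen V ∧ x ∈ V ∧ V ⊆ W ∧ ∃ σ : X → Z, ContinuousOn σ V ∧
    (∀ y ∈ V, π (σ y) = y) ∧ IsOpen (σ '' V)

attribute [instance] GCov.top GCov.t2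

/-- uniqueness of lifts, and existence on convex sets minus a discrete set -/
def LIFT_statement : Prop := ∀ (X : Type) [TopologicalSpace X] (W : Set X) (G : Type)
  [AddCommGroup G] (Z : GCov W G),
  (∀ (B : Type) [TopologicalSpace B] (s : Set B), IsPreconnected s → ∀ f g : B → Z.Z,
    ContinuousOn f s → ContinuousOn g s → (∀ x ∈ s, Z.π (f x) = Z.π (g x)) →
    ∃ a, ∀ x ∈ s, g x = Z.act a (f x)) ∧
  ∀ (E : Type) [NormedAddCommGroup E] [NormedSpace ℝ E] (D S : Set E), IsOpen D → Convex ℝ D →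
    (∀ x ∈ D, ∀ᶠ y in 𝓝[≠] x, y ∉ S) → ∀ f : E → X, ContinuousOn f (D \ S) →
    (∀ x ∈ D \ S, f x ∈ W) → ∀ ℓ : E → E → Z.Z,
    (∀ s ∈ D ∩ S, ∃ N ∈ 𝓝 s, ContinuousOn (ℓ s) (N \ {s}) ∧ ∀ x ∈ N \ {s}, Z.π (ℓ s x) = f x) →
    ∃ g : E → Z.Z, ContinuousOn g (D \ S) ∧ (∀ x ∈ D \ S, Z.π (g x) = f x) ∧
      ∀ s ∈ D ∩ S, ∃ a, ∀ᶠ x in 𝓝[≠] s, g x = Z.act a (ℓ s x)

def LIFTX_statement : Prop := COB_statement → LIFT_statement

section model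

variable {X : Type} [TopologicalSpace X] [ChartedSpace HS.E4 X] {w : Tri X}

open Classical in
/-- the quotient map `ℂ² - 0 → T^* ℂℙ¹` -/
def sq (S : Std w) (z : ℂ × ℂ) : X :=
  if z.1 ≠ 0 then S.p (z.1 ^ 2, z.2 / z.1) else S.q (z.2 ^ 2, 0)

open Classical in
/-- the point of the zero section given by a direction -/
def dirPt (S : Std w) (a : ℂ × ℂ) : X := if a.1 ≠ 0 then S.p (0, a.2 / a.1) else S.q (0, 0)

/-- the punctured ball -/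
def B0 (r : ℝ) : Set (ℂ × ℂ) := B2 r \ {0}

/-- the cocycle has monodromy `γ` around the sphere -/
def CocModel {W : Set X} {G : Type} [AddCommGroup G] (c : Coc W G) (S : Std w) (γ : G) : Prop :=
  ∃ ε : c.ι → ℂ × ℂ → G, (∀ i, LC (ε i) (B0 S.r ∩ sq S ⁻¹' c.V i)) ∧
    (∀ i j, ∀ z ∈ B0 S.r, sq S z ∈ c.V i ∩ c.V j → c.c i j (sq S z) = ε i z - ε j z) ∧
    ∀ i, ∀ z ∈ B0 S.r, sq S z ∈ c.V i → ε i (-z) = ε i z + γ

/-- the covering has monodromy `γ` around the sphere -/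
def Model {W : Set X} {G : Type} [AddCommGroup G] (Z : GCov W G) (S : Std w) (γ : G) : Prop :=
  ∃ ℓ : ℂ × ℂ → Z.Z, ContinuousOn ℓ (B0 S.r) ∧ (∀ z ∈ B0 S.r, Z.π (ℓ z) = sq S z) ∧
    ∀ z ∈ B0 S.r, ℓ (-z) = Z.act γ (ℓ z)

/-- the complement of the sixteen spheres -/
def Xo (St : Fin 4 → Fin 4 → Std w) : Set X := {x | ∀ i j, x ∉ (St i j).set}

end model

/-- basic properties of the standard neighbourhoods -/
def STDB_statement : Prop := ∀ (X : Type) [TopologicalSpace X] [ChartedSpace HS.E4 X]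
  [IsManifold (𝓡 4) ∞ X] [T2Space X] (w : Tri X) (S : Std w),
  IsOpen S.nb ∧ IsCompact S.set ∧ S.set ⊆ S.nb ∧
  (∃ δ : Sph (Jw w), (∀ z, δ.u z = S.p (0, z)) ∧ ∀ z, δ.v z = S.q (0, z)) ∧
  ContMDiffOn 𝓘(ℝ, ℂ × ℂ) (𝓡 4) ∞ (sq S) (B0 S.r) ∧
  (∀ z ∈ B0 S.r, Function.Bijective (dm2 (sq S) z)) ∧ sq S '' B0 S.r = S.nb \ S.set ∧
  (∀ z ∈ B0 S.r, ∀ z' ∈ B0 S.r, sq S z = sq S z' ↔ z' = z ∨ z' = -z) ∧
  (∀ (u ζ : ℂ), u ≠ 0 → (u * ζ, u) ∈ B2 S.r → sq S (u * ζ, u) = S.q (u ^ 2, ζ)) ∧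
  (∀ z ∈ B0 S.r, ∀ a b, w 0 (sq S z) ![dm2 (sq S) z a, dm2 (sq S) z b] = 2 * (om0 a b).re ∧
    w 1 (sq S z) ![dm2 (sq S) z a, dm2 (sq S) z b] = 2 * S.s * (om0 a b).im ∧
    dm2 (sq S) z (Complex.I • a) = Jw w (sq S z) (dm2 (sq S) z a)) ∧
  (∀ ρ > 0, ρ ≤ S.r → IsOpen (S.set ∪ sq S '' B0 ρ)) ∧
  ∀ ρ < S.r, IsCompact (S.set ∪ sq S '' {z | z ≠ 0 ∧ ‖z.1‖ ^ 2 + ‖z.2‖ ^ 2 ≤ ρ})

/-- from cocycles to coverings -/
def TOCOV_statement : Prop := ∀ (X : Type) [TopologicalSpace X] [ChartedSpace HS.E4 X]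
  [IsManifold (𝓡 4) ∞ X] [T2Space X] (w : Tri X) (W : Set X) (G : Type) [AddCommGroup G]
  (c : Coc W G), ∃ Z : GCov W G, ∀ (S : Std w) (γ : G), sq S '' B0 S.r ⊆ W →
    ContinuousOn (sq S) (B0 S.r) → (∀ z ∈ B0 S.r, sq S (-z) = sq S z) → CocModel c S γ →
    Model Z S γ

/-- The Thom line bundle of a family of standard spheres: its class, and the local form of the
canonical section: the set `U out` is the complement of the spheres, and the transition functions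
are `v / |v|`. -/
structure ThomLB {X : Type} [TopologicalSpace X] [ChartedSpace HS.E4 X] {w : Tri X} {n : ℕ}
    (St : Fin n → Std w) (L : LB X) where
  out : Fin L.n
  ip : Fin n → Fin L.n
  iq : Fin n → Fin L.n
  U_out : L.U out = {x | ∀ a, x ∉ (St a).set}
  U_p : ∀ a, L.U (ip a) = (St a).p '' Nr (St a).r
  U_q : ∀ a, L.U (iq a) = (St a).q '' Nr (St a).r
  g_p : ∀ a, ∀ z ∈ Nr (St a).r, z.1 ≠ 0 → L.g (ip a) out ((St a).p z) = z.1 / (‖z.1‖ : ℂ)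
  g_q : ∀ a, ∀ z ∈ Nr (St a).r, z.1 ≠ 0 → L.g (iq a) out ((St a).q z) = z.1 / (‖z.1‖ : ℂ)

/-- existence of the Thom line bundle, Poincare-Lelong -/
def THOM_statement : Prop := ∀ (X : Type) [Cl4 X] (μ : Form X 4), Volume μ → ∀ w : Tri X,
  Hypersymplectic μ w → ∀ (n : ℕ) (St : Fin n → Std w),
  (∀ a b, a ≠ b → Disjoint (St a).nb (St b).nb) → ∃ L : LB X, Nonempty (ThomLB St L) ∧
    ∀ φ, SC φ → pair μ L.F φ = ∑ a, ∫ z, pull2 φ (fun ζ => (St a).p (0, ζ)) z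

/-! ## Part 3: the context -/

/-- the black boxes -/
structure BB : Prop where
  flat : FLAT_statement
  lsx : LSX_statement
  siub : SIUB_statement
  dec : DEC_statement
  irr : IRR_statement
  emb : EMB_statement
  pos : POS_statement
  adj : ADJ_statement

/-- the data of the statement `KUM` -/
structure Ctx (X : Type) [Cl4 X] where
  μ : Form X 4
  top : Top0 μ
  M : Marking μ
  K : DK M.G
  w : Tri X
  hw : Hypersymplectic μ w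
  rep : M.Rep w K.k
  St : Fin 4 → Fin 4 → Std w
  disj : ∀ i j i' j', (i, j) ≠ (i', j') → Disjoint (St i j).nb (St i' j').nb
  clsd : ∀ i j, IsCls μ (fun φ => ∫ z, pull2 φ (fun ζ => (St i j).p (0, ζ)) z)
    (lc M.c (cs ℝ (K.d i j)))
  C : Fin 4 → Sph (Jw w)
  D : Fin 4 → Sph (Jw w)
  clsC : ∀ i, IsCls μ (C i).int (lc M.c (cs ℝ (K.C i)))
  clsD : ∀ j, IsCls μ (D j).int (lc M.c (cs ℝ (K.D j)))

/-- the transposed configuration -/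
def DKt {G : Matrix (Fin 22) (Fin 22) ℤ} (hs : ∀ i j, G i j = G j i) (K : DK G) : DK G where
  d i j := K.d j i
  C := K.D
  D := K.C
  F₁ := K.F₂
  F₂ := K.F₁
  k := K.k
  dd i j i' j' := by rw [K.dd]; simp only [and_comm]
  CC := K.DD
  DD := K.CC
  CD i j := by rw [P290.H726.bil_symm _ hs]; exact K.CD j i
  Cd i i' j := K.Dd i j i'
  Dd j i j' := K.Cd j j' i
  hF₁ := K.hF₂
  hF₂ := K.hF₁
  pos := K.pos
  wd i j := K.wd j i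
  wC := K.wD
  wD := K.wC
  gen v h0 h1 hd hC hD := K.gen v h0 h1 (fun i j => hd j i) hD hC

/-- the transposed context -/
def Ctx.t {X : Type} [Cl4 X] (c : Ctx X) : Ctx X where
  μ := c.μ
  top := c.top
  M := c.M
  K := DKt c.M.k3.symm c.K
  w := c.w
  hw := c.hw
  rep := c.rep
  St i j := c.St j i
  disj i j i' j' h := c.disj j i j' i' fun h' => h (by
    rw [Prod.mk.injEq] at h' ⊢; exact ⟨h'.2, h'.1⟩)
  clsd i j := c.clsd j i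
  C := c.D
  D := c.C
  clsC := c.clsD
  clsD := c.clsC

/-- integral classes of curves -/
def CLS_statement : Prop := BB → ∀ (X : Type) [Cl4 X] (c : Ctx X) (K : Irr (Jw c.w)),
  ∃ v : Fin 22 → ℤ, IsCls c.μ K.T (lc c.M.c (cs ℝ v)) ∧ bil c.M.G (cs ℝ v) (c.K.k 0) = 0 ∧
    bil c.M.G (cs ℝ v) (c.K.k 1) = 0 ∧ 0 < bil c.M.G (cs ℝ v) (c.K.k 2)

/-- the incidences of the spheres (apply it to `c.t` for the spheres `D`) -/
structure Geom {X : Type} [Cl4 X] (c : Ctx X) : Prop where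
  Cd : ∀ i j, ∃ x, (c.C i).set ∩ (c.St i j).set = {x} ∧ TransAt (c.C i).set (c.St i j).set x
  Cd' : ∀ i i' j, i ≠ i' → Disjoint (c.C i).set (c.St i' j).set
  CC : ∀ i i', i ≠ i' → Disjoint (c.C i).set (c.C i').set
  CD : ∀ i j, Disjoint (c.C i).set (c.D j).set

def GEOM_statement : Prop := BB → STDB_statement → ∀ (X : Type) [Cl4 X] (c : Ctx X), Geom c

/-- double coverings branched along half of an even set of spheres -/
def DIV_statement : Prop := BB → ∀ (X : Type) [Cl4 X] (c : Ctx X) (γ : Fin 4 → Fin 4 → ZMod 2)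
  (l : Fin 22 → ℤ), (2 : ℤ) • l = ∑ i, ∑ j, ((γ i j).val : ℤ) • c.K.d i j →
  ∃ b : Coc (Xo c.St) (ZMod 2), ∀ i j, CocModel b (c.St i j) (γ i j)

def DIVX_statement : Prop := THOM_statement → COB_statement → STDB_statement → DIV_statement

/-- the two coverings -/
def COV_statement : Prop := BB → ∀ (X : Type) [Cl4 X] (c : Ctx X),
  (∃ Z : GCov (Xo c.St) (ZMod 2), ∀ i j, Model Z (c.St i j) 1) ∧
  ∀ b : Bool, ∃ (γ : Fin 4 ≃ ZMod 2 × ZMod 2) (Z : GCov (Xo c.St) (ZMod 2 × ZMod 2)),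
    ∀ i j, Model Z (c.St i j) (γ (if b then i else j))

def COVX_statement : Prop := DIV_statement → TOCOV_statement → STDB_statement → COV_statement

/-! ## Part 4: the manifold `Y` -/

/-- The double covering of `X` branched along the sixteen spheres, with the spheres contracted. -/
structure DC {X : Type} [TopologicalSpace X] [ChartedSpace HS.E4 X] {w : Tri X}
    (St : Fin 4 → Fin 4 → Std w) where
  Y : Type
  top : TopologicalSpace Y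
  chart : ChartedSpace HS.E4 Y
  mfd : IsManifold (𝓡 4) ∞ Y
  t2 : T2Space Y
  cov : GCov (Xo St) (ZMod 2)
  emb : cov.Z → Y
  emb_open : Topology.IsOpenEmbedding emb
  pt : Fin 4 → Fin 4 → Y
  pt_inj : ∀ i j i' j', pt i j = pt i' j' → i = i' ∧ j = j'
  range_emb : range emb = {y | ∀ i j, y ≠ pt i j}
  pr : Y → X
  pr_emb : ∀ z, pr (emb z) = cov.π z
  pr_smooth : ContMDiffOn (𝓡 4) (𝓡 4) ∞ pr (range emb)
  pr_bij : ∀ y ∈ range emb, Function.Bijective (mfderiv (𝓡 4) (𝓡 4) pr y)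
  ι : Y → Y
  ι_smooth : ContMDiff (𝓡 4) (𝓡 4) ∞ ι
  ι_emb : ∀ z, ι (emb z) = emb (cov.act 1 z)
  ι_pt : ∀ i j, ι (pt i j) = pt i j
  ch : Fin 4 → Fin 4 → ℂ × ℂ → Y
  ch_smooth : ∀ i j, ContMDiffOn 𝓘(ℝ, ℂ × ℂ) (𝓡 4) ∞ (ch i j) (B2 (St i j).r)
  ch_bij : ∀ i j, ∀ z ∈ B2 (St i j).r, Function.Bijective (dm2 (ch i j) z)
  ch_inj : ∀ i j, InjOn (ch i j) (B2 (St i j).r)
  ch_zero : ∀ i j, ch i j 0 = pt i j
  ch_neg : ∀ i j, ∀ z ∈ B2 (St i j).r, ch i j (-z) = ι (ch i j z)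
  ch_mem : ∀ i j, ∀ z ∈ B0 (St i j).r, ch i j z ∈ range emb
  pr_ch : ∀ i j, ∀ z ∈ B0 (St i j).r, pr (ch i j z) = sq (St i j) z
  P : PairJ Y
  η_pr : ∀ j : Fin 2, ∀ y ∈ range emb, ∀ u v : TangentSpace (𝓡 4) y, P.η j y ![u, v] =
    w j.castSucc (pr y) ![mfderiv (𝓡 4) (𝓡 4) pr y u, mfderiv (𝓡 4) (𝓡 4) pr y v]
  J_pr : ∀ y ∈ range emb, ∀ u : TangentSpace (𝓡 4) y,
    mfderiv (𝓡 4) (𝓡 4) pr y (P.J y u) = Jw w (pr y) (mfderiv (𝓡 4) (𝓡 4) pr y u)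
  J_ch : ∀ i j, ∀ z ∈ B2 (St i j).r, ∀ a,
    dm2 (ch i j) z (Complex.I • a) = P.J (ch i j z) (dm2 (ch i j) z a)
  J_ι : ∀ y (u : TangentSpace (𝓡 4) y),
    mfderiv (𝓡 4) (𝓡 4) ι y (P.J y u) = P.J (ι y) (mfderiv (𝓡 4) (𝓡 4) ι y u)

attribute [instance] DC.top DC.chart DC.mfd DC.t2

/-- the points of `Y` which are not fixed -/
def DC.Yo {X : Type} [TopologicalSpace X] [ChartedSpace HS.E4 X] {w : Tri X}
    {St : Fin 4 → Fin 4 → Std w} (Y : DC St) : Set Y.Y := range Y.emb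

/-- construction of `Y` -/
def DCX_statement : Prop := STDB_statement → ∀ (X : Type) [Cl4 X] (c : Ctx X)
  (Z : GCov (Xo c.St) (ZMod 2)), (∀ i j, Model Z (c.St i j) 1) → Nonempty (DC c.St)

/-- invariant clopen sets; `Y` is connected -/
def YCONN_statement : Prop := STDB_statement → ∀ (X : Type) [Cl4 X] (c : Ctx X) (Y : DC c.St),
  ConnectedSpace Y.Y

/-- the half periods -/
def hp (τ : ℂ) (a : Fin 2 × Fin 2) : ℂ := (((a.1 : ℕ) : ℂ) + ((a.2 : ℕ) : ℂ) * τ) / 2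

/-- the half lattice -/
def HL (τ : ℂ) : Set ℂ := {z | ∃ m n : ℤ, z = (m + n * τ) / 2}

/-- Weierstrass parametrisation of a sphere with four marked points: `a` is the quotient map of a
torus by `± 1`, near a half period `a (h + z) = φ (g z)` with `g` of order two. -/
def WP_statement : Prop := ∀ (X : Type) [TopologicalSpace X] [ChartedSpace HS.E4 X]
  [IsManifold (𝓡 4) ∞ X] [T2Space X] (J : EndF X) (S : Sph J) (x : Fin 4 → X),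
  Function.Injective x → (∀ j, x j ∈ S.set) →
  ∃ (τ : ℂ) (a : ℂ → X) (σ : Fin 2 × Fin 2 ≃ Fin 4), 0 < τ.im ∧
    ContMDiff 𝓘(ℝ, ℂ) (𝓡 4) ∞ a ∧ (∀ z, JAt J a z) ∧ range a = S.set ∧
    (∀ z z', a z = a z' ↔ ∃ m n : ℤ, z' = z + m + n * τ ∨ z' = -z + m + n * τ) ∧
    (∀ z, z ∉ HL τ → dm a z 1 ≠ 0) ∧
    ∀ b, a (hp τ b) = x (σ b) ∧ ∃ (φ : ℂ → X) (g : ℂ → ℂ), (φ = S.u ∨ φ = S.v) ∧
      AnalyticAt ℂ g 0 ∧ deriv g 0 = 0 ∧ deriv (deriv g) 0 ≠ 0 ∧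
      ∀ᶠ z in 𝓝 (0 : ℂ), a (hp τ b + z) = φ (g z)

/-- the preimage of `C i` -/
def Aset {X : Type} [Cl4 X] (c : Ctx X) (Y : DC c.St) (i : Fin 4) : Set Y.Y :=
  {y | (y ∈ Y.Yo ∧ Y.pr y ∈ (c.C i).set) ∨ ∃ j, y = Y.pt i j}

/-- the preimage of `D j` -/
def Bset {X : Type} [Cl4 X] (c : Ctx X) (Y : DC c.St) (j : Fin 4) : Set Y.Y :=
  {y | (y ∈ Y.Yo ∧ Y.pr y ∈ (c.D j).set) ∨ ∃ i, y = Y.pt i j}

/-- An odd parametrisation of the preimage `A` of the sphere `S`, through the four points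
`Y.pt (i k) (j k)`. -/
structure OddTor {X : Type} [TopologicalSpace X] [ChartedSpace HS.E4 X] {w : Tri X}
    {St : Fin 4 → Fin 4 → Std w} (Y : DC St) (S : Sph (Jw w)) (i j : Fin 4 → Fin 4)
    (T : Tor Y.P.J) : Prop where
  set : T.set = {y | (y ∈ Y.Yo ∧ Y.pr y ∈ S.set) ∨ ∃ k, y = Y.pt (i k) (j k)}
  odd : ∀ z, T.u (-z) = Y.ι (T.u z)
  off : ∀ z, z ∉ HL T.τ → T.u z ∈ Y.Yo
  half : ∃ σ : Fin 2 × Fin 2 ≃ Fin 4, ∀ b, T.u (hp T.τ b) = Y.pt (i (σ b)) (j (σ b)) ∧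
    ∃ a : ℂ × ℂ, a ≠ 0 ∧ dirPt (St (i (σ b)) (j (σ b))) a ∈ S.set ∧
      ∀ t : ℂ, (dm T.u (hp T.τ b) t : HS.E4) = (dm2 (Y.ch (i (σ b)) (j (σ b))) 0 (t • a) : HS.E4)

/-- the tori over the spheres -/
def ATOR_statement : Prop := WP_statement → LIFT_statement → STDB_statement →
  ∀ (X : Type) [Cl4 X] (w : Tri X) (St : Fin 4 → Fin 4 → Std w) (Y : DC St) (S : Sph (Jw w))
  (i j : Fin 4 → Fin 4), (∀ a b a' b', (a, b) ≠ (a', b') → Disjoint (St a b).nb (St a' b').nb) →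
  Function.Injective (fun k => (i k, j k)) →
  (∀ k, ∃ x, S.set ∩ (St (i k) (j k)).set = {x} ∧ TransAt S.set (St (i k) (j k)).set x) →
  (∀ a b, (∀ k, (a, b) ≠ (i k, j k)) → Disjoint S.set (St a b).set) →
  ∃ T : Tor Y.P.J, OddTor Y S i j T

/-! ## Part 5: the foliations -/

/-- The data for one foliation: the class `F`, the special leaves, the covering `Z`. -/
structure FCtx {X : Type} [Cl4 X] (c : Ctx X) (Y : DC c.St) where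
  /-- `false`: the family of the `C i`, `true`: the family of the `D j` -/
  b : Bool
  γ : Fin 4 ≃ ZMod 2 × ZMod 2
  Z : GCov (Xo c.St) (ZMod 2 × ZMod 2)
  model : ∀ i j, Model Z (c.St i j) (γ (if b then i else j))
  A : Fin 4 → Tor Y.P.J
  B : Fin 4 → Tor Y.P.J
  hA : ∀ i, OddTor Y (c.C i) (fun _ => i) id (A i)
  hB : ∀ j, OddTor Y (c.D j) id (fun _ => j) (B j)

section leaves

variable {X : Type} [Cl4 X] {c : Ctx X} {Y : DC c.St}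

/-- the class of the fibres -/
def FCtx.F (f : FCtx c Y) : Fin 22 → ℤ := if f.b then c.K.F₂ else c.K.F₁

/-- the special leaves -/
def FCtx.Sp (f : FCtx c Y) (i : Fin 4) : Tor Y.P.J := if f.b then f.B i else f.A i

/-- the spheres below the special leaves -/
def FCtx.Sph (f : FCtx c Y) (i : Fin 4) : Sph (Jw c.w) := if f.b then c.D i else c.C i

/-- generic leaves -/
structure GLeaf (f : FCtx c Y) (T : Tor Y.P.J) : Prop where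
  sub : T.set ⊆ Y.Yo
  inj : InjOn Y.pr T.set
  cls : IsCls c.μ (fun φ => ∫ z in para T.τ, pull2 φ (fun z => Y.pr (T.u z)) z)
    (lc c.M.c (cs ℝ f.F))
  conn : IsPreconnected (f.Z.π ⁻¹' (Y.pr '' T.set))

/-- leaves -/
def Leaf (f : FCtx c Y) (L : Set Y.Y) : Prop :=
  (∃ i, L = (f.Sp i).set) ∨ ∃ T, GLeaf f T ∧ L = T.set

end leaves

/-- everything proved before -/
structure Pre : Prop where
  bb : BB
  fol : FOL_statement
  folb : FOLB_statement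
  tang : TANG_statement
  lift : LIFT_statement
  stdb : STDB_statement
  cls : CLS_statement
  geom : GEOM_statement

/-- projections of tori, images under the involution, constancy of the class in a family -/
def PRT_statement : Prop := Pre → ∀ (X : Type) [Cl4 X] (c : Ctx X) (Y : DC c.St),
  (∀ T : Tor Y.P.J, T.set ⊆ Y.Yo → InjOn Y.pr T.set →
    ∃ K : Tor (Jw c.w), K.τ = T.τ ∧ K.u = fun z => Y.pr (T.u z)) ∧
  (∀ T : Tor Y.P.J, ∃ T' : Tor Y.P.J, T'.τ = T.τ ∧ T'.u = fun z => Y.ι (T.u z)) ∧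
  (∀ (K : Tor (Jw c.w)) (u : ℂ → Y.Y), Continuous u → (∀ z, u z ∈ Y.Yo) →
    (∀ z, Y.pr (u z) = K.u z) → (∀ (m n : ℤ) z, u (z + m + n * K.τ) = u z) →
    ∃ T : Tor Y.P.J, T.τ = K.τ ∧ T.u = u) ∧
  ∀ (s : Set P2) (K : P2 → Tor (Jw c.w)) (Ψ : P2 × P2 → X), IsOpen s → IsPreconnected s →
    ContMDiffOn 𝓘(ℝ, P2 × P2) (𝓡 4) ∞ Ψ (s ×ˢ univ) →
    (∀ y ∈ s, ∀ p : P2, (K y).u (p.1 + p.2 * (K y).τ) = Ψ (y, p)) →
    ∀ y ∈ s, ∀ y' ∈ s, ∀ α, IsCls c.μ (K y).int α → IsCls c.μ (K y').int α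

/-- the leaves near a special leaf -/
def NEAR_statement : Prop := Pre → PRT_statement → ∀ (X : Type) [Cl4 X] (c : Ctx X) (Y : DC c.St)
  (f : FCtx c Y) (i : Fin 4), ∃ F : Fol Y.P.J, F.leaf 0 = (f.Sp i).set ∧
    ∀ y ∈ ball (0 : P2) F.ε, Leaf f (F.leaf y)

/-- the leaves near a generic leaf -/
def OPENG_statement : Prop := Pre → PRT_statement → ∀ (X : Type) [Cl4 X] (c : Ctx X) (Y : DC c.St)
  (f : FCtx c Y) (T : Tor Y.P.J), GLeaf f T → ∃ F : Fol Y.P.J, F.leaf 0 = T.set ∧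
    ∀ y ∈ ball (0 : P2) F.ε, Leaf f (F.leaf y)

/-- limits of tori of the class `F`: the limit through a point off the spheres is one irreducible
curve of square zero, disjoint from the spheres -/
def LIMK_statement : Prop := Pre → ∀ (X : Type) [Cl4 X] (c : Ctx X) (ι : Type) (𝒰 : Ultrafilter ι)
  (K : ι → Tor (Jw c.w)), (∀ n, IsCls c.μ (K n).int (lc c.M.c (cs ℝ c.K.F₁))) →
  ∀ x ∈ Xo c.St, (∀ i, x ∉ (c.C i).set) →
  (∀ U ∈ 𝓝 x, ∀ᶠ n in (𝒰 : Filter ι), (U ∩ (K n).set).Nonempty) →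
  ∃ L : Set X, x ∈ L ∧ L ⊆ Xo c.St ∧ IsCompact L ∧ ((∃ S : Tor (Jw c.w), S.set = L) ∨ Rat L) ∧
    ∀ O, IsOpen O → L ⊆ O → ∀ᶠ n in (𝒰 : Filter ι), (K n).set ⊆ O

/-- rational curves have a neighbourhood in which no set has connected preimage -/
def RATX_statement : Prop := LIFT_statement → ∀ (X : Type) [TopologicalSpace X] [T2Space X]
  (W : Set X) (Z : GCov W (ZMod 2 × ZMod 2)) (L : Set X), L ⊆ W → Rat L →
  ∃ O, IsOpen O ∧ L ⊆ O ∧ ∀ K ⊆ O, K.Nonempty → ¬ IsPreconnected (Z.π ⁻¹' K)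

/-- the union of the generic leaves is closed off the spheres -/
def CLOSED_statement : Prop := Pre → PRT_statement → LIMK_statement → RATX_statement →
  ∀ (X : Type) [Cl4 X] (c : Ctx X) (Y : DC c.St) (f : FCtx c Y), ∀ y ∈ Y.Yo,
  (∀ i, y ∉ (f.Sp i).set) → y ∈ closure {y' | ∃ T, GLeaf f T ∧ y' ∈ T.set} →
  ∃ T, GLeaf f T ∧ y ∈ T.set

/-- foliations by tori -/
structure Foli {Z : Type} [TopologicalSpace Z] [ChartedSpace HS.E4 Z] (J : EndF Z)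
    (𝓛 : Set Z → Prop) : Prop where
  cov : ∀ y, ∃ L, 𝓛 L ∧ y ∈ L
  uniq : ∀ L L', 𝓛 L → 𝓛 L' → (L ∩ L').Nonempty → L = L'
  fol : ∀ L, 𝓛 L → ∃ F : Fol J, F.leaf 0 = L ∧ ∀ y ∈ ball (0 : P2) F.ε, 𝓛 (F.leaf y)

/-- the global foliation -/
def FOLI_statement : Prop := Pre → PRT_statement → YCONN_statement → NEAR_statement →
  OPENG_statement → CLOSED_statement → ∀ (X : Type) [Cl4 X] (c : Ctx X) (Y : DC c.St)
  (f : FCtx c Y), Foli Y.P.J (Leaf f) ∧ ∀ L, Leaf f L → Leaf f (Y.ι '' L)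

/-- two tori meet in exactly one point, transversally -/
def OneT {Z : Type} [TopologicalSpace Z] [ChartedSpace HS.E4 Z] (J : EndF Z) (L L' : Set Z) :
    Prop := (∃ y, L ∩ L' = {y}) ∧ ∀ T T' : Tor J, T.set = L → T'.set = L' → ∀ z z',
      T.u z = T'.u z' → ∀ a b, (dm T.u z a : HS.E4) = (dm T'.u z' b : HS.E4) → a = 0

/-- leaves of the two families meet once -/
def MEET_statement : Prop := Pre → PRT_statement → YCONN_statement →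
  ∀ (X : Type) [Cl4 X] (c : Ctx X) (Y : DC c.St) (f g : FCtx c Y), f.b = false → g.b = true →
  Foli Y.P.J (Leaf f) → Foli Y.P.J (Leaf g) → (∀ L, Leaf g L → Leaf g (Y.ι '' L)) →
  ∀ L L', Leaf f L → Leaf g L' → OneT Y.P.J L L'

/-- the product structure -/
def PROD_statement : Prop := FOLB_statement → TANG_statement →
  ∀ (Z : Type) [TopologicalSpace Z] [ChartedSpace HS.E4 Z] [IsManifold (𝓡 4) ∞ Z] [T2Space Z]
  (J : EndF Z) (𝓛 𝓜 : Set Z → Prop), (∀ x u, J x (J x u) = -u) → Foli J 𝓛 → Foli J 𝓜 →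
  (∀ L M, 𝓛 L → 𝓜 M → OneT J L M) → ∀ A B : Tor J, 𝓛 A.set → 𝓜 B.set → A.u 0 = B.u 0 →
  ∃ Q : R4 → Z, ContMDiff 𝓘(ℝ, R4) (𝓡 4) ∞ Q ∧ (∀ x, Function.Bijective (dm4 Q x)) ∧
    Function.Surjective Q ∧ (∀ x y, Q x = Q y ↔ ∃ k, y = tr k x) ∧
    (∀ x, ∃ L M, 𝓛 L ∧ 𝓜 M ∧ Q x ∈ L ∧ Q x ∈ M ∧ B.u (x 2 + x 3 * B.τ) ∈ L ∧
      A.u (x 0 + x 1 * A.τ) ∈ M) ∧
    (∀ x, ∃ a b : ℝ, dm4 Q x (e 1) = a • dm4 Q x (e 0) + b • J (Q x) (dm4 Q x (e 0))) ∧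
    (∀ x, ∃ a b : ℝ, dm4 Q x (e 3) = a • dm4 Q x (e 2) + b • J (Q x) (dm4 Q x (e 2))) ∧
    (∀ s t : ℝ, Q ![s, t, 0, 0] = A.u (s + t * A.τ)) ∧ ∀ s t : ℝ, Q ![0, 0, s, t] = B.u (s + t * B.τ)

/-- the Kummer presentation from the product structure -/
def KPFIN_statement : Prop := Pre → PROD_statement → ∀ (X : Type) [Cl4 X] (c : Ctx X)
  (Y : DC c.St) (f g : FCtx c Y), f.b = false → g.b = true →
  Foli Y.P.J (Leaf f) → Foli Y.P.J (Leaf g) → (∀ L, Leaf f L → Leaf f (Y.ι '' L)) →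
  (∀ L, Leaf g L → Leaf g (Y.ι '' L)) → (∀ L L', Leaf f L → Leaf g L' → OneT Y.P.J L L') →
  Nonempty (KP c.w)

/-- assembly of block Y -/
def ASMY_statement : Prop := Pre → COV_statement → DCX_statement → YCONN_statement →
  WP_statement → ATOR_statement → PRT_statement → NEAR_statement → OPENG_statement →
  LIMK_statement → RATX_statement → CLOSED_statement → FOLI_statement → MEET_statement →
  PROD_statement → KPFIN_statement → KUM_statement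

end Vale.Agent.P247Y
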