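import Vale.Agent.P247Y.Transpl2
import Vale.Agent.P247Y.Sta

/-!
# P247, block Y, row TRANSPL: transplantation of a tube into periodic data
-/

set_option linter.all false

open scoped BigOperators ContDiff Topology
open Set Filter Metric

noncomputable section

namespace Vale.Agent.P247Y.TrP

open Vale.Agent.P204 Vale.Agent.P204.T4 Vale.Agent.P204.GX Vale.Agent.P204.Mfd
open Vale.Agent.P247.SCY
open Vale.Agent.P247.H74 (R4 Data e P2 lin)
open Vale.Agent.P247L (PerZ exists_data)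

/-- lattice vectors along the torus -/
def vv (m n : ℤ) : V4 := ![0, 0, (m : ℝ), (n : ℝ)]

theorem tr2_eq (m n : ℤ) (x : R4) : tr2 m n x = x + vv m n := by
  funext i
  fin_cases i <;> simp [tr2, vv, e]

/-- the point of the unit square below `y` -/
def fr (y : V4) : P2 := (Int.fract (y 2), Int.fract (y 3))

theorem fr_mem (y : V4) : fr y ∈ Icc (0 : P2) 1 :=
  ⟨⟨Int.fract_nonneg _, Int.fract_nonneg _⟩, (Int.fract_lt_one _).le, (Int.fract_lt_one _).le⟩

theorem continuous_lin : Continuous lin := by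
  refine continuous_pi fun i => ?_
  fin_cases i <;> simp [lin] <;> fun_prop

theorem isOpen_Tb (r : ℝ) : IsOpen (Tb r) :=
  (isOpen_lt (continuous_apply 0).abs continuous_const).inter
    (isOpen_lt (continuous_apply 1).abs continuous_const)

theorem isOpen_out (r : ℝ) : IsOpen {y : V4 | r < |y 0| ∨ r < |y 1|} :=
  (isOpen_lt continuous_const (continuous_apply 0).abs).union
    (isOpen_lt continuous_const (continuous_apply 1).abs)

theorem lin_mem {r : ℝ} (hr : 0 < r) (p : P2) : lin p ∈ Tb r := by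
  constructor <;> simp [lin, hr]

theorem close {α : V4 → L2} (hα : Continuous α) (hp : ∀ m n x, α (x + vv m n) = α x) {ε : ℝ}
    (hε : 0 < ε) : ∃ a > 0, ∀ y : V4, |y 0| ≤ a → |y 1| ≤ a → ‖α y - α (lin (fr y))‖ ≤ ε := by
  set G : P2 × P2 → V4 := fun q => ![q.1.1, q.1.2, q.2.1, q.2.2] with hG
  have cG : Continuous G := by
    refine continuous_pi fun i => ?_
    fin_cases i <;> simp [hG] <;> fun_prop
  have h1 : ∀ᶠ s in 𝓝 (0 : P2), ∀ p ∈ Icc (0 : P2) 1, ‖α (G (s, p)) - α (lin p)‖ < ε := by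
    refine isCompact_Icc.eventually_forall_of_forall_eventually
      (P := fun s p => ‖α (G (s, p)) - α (lin p)‖ < ε) fun p _ => ?_
    have h2 : Continuous fun q : P2 × P2 => ‖α (G q) - α (lin q.2)‖ :=
      ((hα.comp cG).sub (hα.comp (continuous_lin.comp continuous_snd))).norm
    refine h2.continuousAt.eventually_lt continuousAt_const ?_
    have : G (0, p) = lin p := rfl
    simp only [this, sub_self, norm_zero]
    exact hε
  obtain ⟨a, ha, h2⟩ := Metric.nhds_basis_closedBall.eventually_iff.1 h1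
  refine ⟨a, ha, fun y h0 h1 => ?_⟩
  have h3 := h2 (x := (y 0, y 1)) (mem_closedBall_zero_iff.2 (max_le h0 h1)) (fr y) (fr_mem y)
  have h4 : y = G ((y 0, y 1), fr y) + vv ⌊y 2⌋ ⌊y 3⌋ := by
    funext i
    fin_cases i <;> simp [hG, vv, fr]
  conv_lhs => enter [1, 1]; rw [h4, hp]
  exact h3.le

theorem St_abs {t : ℝ} (ht : t ∈ Icc (0 : ℝ) 1) (x : V4) :
    |St t x 0| ≤ |x 0| ∧ |St t x 1| ≤ |x 1| := by
  have h3 : |t| ≤ 1 := by rw [abs_of_nonneg ht.1]; exact ht.2
  constructor
  · show |t * x 0| ≤ _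
    rw [abs_mul]; exact mul_le_of_le_one_left (abs_nonneg _) h3
  · show |t * x 1| ≤ _
    rw [abs_mul]; exact mul_le_of_le_one_left (abs_nonneg _) h3

theorem clAt_sub {α : V4 → L2} {x : V4} (h : ClAt α x) (K : L2) : ClAt (fun y => α y - K) x := by
  intro i j k
  have h1 : ∀ i j k, pd i (fun y => ent (α y - K) j k) x = pd i (fun y => ent (α y) j k) x := by
    intro i j k
    have h2 : (fun y => ent (α y - K) j k) = fun y => ent (α y) j k - ent K j k := by
      funext y
      fin_cases j <;> fin_cases k <;> simp [ent] <;> ring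
    unfold pd
    rw [h2, fderiv_sub_const]
  rw [h1, h1, h1]
  exact h i j k

/-- the statement for globally smooth forms in components -/
theorem main {r : ℝ} (hr : 0 < r) (α : Fin 2 → V4 → L2) (hs : ∀ j, ContDiff ℝ ∞ (α j))
    (hc : ∀ j, ∀ x ∈ Tb r, ClAt (α j) x) (hp : ∀ j m n x, α j (x + vv m n) = α j x)
    (hA : ∀ p, NrmA (α 0 (lin p))) (hB : ∀ p, α 1 (lin p) 5 = 0)
    (hΔ : ∀ p, 0 < Δ (α 1 (lin p))) :
    ∃ r' > 0, r' ≤ r ∧ ∃ D : Data, ∀ j, ∀ x ∈ Tb r', ∀ u v,
      (D.η j).val x u v = ev (α j x) u v := by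
  have cl : ∀ j, Continuous fun p => α j (lin p) := fun j => (hs j).continuous.comp continuous_lin
  have h5 : ∀ j p, α j (lin p) 5 = 0 := by
    intro j p
    fin_cases j
    · exact (hA p).2.2.2.2
    · exact hB p
  have hne : ∀ p, α 1 (lin p) 1 ≠ 0 := by
    intro p h
    have := hΔ p
    simp only [Δ, h] at this
    nlinarith [sq_nonneg (α 1 (lin p) 2 - α 1 (lin p) 3)]
  have hsg : ∀ p, 0 < α 1 (lin 0) 1 * α 1 (lin p) 1 := by
    intro p
    by_contra hn
    have c1 : Continuous fun p => α 1 (lin 0) 1 * α 1 (lin p) 1 :=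
      continuous_const.mul ((continuous_apply 1).comp (cl 1))
    obtain ⟨q, hq⟩ := intermediate_value_univ p 0 c1 ⟨not_lt.1 hn, mul_self_nonneg _⟩
    exact mul_ne_zero (hne 0) (hne q) hq
  set cv : Fin 2 → ℝ × P2 → L2 := fun j q => (1 - q.1) • α j (lin 0) + q.1 • α j (lin q.2)
    with hcv
  have ccv : ∀ j, Continuous (cv j) := fun j =>
    ((continuous_const.sub continuous_fst).smul continuous_const).add
      (continuous_fst.smul ((cl j).comp continuous_snd))
  obtain ⟨K, δ, hδ, hK⟩ := exists_unif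
    (S := (fun q => (cv 0 q, cv 1 q)) '' (Icc (0 : ℝ) 1 ×ˢ Icc (0 : P2) 1))
    ((isCompact_Icc.prod isCompact_Icc).image ((ccv 0).prodMk (ccv 1))) (by
      rintro _ ⟨q, hq, rfl⟩
      obtain ⟨a1, a2, a3, a4, a5⟩ := hA 0
      obtain ⟨b1, b2, b3, b4, b5⟩ := hA q.2
      refine ⟨⟨?_, ?_, ?_, ?_, ?_⟩, ?_, Δ_convex (hΔ 0) (hΔ q.2) (hsg q.2) hq.1⟩ <;>
        simp [hcv, a1, a2, a3, a4, a5, b1, b2, b3, b4, b5, hB])
  have hM : ∀ j, ∃ M, ∀ p ∈ Icc (0 : P2) 1, ‖α j (lin p) - α j (lin 0)‖ ≤ M := fun j =>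
    isCompact_Icc.exists_bound_of_continuousOn ((cl j).sub continuous_const).continuousOn
  choose M hM using hM
  choose a ha hcl using fun j => close (hs j).continuous (hp j)
    (lt_min (half_pos hδ) one_pos : 0 < min (δ / 2) 1)
  set M' := |M 0| + |M 1| + 1 with hM'
  have hM0 : 0 < M' := by positivity
  set a' := min (min (a 0) (a 1)) (min (r / 2) (1 / 4)) with ha'
  have ha0 : 0 < a' := lt_min (lt_min (ha 0) (ha 1)) (lt_min (half_pos hr) (by norm_num))
  have haj : ∀ j, a' ≤ a j := by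
    intro j
    fin_cases j
    · exact (min_le_left _ _).trans (min_le_left _ _)
    · exact (min_le_left _ _).trans (min_le_right _ _)
  have har : a' < r := ((min_le_right _ _).trans (min_le_left _ _)).trans_lt (half_lt_self hr)
  have ha4 : a' ≤ 1 / 4 := (min_le_right _ _).trans (min_le_right _ _)
  obtain ⟨χ, ρ, hρ, sχ, χm, χ1, χ0, χp, χg⟩ := exists_logcut ha0
    (by positivity : 0 < δ / (4 * M'))
  choose β sβ dβ bβ pβ using fun j => exists_primS (α := fun y => α j y - α j (lin 0))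
    ((hs j).sub contDiff_const)
  have dβ' : ∀ j (z : V4), |z 0| ≤ a' → |z 1| ≤ a' → d1 (β j) z = α j z - α j (lin 0) := by
    intro j z h0 h1
    refine dβ j z (fun t ht => clAt_sub (hc j _ ⟨?_, ?_⟩) _) ?_
    · exact ((St_abs ht z).1.trans h0).trans_lt har
    · exact ((St_abs ht z).2.trans h1).trans_lt har
    · have : St 0 z = lin (z 2, z 3) := by
        funext i
        fin_cases i <;> simp [St, sc, lin]
      rw [this, Pi.sub_apply, h5, h5, sub_zero]
  have bβ' : ∀ j (z : V4), |z 0| ≤ a' → |z 1| ≤ a' → ‖β j z‖ ≤ (|z 0| + |z 1|) * M' := by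
    intro j z h0 h1
    refine bβ j z M' fun t ht => ?_
    have e1 := (hcl j (St t z) (((St_abs ht z).1.trans h0).trans (haj j))
      (((St_abs ht z).2.trans h1).trans (haj j))).trans (min_le_right _ _)
    have e2 := hM j _ (fr_mem (St t z))
    have e3 : M j ≤ |M 0| + |M 1| := by
      have := abs_nonneg (M 0)
      have := abs_nonneg (M 1)
      fin_cases j
      · exact (le_abs_self _).trans (by simp)
      · exact (le_abs_self _).trans (by simp)
    have e4 := norm_sub_le_norm_sub_add_norm_sub (α j (St t z)) (α j (lin (fr (St t z))))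
      (α j (lin 0))
    linarith
  set γ : Fin 2 → V4 → V4 := fun j y => χ y • β j y with hγ
  have sγ : ∀ j, ContDiff ℝ ∞ (γ j) := fun j => sχ.smul (sβ j)
  have zγ : ∀ j (y : V4), 3 / 8 ≤ |y 0| ∨ 3 / 8 ≤ |y 1| → γ j y = 0 := by
    intro j y hy
    have : χ y = 0 := χ0 y (hy.imp (fun h => by linarith) fun h => by linarith)
    simp only [hγ, this, zero_smul]
  have pγ : ∀ j (m n : ℤ) x, γ j (x + ![0, 0, (m : ℝ), (n : ℝ)]) = γ j x := by
    intro j m n x
    simp only [hγ]
    rw [χp x _ rfl rfl, pβ j _ rfl rfl fun x => by rw [← hp j m n x]; rfl]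
  have dγ : ∀ j (z : V4), |z 0| ≤ a' → |z 1| ≤ a' →
      d1 (γ j) z = wd (grad χ z) (β j z) + χ z • (α j z - α j (lin 0)) := by
    intro j z h0 h1
    rw [hγ, EMF.d1_smul (sχ.differentiable (by simp) z) ((sβ j).differentiable (by simp) z),
      dβ' j z h0 h1]
  have d0 : ∀ z, d1 (fun _ : V4 => (0 : V4)) z = 0 := by
    intro z
    funext i
    fin_cases i <;> simp [d1, ofEnt, pd]
  have near : ∀ z : V4, ∃ q ∈ Icc (0 : ℝ) 1 ×ˢ Icc (0 : P2) 1, ∀ j,
      ‖α j (lin 0) + d1 (γ j) z - cv j q‖ ≤ δ := by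
    intro z
    by_cases hz : |z 0| ≤ a' ∧ |z 1| ≤ a'
    · refine ⟨(χ z, fr z), ⟨χm z, fr_mem z⟩, fun j => ?_⟩
      have e1 : α j (lin 0) + d1 (γ j) z - cv j (χ z, fr z) =
          wd (grad χ z) (β j z) + χ z • (α j z - α j (lin (fr z))) := by
        rw [dγ j z hz.1 hz.2]
        simp only [hcv]
        module
      have e2 : ‖wd (grad χ z) (β j z)‖ ≤ δ / 2 := by
        refine (T4.norm_wd_le _ _).trans ?_
        have f1 := mul_le_mul_of_nonneg_left (bβ' j z hz.1 hz.2)
          (by positivity : 0 ≤ 2 * ‖grad χ z‖)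
        have f2 := mul_le_mul_of_nonneg_left (χg z) (by positivity : 0 ≤ 2 * M')
        have f3 : 2 * M' * (δ / (4 * M')) = δ / 2 := by field_simp; ring
        nlinarith
      have e3 : ‖χ z • (α j z - α j (lin (fr z)))‖ ≤ δ / 2 := by
        rw [norm_smul, Real.norm_eq_abs, abs_of_nonneg (χm z).1]
        exact (mul_le_of_le_one_left (norm_nonneg _) (χm z).2).trans
          ((hcl j z (hz.1.trans (haj j)) (hz.2.trans (haj j))).trans (min_le_left _ _))
      rw [e1]
      exact (norm_add_le _ _).trans (by linarith)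
    · refine ⟨(0, 0), ⟨by simp, by simp⟩, fun j => ?_⟩
      have h1 : γ j =ᶠ[𝓝 z] fun _ => 0 := by
        have ho := isOpen_out a'
        filter_upwards [ho.mem_nhds (by simpa [imp_iff_not_or] using hz)] with y hy
        have : χ y = 0 := χ0 y (hy.imp le_of_lt le_of_lt)
        simp only [hγ, this, zero_smul]
      rw [GX.d1_congr h1, d0]
      simp [hcv, hδ.le]
  obtain ⟨D, -, e1, -, -⟩ := exists_data ![α 0 (lin 0), α 1 (lin 0), Ck K]
    ![pz2 (γ 0), pz2 (γ 1), fun _ => 0]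
    (by
      intro j
      fin_cases j
      · exact pz2_smooth (sγ 0) (zγ 0)
      · exact pz2_smooth (sγ 1) (zγ 1)
      · exact contDiff_const)
    (by
      intro j
      fin_cases j
      · exact perZ_pz2 (pγ 0)
      · exact perZ_pz2 (pγ 1)
      · exact fun _ _ => rfl)
    (by
      intro y
      obtain ⟨q, hq, h⟩ := near (y - rd2 y)
      show Def3 1 (Ck K + d1 (fun _ => 0) y) (α 0 (lin 0) + d1 (pz2 (γ 0)) y)
        (α 1 (lin 0) + d1 (pz2 (γ 1)) y)
      rw [d0, add_zero, d1_pz2 (zγ 0), d1_pz2 (zγ 1)]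
      exact hK _ ⟨q, hq, rfl⟩ _ _ (h 0) (h 1))
    (h5 0 0) (h5 1 0)
    (by
      obtain ⟨a1, a2, a3, a4, a5⟩ := hA 0
      show 0 < Q (α 0 (lin 0)) (α 0 (lin 0))
      simp [Q, a1, a2, a3, a4, a5])
    (by show (0 : ℝ) < 1; exact one_pos)
  refine ⟨min ρ a', lt_min hρ ha0, (min_le_right _ _).trans har.le, D, fun j x hx u v => ?_⟩
  have x0 := lt_min_iff.1 hx.1
  have x1 := lt_min_iff.1 hx.2
  have key : α j (lin 0) + d1 (pz2 (γ j)) x = α j x := by
    rw [d1_pz2 (zγ j), rd2_zero (x0.2.trans_le ha4) (x1.2.trans_le ha4), sub_zero]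
    have h3 : γ j =ᶠ[𝓝 x] β j := by
      filter_upwards [(isOpen_Tb ρ).mem_nhds ⟨x0.1, x1.1⟩] with z hz
      simp only [hγ, χ1 z hz.1 hz.2, one_smul]
    rw [GX.d1_congr h3, dβ' j x x0.2.le x1.2.le, add_sub_cancel]
  rw [e1, ← key]
  fin_cases j <;> rfl

end Vale.Agent.P247Y.TrP

namespace Vale.Agent.P247Y

open TrP Vale.Agent.P204 Vale.Agent.P204.T4 Vale.Agent.P204.Mfd Vale.Agent.P247.SCY
open Vale.Agent.P247.H74 (R4 Data e P2 lin)

theorem TRANSPL : TRANSPL_statement := by
  intro r hr η hs hc hp h23 hn hw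
  obtain ⟨χ, ρ, hρ, sχ, -, χ1, χ0, χp, -⟩ := exists_logcut (half_pos hr) one_pos
  set r₁ := min ρ r with hr₁
  have hr1 : 0 < r₁ := lt_min hρ hr
  have hsub : Tb r₁ ⊆ Tb r := fun x hx =>
    ⟨hx.1.trans_le (min_le_right _ _), hx.2.trans_le (min_le_right _ _)⟩
  set α : Fin 2 → V4 → L2 := fun j y => χ y • compL (η j y) with hα
  have hz : ∀ y, y ∉ Tb r → χ y = 0 := by
    intro y hy
    refine χ0 y ?_
    by_contra hn
    push Not at hn
    exact hy ⟨by linarith [hn.1], by linarith [hn.2]⟩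
  have heq : ∀ j, ∀ x ∈ Tb r₁, α j x = compL (η j x) := by
    intro j x hx
    simp only [hα, χ1 x (hx.1.trans_le (min_le_left _ _)) (hx.2.trans_le (min_le_left _ _)),
      one_smul]
  have hat : ∀ j, ∀ x ∈ Tb r, ContDiffAt ℝ ∞ (η j) x := fun j x hx =>
    (hs j).contDiffAt ((isOpen_Tb r).mem_nhds hx)
  have hl : ∀ j p, α j (lin p) = compL (η j (lin p)) := fun j p => heq j _ (lin_mem hr1 p)
  have hA : ∀ p, NrmA (α 0 (lin p)) := by
    intro p
    rw [hl]
    exact ⟨(hn p).1, (hn p).2.1, (hn p).2.2.1, (hn p).2.2.2, h23 0 p⟩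
  have hB : ∀ p, α 1 (lin p) 5 = 0 := by
    intro p
    rw [hl]
    exact h23 1 p
  obtain ⟨r', h0, h1, D, hD⟩ := main hr1 α
    (fun j => contDiff_iff_contDiffAt.2 fun x => by
      by_cases hx : x ∈ Tb r
      · exact sχ.contDiffAt.smul (compL.contDiff.contDiffAt.comp x (hat j x hx))
      · refine (contDiffAt_const (c := 0)).congr_of_eventuallyEq ?_
        have ho := isOpen_out (r / 2)
        have hm : x ∈ {y : V4 | r / 2 < |y 0| ∨ r / 2 < |y 1|} := by
          by_contra hn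
          simp only [mem_setOf_eq, not_or, not_lt] at hn
          exact hx ⟨by linarith [hn.1], by linarith [hn.2]⟩
        filter_upwards [ho.mem_nhds hm] with y hy
        simp only [hα, χ0 y (hy.imp le_of_lt le_of_lt), zero_smul])
    (fun j x hx i k l => by
      have h1 : ∀ i k l, pd i (fun y => ent (α j y) k l) x =
          pd i (fun y => ent (compL (η j y)) k l) x := by
        intro i k l
        refine GX.pd_congr ?_ i
        filter_upwards [(isOpen_Tb r₁).mem_nhds hx] with y hy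
        rw [heq j y hy]
      rw [h1, h1, h1, ← extDeriv_eb ((hat j x (hsub hx)).differentiableAt (by simp)),
        hc j x (hsub hx)]
      rfl)
    (fun j m n x => by
      simp only [hα]
      rw [χp x _ rfl rfl]
      by_cases hx : x ∈ Tb r
      · rw [← tr2_eq, hp j m n x hx]
      · rw [hz x hx, zero_smul, zero_smul])
    hA hB (fun p => Δ_pos (hA p) (hB p) fun a b hab => by
      rw [hl, hl, ← map_smul, ← map_smul, ← map_add]
      exact hw p a b hab)
  refine ⟨r', h0, h1.trans (min_le_right _ _), D, fun j x hx u v => ?_⟩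
  rw [hD j x hx, heq j x ⟨hx.1.trans_le h1, hx.2.trans_le h1⟩, ev_compL]

end Vale.Agent.P247Y
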