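import Vale.Agent.P247Y.Tube1

/-!
# P247, block Y, row TUBE
-/

set_option linter.all false

open scoped Manifold ContDiff Topology
open Set MeasureTheory Filter Metric Function

noncomputable section

namespace Vale.Agent.P247Y.Tub

open Vale.Agent.P247.SCY
open Vale.Agent.P247.SCY.HS
open Vale.Agent.P247X
open Vale.Agent.P247.H74 (R4 e P2 lin)

section alg

/-- a two-form as a bilinear map -/
def bl {V : Type*} [NormedAddCommGroup V] [NormedSpace ℝ V] (a : V [⋀^Fin 2]→L[ℝ] ℝ) :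
    V →ₗ[ℝ] V →ₗ[ℝ] ℝ :=
  LinearMap.mk₂ ℝ (fun u v => a ![u, v])
    (fun u u' v => by
      rw [alt2_swap a (u + u'), alt2_add_right, alt2_swap a u, alt2_swap a u']; ring)
    (fun t u v => by rw [alt2_swap a (t • u), alt2_smul_right, alt2_swap a u, smul_eq_mul]; ring)
    (fun u v v' => alt2_add_right a u v v')
    (fun t u v => alt2_smul_right a u v t)

theorem bl_apply {V : Type*} [NormedAddCommGroup V] [NormedSpace ℝ V] (a : V [⋀^Fin 2]→L[ℝ] ℝ)
    (u v : V) : a ![u, v] = bl a u v := rfl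

theorem cx_ind {V : Type*} [NormedAddCommGroup V] [NormedSpace ℝ V] (J : V →L[ℝ] V)
    (hJ : ∀ u, J (J u) = -u) (u : V) (a b : ℝ) :
    (a ^ 2 + b ^ 2) • u = a • (a • u + b • J u) - b • J (a • u + b • J u) := by
  simp only [map_add, map_smul, hJ]
  module

/-- nonzero anti-invariant forms are nondegenerate -/
theorem anti_nd (a : HS.E4 [⋀^Fin 2]→L[ℝ] ℝ) (J : HS.E4 →L[ℝ] HS.E4) (hJ : ∀ u, J (J u) = -u)
    (h : ∀ u v, a ![J u, J v] = - a ![u, v]) (h0 : ¬ ∀ u v, a ![u, v] = 0) (u : HS.E4)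
    (hu : ∀ v, a ![v, u] = 0) : u = 0 := by
  by_contra hne
  have hK : ∀ x, (∀ v, bl a v x = 0) → ∀ v, bl a v (J x) = 0 := by
    intro x hx v
    have h1 := h (J v) x
    rw [hJ, bl_apply, bl_apply, hx, map_neg, LinearMap.neg_apply] at h1
    linarith
  apply h0
  intro v w
  have hli : ¬ LinearIndependent ℝ ![u, J u, v, J v, w] := fun H => by
    have := H.fintype_card_le_finrank
    simp at this
  obtain ⟨g, hg, i, hi⟩ := Fintype.not_linearIndependent_iff.1 hli
  simp only [Fin.sum_univ_five, Matrix.cons_val] at hg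
  have hu' : ∀ v, bl a v u = 0 := hu
  have hJu := hK u hu'
  by_cases h4 : g 4 = 0
  · have h5 : ∀ y, bl a y (g 2 • v + g 3 • J v) = 0 := by
      intro y
      have := congrArg (bl a y) hg
      simp only [map_add, map_smul, hu', hJu, h4, smul_eq_mul, map_zero] at this ⊢
      linarith
    by_cases h6 : g 2 ^ 2 + g 3 ^ 2 = 0
    · have h2 : g 2 = 0 := by nlinarith
      have h3 : g 3 = 0 := by nlinarith
      rw [h2, h3, h4, zero_smul, zero_smul, zero_smul, add_zero, add_zero, add_zero] at hg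
      have h7 := cx_ind J hJ u (g 0) (g 1)
      rw [hg, map_zero, smul_zero, smul_zero, sub_zero, smul_eq_zero] at h7
      have h8 := h7.resolve_right hne
      have h9 : g 0 = 0 := by nlinarith
      have h10 : g 1 = 0 := by nlinarith
      exfalso
      fin_cases i
      exacts [hi h9, hi h10, hi h2, hi h3, hi h4]
    · have h7 := congrArg (bl a w) (cx_ind J hJ v (g 2) (g 3))
      rw [map_sub, map_smul, map_smul, map_smul, h5, hK _ h5, smul_zero, smul_zero, sub_zero,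
        smul_eq_mul, mul_eq_zero] at h7
      rw [alt2_swap, bl_apply, h7.resolve_left h6, neg_zero]
  · have := congrArg (bl a v) hg
    have h5 : bl a v v = 0 := alt2_self a v
    have h6 : bl a v (J v) = 0 := anti_zero a J hJ h v
    simp only [map_add, map_smul, hu', hJu, h5, h6, smul_eq_mul, map_zero, mul_zero, zero_add,
      mul_eq_zero] at this
    exact this.resolve_left h4

/-- the vector with given coordinates -/
def vec (c : Fin 4 → ℝ) : HS.E4 := ∑ i, c i • bas i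

theorem vec_self (v : HS.E4) : vec (fun i => v i) = v := by
  ext i
  fin_cases i <;> simp [vec, bas, Fin.sum_univ_four]

theorem alt_vec (a : HS.E4 [⋀^Fin 2]→L[ℝ] ℝ) (c : Fin 4 → ℝ) (s : HS.E4) :
    a ![vec c, s] = ∑ i, c i * a ![bas i, s] := by
  simp only [bl_apply, vec, map_sum, map_smul, LinearMap.sum_apply, LinearMap.smul_apply,
    smul_eq_mul]

/-- the Gram determinant -/
def gd (A B : Fin 4 → ℝ) : ℝ := (∑ i, A i * A i) * (∑ i, B i * B i) - (∑ i, A i * B i) ^ 2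

/-- the dual vector -/
def dv (A B : Fin 4 → ℝ) : Fin 4 → ℝ := fun i =>
  ((∑ i, A i * A i) * B i - (∑ i, A i * B i) * A i) / gd A B

theorem gd_comm (A B : Fin 4 → ℝ) : gd A B = gd B A := by
  simp only [gd, Fin.sum_univ_four]; ring

theorem dv_A (A B : Fin 4 → ℝ) : ∑ i, dv A B i * A i = 0 := by
  simp only [dv, Fin.sum_univ_four]; ring

theorem dv_B (A B : Fin 4 → ℝ) (h : gd A B ≠ 0) : ∑ i, dv A B i * B i = 1 := by
  have : ∑ i, dv A B i * B i = gd A B / gd A B := by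
    simp only [dv, Fin.sum_univ_four]
    rw [eq_div_iff h]
    field_simp
    simp only [gd, Fin.sum_univ_four]
    ring
  rw [this, div_self h]

theorem sq_zero (A : Fin 4 → ℝ) (h : ∑ i, A i * A i = 0) (i : Fin 4) : A i = 0 :=
  mul_self_eq_zero.1 ((Finset.sum_eq_zero_iff_of_nonneg fun i _ => mul_self_nonneg _).1 h i
    (Finset.mem_univ i))

theorem gd_ne (A B : Fin 4 → ℝ) (h : ∀ x y : ℝ, (∀ i, x * A i + y * B i = 0) → x = 0 ∧ y = 0) :
    gd A B ≠ 0 := by
  intro h0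
  have h1 := sq_zero (fun i => -(∑ i, A i * B i) * A i + (∑ i, A i * A i) * B i) (by
    have : ∑ i, (-(∑ i, A i * B i) * A i + (∑ i, A i * A i) * B i) *
        (-(∑ i, A i * B i) * A i + (∑ i, A i * A i) * B i) = (∑ i, A i * A i) * gd A B := by
      simp only [gd, Fin.sum_univ_four]; ring
    rw [this, h0, mul_zero])
  have h2 := sq_zero A (h _ _ h1).2
  exact one_ne_zero (h 1 0 fun i => by simp [h2 i]).1

end alg

variable {Z : Type} [TopologicalSpace Z] [ChartedSpace HS.E4 Z] [IsManifold (𝓡 4) ∞ Z]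

/-- the differential of `φ` -/
def D2 (φ : P2 → Z) (p : P2) : P2 →L[ℝ] HS.E4 := mfderiv 𝓘(ℝ, P2) (𝓡 4) φ p

/-- the value of a form on model vectors -/
def ev (η : Form Z 2) (z : Z) : HS.E4 [⋀^Fin 2]→L[ℝ] ℝ := η z

/-- normalised normal vectors in a chart -/
theorem loc_frame {φ : P2 → Z} (h : ContMDiff 𝓘(ℝ, P2) (𝓡 4) ∞ φ)
    (hp : ∀ (m n : ℤ) (p : P2), φ (p.1 + m, p.2 + n) = φ p) {η : Form Z 2} (hη : Smooth η)
    (nd : ∀ p q, (∀ v, ev η (φ p) ![v, D2 φ p q] = 0) → q = 0) (z : Z) :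
    ∃ V : Fin 2 → P2 → HS.E4, (∀ a, ContDiffOn ℝ ∞ (V a) (φ ⁻¹' (chartAt HS.E4 z).source)) ∧
      (∀ a (m n : ℤ) (p : P2), V a (p.1 + m, p.2 + n) = V a p) ∧
      ∀ p ∈ φ ⁻¹' (chartAt HS.E4 z).source, ∀ a,
        ev η (φ p) ![Dc (chartAt HS.E4 z) (chartAt HS.E4 z (φ p)) (V a p), D2 φ p (1, 0)] =
          (if a = 0 then 0 else 1) ∧
        ev η (φ p) ![Dc (chartAt HS.E4 z) (chartAt HS.E4 z (φ p)) (V a p), D2 φ p (0, 1)] =
          if a = 0 then 1 else 0 := by
  set c := chartAt HS.E4 z with hc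
  set U := φ ⁻¹' c.source with hU
  have hO : IsOpen U := c.open_source.preimage h.continuous
  let g : P2 → HS.E4 := fun p => c (φ p)
  have hg : ContDiffOn ℝ ∞ g U :=
    contMDiffOn_iff_contDiffOn.1 ((chart_sm z).comp h.contMDiffOn fun p hp => hp)
  have hω : ContDiffOn ℝ ∞ (fun p => loc c η (g p)) U :=
    (hη c (chart_mem_atlas _ z)).comp hg fun p hp => c.map_source hp
  let A : P2 → P2 → Fin 4 → ℝ := fun q p i => loc c η (g p) ![bas i, fderiv ℝ g p q]
  have hA : ∀ q i, ContDiffOn ℝ ∞ (fun p => A q p i) U := by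
    intro q i
    have h1 : ContDiffOn ℝ ∞ (fun p => fderiv ℝ g p q) U :=
      (hg.fderiv_of_isOpen hO (m := ∞) (by simp)).clm_apply contDiffOn_const
    have h2 : (fun p => A q p i) =
        fun p => - ∑ j, (fderiv ℝ g p q) j * loc c η (g p) ![bas j, bas i] := by
      funext p
      rw [← alt_vec, vec_self, ← alt2_swap]
    rw [h2]
    refine (ContDiffOn.sum fun j _ => ContDiffOn.mul ?_ ?_).neg
    · exact (EuclideanSpace.proj j : HS.E4 →L[ℝ] ℝ).contDiff.comp_contDiffOn h1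
    · exact (ContinuousAlternatingMap.apply ℝ HS.E4 ℝ ![bas j, bas i]).contDiff.comp_contDiffOn hω
  have hAp : ∀ q (m n : ℤ) (p : P2), A q (p.1 + m, p.2 + n) = A q p := by
    intro q m n p
    have h1 : (fun x => g (x + ((m : ℝ), (n : ℝ)))) = g := funext fun x => congrArg c (hp m n x)
    have h2 : fderiv ℝ g (p.1 + m, p.2 + n) = fderiv ℝ g p := by
      conv_rhs => rw [← h1, fderiv_comp_add_right]
      rfl
    funext i
    simp only [A, h2, g, hp]
  have hD : ∀ p ∈ U, ∀ q, Dc c (g p) (fderiv ℝ g p q) = D2 φ p q := by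
    intro p hp q
    have m3 := mfderiv_comp (I := 𝓘(ℝ, P2)) p
      (((chart_sm z).contMDiffAt (c.open_source.mem_nhds hp)).mdifferentiableAt (by simp))
      (h.mdifferentiableAt (by simp))
    rw [mfderiv_eq_fderiv] at m3
    have m4 : fderiv ℝ g p q = mfderiv (𝓡 4) (𝓡 4) c (φ p) (D2 φ p q) :=
      congrArg (fun A : P2 →L[ℝ] HS.E4 => A q) m3
    rw [m4]
    exact mfderiv_symm_apply c (chart_sm z) (chart_symm_sm z) hp _
  have hL : ∀ p ∈ U, ∀ v q, ev η (φ p) ![Dc c (g p) v, D2 φ p q] =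
      loc c η (g p) ![v, fderiv ℝ g p q] := by
    intro p hp v q
    have h1 : loc c η (g p) ![v, fderiv ℝ g p q] =
        ev η (c.symm (g p)) ![Dc c (g p) v, Dc c (g p) (fderiv ℝ g p q)] := by
      change ev η (c.symm (g p)) (Dc c (g p) ∘ ![v, fderiv ℝ g p q]) = _
      congr 1
      funext i
      fin_cases i <;> rfl
    rw [h1, hD p hp, show c.symm (g p) = φ p from c.left_inv hp]
  have hgd : ∀ p ∈ U, gd (A (1, 0) p) (A (0, 1) p) ≠ 0 := by
    intro p hp
    refine gd_ne _ _ fun x y hxy => ?_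
    have := nd p (x, y) fun v => by
      obtain ⟨u, rfl⟩ : ∃ u, Dc c (g p) u = v :=
        (mfderiv_bij c.symm (chart_symm_sm z) (chart_sm z) (c.map_source hp)).2 v
      rw [hL p hp, ← vec_self u, alt_vec]
      refine Finset.sum_eq_zero fun i _ => mul_eq_zero_of_right _ ?_
      rw [← hxy i, show ((x, y) : P2) = x • (1, 0) + y • (0, 1) by simp, map_add, map_smul,
        map_smul, alt2_add_right, alt2_smul_right, alt2_smul_right]
    exact ⟨congrArg Prod.fst this, congrArg Prod.snd this⟩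
  have hdv : ∀ q q', (∀ p ∈ U, gd (A q p) (A q' p) ≠ 0) →
      ContDiffOn ℝ ∞ (fun p => vec (dv (A q p) (A q' p))) U := by
    intro q q' hne
    have s : ∀ q q', ContDiffOn ℝ ∞ (fun p => ∑ i, A q p i * A q' p i) U := fun q q' =>
      ContDiffOn.sum fun i _ => (hA q i).mul (hA q' i)
    refine ContDiffOn.sum fun i _ => ?_
    exact ((((s q q).mul (hA q' i)).sub ((s q q').mul (hA q i))).div
      (((s q q).mul (s q' q')).sub ((s q q').pow 2)) hne).smul contDiffOn_const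
  refine ⟨![fun p => vec (dv (A (1, 0) p) (A (0, 1) p)), fun p => vec (dv (A (0, 1) p) (A (1, 0) p))],
    fun a => ?_, fun a m n p => ?_, fun p hp a => ?_⟩
  · fin_cases a
    · exact hdv _ _ hgd
    · exact hdv _ _ fun p hp => gd_comm _ _ ▸ hgd p hp
  · fin_cases a <;> simp [hAp]
  · rw [hL p hp, hL p hp]
    fin_cases a
    · exact ⟨(alt_vec _ _ _).trans (dv_A _ _), (alt_vec _ _ _).trans (dv_B _ _ (hgd p hp))⟩
    · exact ⟨(alt_vec _ _ _).trans (dv_B _ _ (gd_comm _ _ ▸ hgd p hp)),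
        (alt_vec _ _ _).trans (dv_A _ _)⟩

/-- the normalised germ -/
theorem germ [T2Space Z] {φ : P2 → Z} (h : ContMDiff 𝓘(ℝ, P2) (𝓡 4) ∞ φ)
    (hp : ∀ (m n : ℤ) (p : P2), φ (p.1 + m, p.2 + n) = φ p) {η : Form Z 2} (hη : Smooth η)
    (nd : ∀ p q, (∀ v, ev η (φ p) ![v, D2 φ p q] = 0) → q = 0) :
    ∃ N Φ, Inv φ N Φ ∧ ∀ p a, ev η (φ p) ![N a p, D2 φ p (1, 0)] = (if a = 0 then 0 else 1) ∧
      ev η (φ p) ![N a p, D2 φ p (0, 1)] = if a = 0 then 1 else 0 := by
  classical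
  let β : ∀ z : Z, SmoothBumpFunction (𝓡 4) z := fun z => Classical.arbitrary _
  have hK : IsCompact (φ '' (Icc (0 : ℝ) 1 ×ˢ Icc (0 : ℝ) 1)) :=
    (isCompact_Icc.prod isCompact_Icc).image h.continuous
  obtain ⟨t, -, ht⟩ := hK.elim_nhds_subcover (fun z => {y | β z y = 1})
    fun z _ => (β z).eventuallyEq_one
  let S : P2 → ℝ := fun p => ∑ z ∈ t, β z (φ p)
  have hS : ∀ p, 0 < S p := by
    intro p
    have h1 : φ p ∈ φ '' (Icc (0 : ℝ) 1 ×ˢ Icc (0 : ℝ) 1) := by
      refine ⟨(Int.fract p.1, Int.fract p.2), ⟨⟨Int.fract_nonneg _, (Int.fract_lt_one _).le⟩,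
        ⟨Int.fract_nonneg _, (Int.fract_lt_one _).le⟩⟩, ?_⟩
      rw [← hp ⌊p.1⌋ ⌊p.2⌋]
      simp
    obtain ⟨z, hz, h2⟩ := mem_iUnion₂.1 (ht h1)
    refine Finset.sum_pos' (fun z _ => (β z).nonneg) ⟨z, hz, ?_⟩
    rw [show β z (φ p) = 1 from h2]
    exact one_pos
  have hβ : ∀ z, ContDiff ℝ ∞ fun p => β z (φ p) := fun z =>
    contMDiff_iff_contDiff.1 ((β z).contMDiff.comp h)
  have hSs : ContDiff ℝ ∞ S := ContDiff.sum fun z _ => hβ z
  have key : ∀ s : Finset Z, ∃ N Φ, Inv φ N Φ ∧ ∀ p a,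
      ev η (φ p) ![N a p, D2 φ p (1, 0)] =
        (∑ z ∈ s, β z (φ p)) / S p * (if a = 0 then 0 else 1) ∧
      ev η (φ p) ![N a p, D2 φ p (0, 1)] =
        (∑ z ∈ s, β z (φ p)) / S p * if a = 0 then 1 else 0 := by
    intro s
    induction s using Finset.induction_on with
    | empty => exact ⟨_, _, inv_zero h hp, fun p a => by simp [bl_apply]⟩
    | insert z s hz ih =>
      obtain ⟨N, Φ, h1, h2⟩ := ih
      obtain ⟨V, v1, v2, v3⟩ := loc_frame h hp hη nd z
      obtain ⟨Φ', h3⟩ := h1.step h.continuous z (fun a p => (β z (φ p) / S p) • V a p)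
        (K := φ ⁻¹' tsupport (β z)) ((isClosed_tsupport _).preimage h.continuous)
        (preimage_mono (β z).tsupport_subset_chartAt_source)
        (fun a => ((hβ z).div hSs fun p => (hS p).ne').contDiffOn.smul (v1 a))
        (fun a p hp => by rw [image_eq_zero_of_notMem_tsupport hp, zero_div, zero_smul])
        (fun a m n p => by simp only [S, hp, v2])
      refine ⟨_, _, h3, fun p a => ?_⟩
      simp only [bl_apply, map_add, map_smul, LinearMap.add_apply, LinearMap.smul_apply,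
        Finset.sum_insert hz, smul_eq_mul]
      simp only [← bl_apply, (h2 p a).1, (h2 p a).2]
      by_cases hz' : φ p ∈ (chartAt HS.E4 z).source
      · rw [(v3 p hz' a).1, (v3 p hz' a).2]
        constructor <;> ring
      · rw [image_eq_zero_of_notMem_tsupport
          (fun h' => hz' ((β z).tsupport_subset_chartAt_source h'))]
        constructor <;> ring
  obtain ⟨N, Φ, h1, h2⟩ := key t
  refine ⟨N, Φ, h1, fun p a => ?_⟩
  have := h2 p a
  rwa [div_self (hS p).ne', one_mul, one_mul] at this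

theorem Inv.dlin {φ : P2 → Z} {N : Fin 2 → P2 → HS.E4} {Φ : R4 → Z} (h : Inv φ N Φ) (p q : P2) :
    D4 Φ (lin p) (lin q) = D2 φ p q := by
  have h1 : φ = Φ ∘ linL := funext fun p => by rw [comp_apply, linL_apply, h.zero]
  have h2 := mfderiv_comp p (g := Φ) (f := linL) (I' := 𝓘(ℝ, R4)) (I'' := 𝓡 4)
    (by rw [linL_apply]; exact (h.sm p).self_of_nhds.mdifferentiableAt (by simp))
    linL.mdifferentiableAt
  rw [linL.mfderiv_eq, ← h1] at h2
  have h3 : D2 φ p q = D4 Φ (linL p) (linL q) := congrArg (fun A : P2 →L[ℝ] HS.E4 => A q) h2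
  rw [h3, linL_apply, linL_apply]

/-- the parametrisation of the plane -/
def Lτ (τ : ℂ) : P2 →L[ℝ] ℂ :=
  (ContinuousLinearMap.fst ℝ ℝ ℝ).smulRight 1 + (ContinuousLinearMap.snd ℝ ℝ ℝ).smulRight τ

theorem Lτ_apply (τ : ℂ) (p : P2) : Lτ τ p = p.1 + p.2 * τ := by simp [Lτ]

theorem Lτ_inj {τ : ℂ} (h : 0 < τ.im) {p q : P2} (hpq : Lτ τ p = Lτ τ q) : p = q := by
  rw [Lτ_apply, Lτ_apply] at hpq
  have h1 := congrArg Complex.im hpq
  have h2 := congrArg Complex.re hpq
  simp at h1 h2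
  have h3 := h1.resolve_right h.ne'
  rw [h3] at h2
  exact Prod.ext (by linarith) h3

end Vale.Agent.P247Y.Tub

namespace Vale.Agent.P247Y

open Vale.Agent.P247.SCY
open Vale.Agent.P247.SCY.HS
open Vale.Agent.P247X
open Vale.Agent.P247.H74 (R4 e P2 lin)
open Tub

theorem tube : TUBE_statement := by
  intro Z _ _ _ _ P T O hO hT
  let φ : P2 → Z := fun p => T.u (Lτ T.τ p)
  have h : ContMDiff 𝓘(ℝ, P2) (𝓡 4) ∞ φ := T.smooth.comp (Lτ T.τ).contMDiff
  have hL : ∀ (m n : ℤ) (p : P2), Lτ T.τ (p.1 + m, p.2 + n) = Lτ T.τ p + m + n * T.τ := by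
    intro m n p
    simp only [Lτ_apply]
    push_cast
    ring
  have hp : ∀ (m n : ℤ) (p : P2), φ (p.1 + m, p.2 + n) = φ p := fun m n p => by
    simp only [φ, hL, T.per]
  let J : P2 → HS.E4 →L[ℝ] HS.E4 := fun p => P.J (φ p)
  let a : P2 → HS.E4 := fun p => dm T.u (Lτ T.τ p) 1
  have hJ : ∀ p u, J p (J p u) = -u := fun p u => P.ac.sq _ u
  have hD : ∀ p q, D2 φ p q = (Lτ T.τ q).re • a p + (Lτ T.τ q).im • J p (a p) := by
    intro p q
    have h1 := mfderiv_comp p (T.smooth.mdifferentiableAt (by simp) (x := Lτ T.τ p))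
      ((Lτ T.τ).mdifferentiableAt (x := p))
    rw [(Lτ T.τ).mfderiv_eq] at h1
    let B : ℂ →L[ℝ] HS.E4 := mfderiv 𝓘(ℝ, ℂ) (𝓡 4) T.u (Lτ T.τ p)
    have h2 : D2 φ p q = B (Lτ T.τ q) := congrArg (fun A : P2 →L[ℝ] HS.E4 => A q) h1
    have h3 : B Complex.I = J p (a p) := T.hol _
    have h4 : Lτ T.τ q = (Lτ T.τ q).re • (1 : ℂ) + (Lτ T.τ q).im • Complex.I := by simp
    rw [h2, ← h3]
    conv_lhs => rw [h4, map_add, map_smul, map_smul]
    rfl
  have hanti : ∀ p u v, ev (P.η 0) (φ p) ![J p u, J p v] = - ev (P.η 0) (φ p) ![u, v] :=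
    fun p u v => P.anti 0 _ u v
  have hinj : ∀ p q, D2 φ p q = 0 → q = 0 := by
    intro p q hq
    have h1 := cx_ind (J p) (hJ p) (a p) (Lτ T.τ q).re (Lτ T.τ q).im
    rw [← hD, hq, map_zero, smul_zero, smul_zero, sub_zero, smul_eq_zero] at h1
    have h2 := h1.resolve_right (T.imm _)
    refine Lτ_inj T.τ_pos ?_
    rw [map_zero]
    exact Complex.ext (by simp only [Complex.zero_re]; nlinarith)
      (by simp only [Complex.zero_im]; nlinarith)
  have nd : ∀ p q, (∀ v, ev (P.η 0) (φ p) ![v, D2 φ p q] = 0) → q = 0 := fun p q hq =>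
    hinj p q (anti_nd _ (J p) (hJ p) (hanti p) (fun H => one_ne_zero (P.ind (φ p) 1 0
      fun u v => by rw [one_mul, zero_mul, add_zero]; exact H u v).1) _ hq)
  have hlag : ∀ p q q', ev (P.η 0) (φ p) ![D2 φ p q, D2 φ p q'] = 0 := by
    intro p q q'
    have h1 : bl (ev (P.η 0) (φ p)) (a p) (J p (a p)) = 0 := anti_zero _ _ (hJ p) (hanti p) _
    have h2 : bl (ev (P.η 0) (φ p)) (J p (a p)) (a p) = 0 := by
      rw [← bl_apply, alt2_swap, bl_apply, h1, neg_zero]
    have h3 : ∀ u, bl (ev (P.η 0) (φ p)) u u = 0 := fun u => alt2_self _ u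
    simp only [hD, bl_apply, map_add, map_smul, LinearMap.add_apply, LinearMap.smul_apply, h1, h2,
      h3, smul_zero, add_zero]
  obtain ⟨N, Φ, H, hN⟩ := germ h hp (P.sc 0).1 nd
  have e2 : e 2 = lin (1, 0) := by apply r4_ext <;> simp [e, lin]
  have e3 : e 3 = lin (0, 1) := by apply r4_ext <;> simp [e, lin]
  have hb : ∀ p, Bijective (D4 Φ (lin p)) := by
    intro p
    have hi : Injective (D4 Φ (lin p)) := by
      rw [injective_iff_map_eq_zero]
      intro x hx
      have h1 : x = x 0 • e 0 + x 1 • e 1 + lin (x 2, x 3) := by apply r4_ext <;> simp [e, lin]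
      rw [h1, map_add, map_add, map_smul, map_smul, H.d0, H.d1, H.dlin] at hx
      have h2 := congrArg (fun u => bl (ev (P.η 0) (φ p)) u (D2 φ p (0, 1))) hx
      have h3 := congrArg (fun u => bl (ev (P.η 0) (φ p)) u (D2 φ p (1, 0))) hx
      simp only [map_add, map_smul, LinearMap.add_apply, LinearMap.smul_apply, map_zero,
        LinearMap.zero_apply] at h2 h3
      simp only [← bl_apply, hN, hlag] at h2 h3
      simp at h2 h3
      rw [h2, h3, zero_smul, zero_smul, zero_add, zero_add] at hx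
      have h4 := hinj _ _ hx
      exact r4_ext h2 h3 (congrArg Prod.fst h4) (congrArg Prod.snd h4)
    exact ⟨hi, (LinearMap.injective_iff_surjective_of_finrank_eq_finrank
      (f := (D4 Φ (lin p) : R4 →ₗ[ℝ] HS.E4)) (by simp)).1 hi⟩
  obtain ⟨r, hr, h1, h2, h3, h4⟩ := H.tube (fun p q hpq => by
    obtain ⟨m, n, hmn⟩ := T.inj _ _ hpq
    exact ⟨m, n, Lτ_inj T.τ_pos (by rw [hL, hmn])⟩) hb hO fun p => hT (mem_range_self _)
  refine ⟨r, hr, Φ, h1, h2, H.per, h3, h4, fun p => by rw [H.zero, ← Lτ_apply], fun p => ?_⟩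
  have key : ∀ i j, P.η 0 (Φ (lin p)) ![dm4 Φ (lin p) (e i), dm4 Φ (lin p) (e j)] =
      ev (P.η 0) (φ p) ![D4 Φ (lin p) (e i), D4 Φ (lin p) (e j)] := fun i j => by
    rw [← H.zero]; rfl
  simp only [key]
  rw [H.d0, H.d1, e2, e3, H.dlin, H.dlin]
  exact ⟨(hN p 0).1, (hN p 0).2, (hN p 1).1, (hN p 1).2⟩

end Vale.Agent.P247Y
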