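import Vale.Agent.P247Y.Sta
import Mathlib.Topology.Covering.Quotient
import Mathlib.Topology.Homotopy.Lifting
import Mathlib.Analysis.Convex.Contractible

/-!
# P247, block Y: principal coverings, lifts, the total space of a cocycle
-/

set_option linter.all false

open scoped Topology
open Set Filter Metric

noncomputable section

namespace Vale.Agent.P247Y

namespace GCov

variable {X : Type} [TopologicalSpace X] {W : Set X} {G : Type} [AddCommGroup G] (Z : GCov W G)

theorem act_neg_l (g : G) (z : Z.Z) : Z.act (-g) (Z.act g z) = z := by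
  rw [← Z.act_add, neg_add_cancel, Z.act_zero]

theorem neg_act (g : G) (z : Z.Z) : Z.act g (Z.act (-g) z) = z := by
  rw [← Z.act_add, add_neg_cancel, Z.act_zero]

theorem act_cancel {g h : G} {z : Z.Z} (e : Z.act g z = Z.act h z) : g = h := by
  have := Z.free (-h + g) z (by rw [Z.act_add, e, Z.act_neg_l])
  exact (neg_add_eq_zero.1 this).symm

theorem act_injective (g : G) : Function.Injective (Z.act g) := fun z z' e => by
  rw [← Z.act_neg_l g z, e, Z.act_neg_l]

/-- the deck transformations as homeomorphisms -/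
def homeo (g : G) : Z.Z ≃ₜ Z.Z where
  toFun := Z.act g
  invFun := Z.act (-g)
  left_inv := Z.act_neg_l g
  right_inv := Z.neg_act g
  continuous_toFun := Z.act_cont g
  continuous_invFun := Z.act_cont (-g)

theorem isOpen_act (g : G) {U : Set Z.Z} (h : IsOpen U) : IsOpen (Z.act g '' U) :=
  (Z.homeo g).isOpenMap U h

theorem exists_mem {x : X} (hx : x ∈ W) : ∃ z, Z.π z = x := by
  obtain ⟨V, -, hV, -, σ, -, h, -⟩ := Z.loc x hx
  exact ⟨σ x, h x hV⟩

/-- local sections through every point -/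
theorem sec (z : Z.Z) : ∃ (V : Set X) (σ : X → Z.Z), IsOpen V ∧ Z.π z ∈ V ∧ V ⊆ W ∧
    ContinuousOn σ V ∧ (∀ y ∈ V, Z.π (σ y) = y) ∧ IsOpen (σ '' V) ∧ σ (Z.π z) = z := by
  obtain ⟨V, ho, hV, hW, σ, hc, h, hop⟩ := Z.loc _ (Z.mem z)
  obtain ⟨g, hg⟩ := Z.trans (σ (Z.π z)) z (h _ hV)
  refine ⟨V, fun y => Z.act g (σ y), ho, hV, hW, (Z.act_cont g).comp_continuousOn hc,
    fun y hy => by rw [Z.π_act, h y hy], ?_, hg.symm⟩
  rw [← image_image (Z.act g) σ]
  exact Z.isOpen_act g hop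

theorem isOpenMap : IsOpenMap Z.π := by
  intro U hU
  rw [isOpen_iff_mem_nhds]
  rintro _ ⟨z, hz, rfl⟩
  obtain ⟨V, σ, ho, hV, -, hc, h, -, e⟩ := Z.sec z
  have h1 : ContinuousAt σ (Z.π z) := hc.continuousAt (ho.mem_nhds hV)
  have h2 : σ ⁻¹' U ∈ 𝓝 (Z.π z) := h1 (by rw [e]; exact hU.mem_nhds hz)
  filter_upwards [h2, ho.mem_nhds hV] with y hy hy'
  exact ⟨σ y, hy, h y hy'⟩

theorem injOn_near (z : Z.Z) : ∃ U ∈ 𝓝 z, InjOn Z.π U := by
  obtain ⟨V, σ, -, hV, -, -, h, hop, e⟩ := Z.sec z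
  refine ⟨σ '' V, hop.mem_nhds ⟨_, hV, e⟩, ?_⟩
  rintro _ ⟨y, hy, rfl⟩ _ ⟨y', hy', rfl⟩ e'
  rw [h y hy, h y' hy'] at e'
  rw [e']

/-- two lifts with the same limit agree eventually -/
theorem near {B : Type} {l : Filter B} {f g : B → Z.Z} {z : Z.Z} (hf : Tendsto f l (𝓝 z))
    (hg : Tendsto g l (𝓝 z)) (h : ∀ᶠ y in l, Z.π (f y) = Z.π (g y)) : ∀ᶠ y in l, f y = g y := by
  obtain ⟨U, hU, hi⟩ := Z.injOn_near z
  filter_upwards [hf hU, hg hU, h] with y h1 h2 h3
  exact hi h1 h2 h3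

/-- uniqueness of lifts up to a deck transformation -/
theorem uniq {B : Type} [TopologicalSpace B] {s : Set B} (hs : IsPreconnected s) {f g : B → Z.Z}
    (hf : ContinuousOn f s) (hg : ContinuousOn g s) (h : ∀ x ∈ s, Z.π (f x) = Z.π (g x)) :
    ∃ a, ∀ x ∈ s, g x = Z.act a (f x) := by
  classical
  rcases s.eq_empty_or_nonempty with rfl | ⟨x₀, hx₀⟩
  · exact ⟨0, fun x hx => hx.elim⟩
  have h1 : ∀ x, ∃ a, x ∈ s → g x = Z.act a (f x) := fun x => by
    by_cases hx : x ∈ s
    · obtain ⟨a, ha⟩ := Z.trans _ _ (h x hx)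
      exact ⟨a, fun _ => ha⟩
    · exact ⟨0, fun h' => (hx h').elim⟩
  choose a ha using h1
  letI : TopologicalSpace G := ⊥
  haveI : DiscreteTopology G := ⟨rfl⟩
  have hc : ContinuousOn a s := by
    intro x hx
    rw [ContinuousWithinAt, nhds_discrete, tendsto_pure]
    have h2 : Tendsto (fun y => Z.act (a x) (f y)) (𝓝[s] x) (𝓝 (g x)) := by
      rw [ha x hx]
      exact ((Z.act_cont _).tendsto _).comp (hf x hx)
    have h3 := Z.near h2 (hg x hx) (by
      filter_upwards [self_mem_nhdsWithin] with y hy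
      rw [Z.π_act, h y hy])
    filter_upwards [h3, self_mem_nhdsWithin] with y hy hy'
    exact Z.act_cancel ((ha y hy').symm.trans hy.symm)
  exact ⟨a x₀, fun x hx => by rw [ha x hx, hs.constant hc hx hx₀]⟩

/-- two lifts on a preconnected set which agree at one point agree -/
theorem uniq_eq {B : Type} [TopologicalSpace B] {s : Set B} (hs : IsPreconnected s)
    {f g : B → Z.Z} (hf : ContinuousOn f s) (hg : ContinuousOn g s)
    (h : ∀ x ∈ s, Z.π (f x) = Z.π (g x)) {x₀ : B} (hx₀ : x₀ ∈ s) (e : f x₀ = g x₀) :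
    ∀ x ∈ s, f x = g x := by
  obtain ⟨a, ha⟩ := Z.uniq hs hf hg h
  have : a = 0 := Z.free a (f x₀) (by rw [← ha x₀ hx₀, e])
  intro x hx
  rw [ha x hx, this, Z.act_zero]

theorem isCoveringMap : IsCoveringMap (fun z => (⟨Z.π z, Z.mem z⟩ : W)) := by
  letI : AddAction G Z.Z :=
    { vadd := Z.act
      zero_vadd := Z.act_zero
      add_vadd := Z.act_add }
  have hq : IsAddQuotientCoveringMap (fun z => (⟨Z.π z, Z.mem z⟩ : W)) G :=
    { toIsQuotientMap := by
        refine IsOpenMap.isQuotientMap (Z.isOpenMap.codRestrict Z.mem)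
          (Z.π_cont.subtype_mk _) ?_
        rintro ⟨x, hx⟩
        obtain ⟨z, rfl⟩ := Z.exists_mem hx
        exact ⟨z, rfl⟩
      continuous_const_vadd := Z.act_cont
      apply_eq_iff_mem_orbit := by
        intro z z'
        constructor
        · intro e
          obtain ⟨g, hg⟩ := Z.trans z' z (congrArg Subtype.val e).symm
          exact ⟨g, hg.symm⟩
        · rintro ⟨g, rfl⟩
          exact Subtype.ext (Z.π_act g z')
      disjoint := by
        intro z
        obtain ⟨U, hU, hi⟩ := Z.injOn_near z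
        refine ⟨U, hU, ?_⟩
        rintro g ⟨_, ⟨y, hy, rfl⟩, hy'⟩
        exact Z.free g y (hi hy' hy (Z.π_act g y)) }
  exact hq.isCoveringMap

/-- lifts on simply connected spaces -/
theorem lift {A : Type} [TopologicalSpace A] [SimplyConnectedSpace A]
    [LocallyPathConnectedSpace A] {f : A → X} (hf : Continuous f) (hW : ∀ a, f a ∈ W) :
    ∃ F : A → Z.Z, Continuous F ∧ ∀ a, Z.π (F a) = f a := by
  obtain ⟨a₀⟩ : Nonempty A := inferInstance
  obtain ⟨z, hz⟩ := Z.exists_mem (hW a₀)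
  obtain ⟨F, ⟨-, hF⟩, -⟩ := Z.isCoveringMap.existsUnique_continuousMap_lifts
    (⟨fun a => ⟨f a, hW a⟩, hf.subtype_mk _⟩ : C(A, W)) a₀ z (Subtype.ext hz)
  exact ⟨F, F.continuous, fun a => congrArg Subtype.val (congrFun hF a)⟩

/-- lifts on open convex sets -/
theorem lift_convex {E : Type} [NormedAddCommGroup E] [NormedSpace ℝ E] {D : Set E}
    (ho : IsOpen D) (hD : Convex ℝ D) (hne : D.Nonempty) {f : E → X} (hf : ContinuousOn f D)
    (hW : ∀ a ∈ D, f a ∈ W) : ∃ F : E → Z.Z, ContinuousOn F D ∧ ∀ a ∈ D, Z.π (F a) = f a := by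
  classical
  haveI := hD.contractibleSpace hne
  haveI := ho.locallyPathConnectedSpace
  obtain ⟨F, hc, hF⟩ := Z.lift (A := D) (continuousOn_iff_continuous_domRestrict.1 hf)
    fun a => hW a a.2
  obtain ⟨a₀, h₀⟩ := hne
  refine ⟨fun a => if h : a ∈ D then F ⟨a, h⟩ else F ⟨a₀, h₀⟩, ?_, fun a ha => ?_⟩
  · rw [continuousOn_iff_continuous_domRestrict]
    refine hc.congr fun a => ?_
    simp only [domRestrict_apply, dif_pos a.2]
  · simp only [dif_pos ha]
    exact hF _

end GCov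

namespace Coc

variable {X : Type} [TopologicalSpace X] {W : Set X} {G : Type} [AddCommGroup G] (c : Coc W G)

/-- the total space of a cocycle -/
@[ext] structure Tot (c : Coc W G) where
  x : X
  hx : x ∈ W
  a : G

/-- a chart index for every point -/
def idx {x : X} (hx : x ∈ W) : c.ι := (c.cov x hx).choose

theorem idx_mem {x : X} (hx : x ∈ W) : x ∈ c.V (c.idx hx) := (c.cov x hx).choose_spec

variable {c}

/-- the fibre coordinate in the chart `i` -/
def Tot.co (i : c.ι) (z : c.Tot) : G := c.c i (c.idx z.hx) z.x + z.a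

theorem Tot.co_co {i j : c.ι} {z : c.Tot} (hi : z.x ∈ c.V i) (hj : z.x ∈ c.V j) :
    z.co i = c.c i j z.x + z.co j := by
  rw [Tot.co, Tot.co, ← add_assoc, c.co i j _ z.x ⟨⟨hi, hj⟩, c.idx_mem z.hx⟩]

theorem Tot.ext' {i : c.ι} {z z' : c.Tot} (h : z.x = z'.x) (h' : z.co i = z'.co i) : z = z' := by
  obtain ⟨x, hx, a⟩ := z
  obtain ⟨x', hx', a'⟩ := z'
  obtain rfl : x = x' := h
  exact Tot.ext rfl (add_left_cancel h')

/-- the point with given coordinates -/
def pt (c : Coc W G) (i : c.ι) {x : X} (hx : x ∈ W) (g : G) : c.Tot :=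
  ⟨x, hx, g - c.c i (c.idx hx) x⟩

theorem co_pt (i : c.ι) {x : X} (hx : x ∈ W) (g : G) : (c.pt i hx g).co i = g := by
  simp [Tot.co, pt]

instance : TopologicalSpace c.Tot where
  IsOpen U := ∀ z ∈ U, ∀ i, z.x ∈ c.V i → ∀ᶠ y in 𝓝 z.x, ∀ z' : c.Tot, z'.x = y →
    z'.co i = z.co i → z' ∈ U
  isOpen_univ _ _ _ _ := Eventually.of_forall fun _ _ _ _ => trivial
  isOpen_inter U U' h h' z hz i hi := by
    filter_upwards [h z hz.1 i hi, h' z hz.2 i hi] with y h1 h2 z' e e'
    exact ⟨h1 z' e e', h2 z' e e'⟩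
  isOpen_sUnion S h z hz i hi := by
    obtain ⟨U, hU, hz⟩ := hz
    filter_upwards [h U hU z hz i hi] with y h1 z' e e'
    exact ⟨U, hU, h1 z' e e'⟩

theorem isOpen_box (i : c.ι) (g : G) : IsOpen {z : c.Tot | z.x ∈ c.V i ∧ z.co i = g} := by
  rintro z ⟨hz, e⟩ j hj
  filter_upwards [c.lc i j z.x ⟨hz, hj⟩, (c.opn i).mem_nhds hz, (c.opn j).mem_nhds hj]
    with y h1 h2 h3 z' e1 e2
  subst e1
  exact ⟨h2, by rw [Tot.co_co h2 h3, h1, e2, ← Tot.co_co hz hj, e]⟩

theorem cont_x : Continuous (Tot.x : c.Tot → X) := by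
  refine ⟨fun O hO z hz i _ => ?_⟩
  filter_upwards [hO.mem_nhds hz] with y hy z' e _
  rw [mem_preimage, e]
  exact hy

theorem tendsto_tot {B : Type} {l : Filter B} {f : B → c.Tot} {z : c.Tot} {i : c.ι}
    (hi : z.x ∈ c.V i) (h : Tendsto (fun y => (f y).x) l (𝓝 z.x))
    (h' : ∀ᶠ y in l, (f y).co i = z.co i) : Tendsto f l (𝓝 z) := by
  rw [_root_.tendsto_nhds]
  intro U hU hz
  filter_upwards [h.eventually (hU z hz i hi), h'] with y h1 h2
  exact h1 _ rfl h2

theorem co_near {z : c.Tot} {i : c.ι} (hi : z.x ∈ c.V i) : ∀ᶠ z' in 𝓝 z, z'.co i = z.co i := by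
  filter_upwards [(isOpen_box i (z.co i)).mem_nhds ⟨hi, rfl⟩] with z' h
  exact h.2

/-- the action -/
def Tot.act (g : G) (z : c.Tot) : c.Tot := ⟨z.x, z.hx, z.a + g⟩

theorem co_act (i : c.ι) (g : G) (z : c.Tot) : (z.act g).co i = z.co i + g := by
  simp [Tot.co, Tot.act, add_assoc]

/-- the covering of a cocycle -/
def gcov [T2Space X] (c : Coc W G) : GCov W G where
  Z := c.Tot
  top := inferInstance
  t2 := ⟨fun z z' h => by
    by_cases hx : z.x = z'.x
    · have hi := c.idx_mem z.hx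
      refine ⟨_, _, isOpen_box (c.idx z.hx) (z.co (c.idx z.hx)),
        isOpen_box (c.idx z.hx) (z'.co (c.idx z.hx)), ⟨hi, rfl⟩, ⟨hx ▸ hi, rfl⟩, ?_⟩
      rw [Set.disjoint_left]
      rintro y ⟨-, e⟩ ⟨-, e'⟩
      exact h (Tot.ext' hx (e.symm.trans e'))
    · exact separated_by_continuous cont_x hx⟩
  π := Tot.x
  act := Tot.act
  π_cont := cont_x
  act_cont g := continuous_iff_continuousAt.2 fun z =>
    tendsto_tot (i := c.idx z.hx) (c.idx_mem z.hx) (cont_x.tendsto z) (by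
      filter_upwards [co_near (c.idx_mem z.hx)] with y hy
      rw [co_act, co_act, hy])
  act_zero z := Tot.ext rfl (add_zero _)
  act_add g h z := Tot.ext rfl (by simp only [Tot.act]; abel)
  π_act _ _ := rfl
  free g z h := by simpa [Tot.act] using congrArg Tot.a h
  trans z z' h := ⟨z'.a - z.a, Tot.ext h.symm (by simp [Tot.act])⟩
  mem z := z.hx
  loc x hx := by
    classical
    obtain ⟨i, hi⟩ := c.cov x hx
    refine ⟨c.V i, c.opn i, hi, c.sub i,
      fun y => if h : y ∈ c.V i then c.pt i (c.sub i h) 0 else c.pt i hx 0, ?_, ?_, ?_⟩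
    · intro y hy
      refine tendsto_tot (i := i) (by simp only [dif_pos hy]; exact hy) ?_ ?_
      · simp only [dif_pos hy]
        refine (tendsto_id.mono_left nhdsWithin_le_nhds).congr' ?_
        filter_upwards [self_mem_nhdsWithin] with y' hy'
        simp only [dif_pos hy']
        rfl
      · filter_upwards [self_mem_nhdsWithin] with y' hy'
        simp only [dif_pos hy, dif_pos hy', co_pt]
    · intro y hy
      simp only [dif_pos hy]
      rfl
    · convert isOpen_box i (0 : G) using 1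
      ext z
      constructor
      · rintro ⟨y, hy, rfl⟩
        simp only [dif_pos hy]
        exact ⟨hy, co_pt _ _ _⟩
      · rintro ⟨h, e⟩
        refine ⟨z.x, h, ?_⟩
        simp only [dif_pos h]
        exact Tot.ext' (i := i) rfl (by rw [co_pt, e])

end Coc

end Vale.Agent.P247Y
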