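import Vale.Agent.P247Y.Cv
import Vale.Agent.P247Y.LocInv
import Vale.Agent.P247Y.Cov

/-!
# P247, block Y: basic facts on tori, coverings and the manifold `Y`
-/

set_option linter.all false

open scoped Manifold ContDiff Topology
open Set MeasureTheory Filter Metric Function

noncomputable section

namespace Vale.Agent.P247Y

open Vale.Agent.P247.SCY
open Vale.Agent.P247.SCY.HS
open Vale.Agent.P247X
open Vale.Agent.P247.H74 (R4 P2)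

/-! ## Complex coordinates -/

/-- the complex coordinate -/
def cz (τ : ℂ) (p : P2) : ℂ := p.1 + p.2 * τ

theorem cz_surj {τ : ℂ} (h : 0 < τ.im) (z : ℂ) : ∃ p, cz τ p = z := by
  refine ⟨(z.re - z.im / τ.im * τ.re, z.im / τ.im), Complex.ext ?_ ?_⟩
  · simp only [cz, Complex.add_re, Complex.ofReal_re, Complex.re_ofReal_mul]
    ring
  · simp only [cz, Complex.add_im, Complex.ofReal_im, Complex.im_ofReal_mul]
    field_simp
    ring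

theorem cz_inj {τ : ℂ} (h : 0 < τ.im) : Injective (cz τ) := by
  intro p q e
  have h1 := congrArg Complex.im e
  have h2 := congrArg Complex.re e
  simp only [cz, Complex.add_im, Complex.ofReal_im, Complex.im_ofReal_mul, zero_add,
    Complex.add_re, Complex.ofReal_re, Complex.re_ofReal_mul] at h1 h2
  have h3 : p.2 = q.2 := mul_right_cancel₀ h.ne' h1
  rw [h3] at h2
  exact Prod.ext (by linarith) h3

theorem cz_add (τ : ℂ) (p : P2) (m n : ℤ) : cz τ (p.1 + m, p.2 + n) = cz τ p + m + n * τ := by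
  simp only [cz]
  push_cast
  ring

theorem cz_sub (τ : ℂ) (p : P2) (m n : ℤ) :
    cz τ ((m : ℝ) - p.1, (n : ℝ) - p.2) = -cz τ p + m + n * τ := by
  simp only [cz]
  push_cast
  ring

theorem cz_sm (τ : ℂ) : ContDiff ℝ ∞ (cz τ) :=
  (Complex.ofRealCLM.contDiff.comp contDiff_fst).add
    ((Complex.ofRealCLM.contDiff.comp contDiff_snd).mul contDiff_const)

theorem cz_cont (τ : ℂ) : Continuous (cz τ) := (cz_sm τ).continuous

theorem cplx_lin {V : Type*} [NormedAddCommGroup V] [NormedSpace ℝ V] (A : ℂ →L[ℝ] V) (a : ℂ) :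
    A a = a.re • A 1 + a.im • A Complex.I := by
  rw [← map_smul, ← map_smul, ← map_add]
  congr 1
  simp

/-- `v` and `J v` are independent -/
theorem indep_J {V : Type*} [NormedAddCommGroup V] [NormedSpace ℝ V] {J : V →L[ℝ] V}
    (hJ : ∀ u, J (J u) = -u) {v : V} (hv : v ≠ 0) {a b : ℝ} (h : a • v + b • J v = 0) :
    a = 0 ∧ b = 0 := by
  have h1 := congrArg J h
  rw [map_add, map_smul, map_smul, hJ, map_zero] at h1
  have h2 : (a ^ 2 + b ^ 2) • v = 0 := by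
    have : (a ^ 2 + b ^ 2) • v = a • (a • v + b • J v) - b • (a • J v + b • -v) := by module
    rw [this, h, h1]
    simp
  have h3 := (smul_eq_zero.1 h2).resolve_right hv
  constructor <;> nlinarith [sq_nonneg a, sq_nonneg b]

theorem hol_inj {V : Type*} [NormedAddCommGroup V] [NormedSpace ℝ V] {A : ℂ →L[ℝ] V}
    {J : V →L[ℝ] V} (hJ : ∀ u, J (J u) = -u) (h1 : A 1 ≠ 0) (hI : A Complex.I = J (A 1)) :
    Injective A := by
  refine (injective_iff_map_eq_zero A).2 fun a ha => ?_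
  rw [cplx_lin, hI] at ha
  obtain ⟨k1, k2⟩ := indep_J hJ h1 ha
  exact Complex.ext k1 k2

theorem hol_mul {V : Type*} [NormedAddCommGroup V] [NormedSpace ℝ V] {A : ℂ →L[ℝ] V}
    {J : V →L[ℝ] V} (hJ : ∀ u, J (J u) = -u) (hI : A Complex.I = J (A 1)) (a : ℂ) :
    A (Complex.I * a) = J (A a) := by
  rw [cplx_lin A (Complex.I * a), cplx_lin A a, hI, map_add, map_smul, map_smul, hJ]
  simp [add_comm]

/-! ## Tori -/

section tor

variable {Z : Type} [TopologicalSpace Z] [ChartedSpace HS.E4 Z] {J : EndF Z}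

theorem Tor.range_cz (T : Tor J) : (range fun p : P2 => T.u (cz T.τ p)) = T.set := by
  ext x
  refine ⟨fun ⟨p, h⟩ => ⟨_, h⟩, fun ⟨z, h⟩ => ?_⟩
  obtain ⟨p, rfl⟩ := cz_surj T.τ_pos z
  exact ⟨p, h⟩

theorem range_per {A : Type*} (g : P2 → A) (N : ℕ) (hN : 0 < N)
    (h : ∀ (p : P2) (m n : ℤ), g (p.1 + (N * m : ℤ), p.2 + (N * n : ℤ)) = g p) :
    range g = g '' (Icc (0 : ℝ) N ×ˢ Icc (0 : ℝ) N) := by
  refine subset_antisymm ?_ (image_subset_range _ _)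
  rintro _ ⟨p, rfl⟩
  have hN' : (0 : ℝ) < N := by exact_mod_cast hN
  have key : ∀ t : ℝ, t + (N * (-⌊t / N⌋) : ℤ) ∈ Icc (0 : ℝ) N := by
    intro t
    have k1 := Int.floor_le (t / N)
    have k2 := Int.lt_floor_add_one (t / N)
    rw [le_div_iff₀ hN'] at k1
    rw [div_lt_iff₀ hN'] at k2
    push_cast
    constructor <;> nlinarith
  exact ⟨(_, _), ⟨key p.1, key p.2⟩, h p _ _⟩

theorem cpt_per {A : Type*} [TopologicalSpace A] {g : P2 → A} (hg : Continuous g) (N : ℕ)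
    (hN : 0 < N) (h : ∀ (p : P2) (m n : ℤ), g (p.1 + (N * m : ℤ), p.2 + (N * n : ℤ)) = g p) :
    IsCompact (range g) := by
  rw [range_per g N hN h]
  exact (isCompact_Icc.prod isCompact_Icc).image hg

theorem Tor.cpt (T : Tor J) : IsCompact T.set := by
  rw [← Tor.range_cz T]
  refine cpt_per (T.smooth.continuous.comp (cz_cont _)) 1 one_pos fun p m n => ?_
  rw [cz_add, T.per]

theorem Tor.conn (T : Tor J) : IsPreconnected T.set := isPreconnected_range T.smooth.continuous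

theorem Tor.ne (T : Tor J) : T.set.Nonempty := range_nonempty _

theorem Tor.dm_inj (T : Tor J) (hJ : ∀ x u, J x (J x u) = -u) (z : ℂ) :
    Injective (mfderiv 𝓘(ℝ, ℂ) (𝓡 4) T.u z) :=
  hol_inj (V := HS.E4) (A := mfderiv 𝓘(ℝ, ℂ) (𝓡 4) T.u z) (J := J (T.u z)) (hJ _) (T.imm z)
    (T.hol z)

theorem Tor.mdiff (T : Tor J) (z : ℂ) : MDifferentiableAt 𝓘(ℝ, ℂ) (𝓡 4) T.u z :=
  (T.smooth z).mdifferentiableAt (by simp)

theorem dom_open (ε : ℝ) : IsOpen (Dom ε) := isOpen_ball.prod isOpen_univ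

theorem dom_convex (ε : ℝ) : Convex ℝ (Dom ε) := (convex_ball _ _).prod convex_univ

theorem mem_dom {ε : ℝ} {q : P2 × P2} : q ∈ Dom ε ↔ q.1 ∈ ball (0 : P2) ε :=
  ⟨fun h => h.1, fun h => ⟨h, mem_univ _⟩⟩

theorem Fol.zero_mem (F : Fol J) (p : P2) : ((0 : P2), p) ∈ Dom F.ε :=
  mem_dom.2 (mem_ball_self F.ε_pos)

theorem Fol.leaf_sub (F : Fol J) {y : P2} (hy : y ∈ ball (0 : P2) F.ε) : F.leaf y ⊆ F.img := by
  rintro _ ⟨p, rfl⟩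
  exact ⟨(y, p), mem_dom.2 hy, rfl⟩

theorem Fol.mem_img (F : Fol J) {x : Z} :
    x ∈ F.img ↔ ∃ y ∈ ball (0 : P2) F.ε, x ∈ F.leaf y :=
  ⟨fun ⟨q, hq, e⟩ => ⟨q.1, hq.1, q.2, e⟩, fun ⟨_, hy, h⟩ => F.leaf_sub hy h⟩

theorem Fol.leaf_disj (F : Fol J) {y y' : P2} (hy : y ∈ ball (0 : P2) F.ε)
    (hy' : y' ∈ ball (0 : P2) F.ε) {x : Z} (h : x ∈ F.leaf y) (h' : x ∈ F.leaf y') : y = y' := by
  obtain ⟨p, rfl⟩ := h
  obtain ⟨p', e⟩ := h'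
  exact ((F.inj (y', p') (mem_dom.2 hy') (y, p) (mem_dom.2 hy) e).1).symm

theorem Fol.at (F : Fol J) {q : P2 × P2} (hq : q ∈ Dom F.ε) :
    ContMDiffAt 𝓘(ℝ, P2 × P2) (𝓡 4) ∞ F.Ψ q := F.smooth.contMDiffAt ((dom_open _).mem_nhds hq)

theorem leaf_eq {F : Fol J} {y : P2} {T : Tor J}
    (h : ∀ p : P2, T.u (p.1 + p.2 * T.τ) = F.Ψ (y, p)) : T.set = F.leaf y := by
  rw [← Tor.range_cz T]
  exact congrArg range (funext h)

end tor

/-! ## Coverings -/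

section cov

variable {X : Type} [TopologicalSpace X] {W : Set X} {G : Type} [AddCommGroup G] (Z : GCov W G)

theorem GCov.act_comm (a b : G) (z : Z.Z) : Z.act a (Z.act b z) = Z.act b (Z.act a z) := by
  rw [← Z.act_add, ← Z.act_add, add_comm]

theorem GCov.surj {x : X} (hx : x ∈ W) : ∃ z, Z.π z = x := by
  obtain ⟨V, -, h1, -, σ, -, h2, -⟩ := Z.loc x hx
  exact ⟨_, h2 x h1⟩

end cov

/-! ## The manifold `Y` -/

section dc

variable {X : Type} [TopologicalSpace X] [ChartedSpace HS.E4 X] {w : Tri X}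
  {St : Fin 4 → Fin 4 → Std w} (Y : DC St)

theorem DC.mem_Yo {y : Y.Y} : y ∈ Y.Yo ↔ ∀ i j, y ≠ Y.pt i j := by
  rw [DC.Yo, Y.range_emb]
  rfl

theorem DC.Yo_open : IsOpen Y.Yo := Y.emb_open.isOpen_range

theorem DC.pt_not (i j : Fin 4) : Y.pt i j ∉ Y.Yo := fun h => Y.mem_Yo.1 h i j rfl

theorem DC.cases (y : Y.Y) : y ∈ Y.Yo ∨ ∃ i j, y = Y.pt i j := by
  rw [Y.mem_Yo]
  by_contra! h
  obtain ⟨i, j, e⟩ := h.1
  exact h.2 i j e

theorem DC.ι_ι (y : Y.Y) : Y.ι (Y.ι y) = y := by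
  rcases Y.cases y with ⟨z, rfl⟩ | ⟨i, j, rfl⟩
  · rw [Y.ι_emb, Y.ι_emb, ← Y.cov.act_add, show (1 + 1 : ZMod 2) = 0 from rfl, Y.cov.act_zero]
  · rw [Y.ι_pt, Y.ι_pt]

theorem DC.ι_inj : Injective Y.ι := LeftInverse.injective Y.ι_ι

theorem DC.ι_cont : Continuous Y.ι := Y.ι_smooth.continuous

theorem DC.ι_mem {y : Y.Y} (h : y ∈ Y.Yo) : Y.ι y ∈ Y.Yo := by
  obtain ⟨z, rfl⟩ := h
  exact ⟨_, (Y.ι_emb z).symm⟩

theorem DC.pr_ι (y : Y.Y) : Y.pr (Y.ι y) = Y.pr y := by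
  rcases Y.cases y with ⟨z, rfl⟩ | ⟨i, j, rfl⟩
  · rw [Y.ι_emb, Y.pr_emb, Y.pr_emb, Y.cov.π_act]
  · rw [Y.ι_pt]

theorem DC.ι_ne {y : Y.Y} (h : y ∈ Y.Yo) : Y.ι y ≠ y := by
  obtain ⟨z, rfl⟩ := h
  rw [Y.ι_emb]
  intro e
  exact absurd (Y.cov.free _ _ (Y.emb_open.injective e)) (by decide)

theorem DC.pr_eq {y y' : Y.Y} (h : y ∈ Y.Yo) (h' : y' ∈ Y.Yo) (e : Y.pr y = Y.pr y') :
    y' = y ∨ y' = Y.ι y := by
  obtain ⟨z, rfl⟩ := h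
  obtain ⟨z', rfl⟩ := h'
  rw [Y.pr_emb, Y.pr_emb] at e
  obtain ⟨g, rfl⟩ := Y.cov.trans _ _ e
  fin_cases g
  · exact Or.inl (congrArg _ (Y.cov.act_zero z))
  · exact Or.inr (Y.ι_emb z).symm

theorem DC.pr_mem {y : Y.Y} (h : y ∈ Y.Yo) : Y.pr y ∈ Xo St := by
  obtain ⟨z, rfl⟩ := h
  rw [Y.pr_emb]
  exact Y.cov.mem z

theorem DC.pr_surj {x : X} (h : x ∈ Xo St) : ∃ y ∈ Y.Yo, Y.pr y = x := by
  obtain ⟨z, rfl⟩ := Y.cov.surj h
  exact ⟨_, ⟨z, rfl⟩, Y.pr_emb z⟩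

theorem DC.pr_at {y : Y.Y} (h : y ∈ Y.Yo) : ContMDiffAt (𝓡 4) (𝓡 4) ∞ Y.pr y :=
  Y.pr_smooth.contMDiffAt (Y.Yo_open.mem_nhds h)

theorem DC.pr_cont : ContinuousOn Y.pr Y.Yo := Y.pr_smooth.continuousOn

theorem DC.ι_image (A : Set Y.Y) : Y.ι '' A = Y.ι ⁻¹' A :=
  congrFun (image_eq_preimage_of_inverse Y.ι_ι Y.ι_ι) A

/-- injectivity of the projection on a set -/
theorem DC.injOn_pr {A : Set Y.Y} (h : A ⊆ Y.Yo) :
    InjOn Y.pr A ↔ ∀ y ∈ A, Y.ι y ∉ A := by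
  refine ⟨fun k y hy hy' => Y.ι_ne (h hy) (k hy' hy (Y.pr_ι y)), fun k y hy y' hy' e => ?_⟩
  rcases Y.pr_eq (h hy) (h hy') e with e' | e'
  · exact e'.symm
  · exact (k y hy (e' ▸ hy')).elim

theorem b2_open (r : ℝ) : IsOpen (B2 r) := isOpen_lt (by fun_prop) continuous_const

theorem b2_zero {r : ℝ} (h : 0 < r) : (0 : ℂ × ℂ) ∈ B2 r := by simpa [B2] using h

theorem b2_neg {r : ℝ} {z : ℂ × ℂ} (h : z ∈ B2 r) : -z ∈ B2 r := by simpa [B2] using h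

theorem b0_neg {r : ℝ} {z : ℂ × ℂ} (h : z ∈ B0 r) : -z ∈ B0 r :=
  ⟨b2_neg h.1, fun e => h.2 (neg_eq_zero.1 e)⟩

/-- the chart at a fixed point -/
theorem DC.chE (i j : Fin 4) : ∃ e : OpenPartialHomeomorph (ℂ × ℂ) Y.Y,
    e.source = B2 (St i j).r ∧ (∀ z, e z = Y.ch i j z) ∧
      ContMDiffOn (𝓡 4) 𝓘(ℝ, ℂ × ℂ) ∞ e.symm e.target := by
  obtain ⟨e, h1, -, h3, h4⟩ := globInv (b2_open _) (Y.ch_smooth i j) (Y.ch_bij i j) (Y.ch_inj i j)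
  exact ⟨e, h1, h3, h4⟩

theorem DC.dι_pt (i j : Fin 4) (v : HS.E4) :
    (mfderiv (𝓡 4) (𝓡 4) Y.ι (Y.pt i j) v : HS.E4) = -v := by
  have h0 := b2_zero (St i j).r_pos
  have hn := (b2_open _).mem_nhds h0
  have hc : MDifferentiableAt 𝓘(ℝ, ℂ × ℂ) (𝓡 4) (Y.ch i j) 0 :=
    ((Y.ch_smooth i j).contMDiffAt hn).mdifferentiableAt (by simp)
  obtain ⟨a, rfl⟩ := (Y.ch_bij i j 0 h0).2 v
  have h1 : HasMFDerivAt 𝓘(ℝ, ℂ × ℂ) (𝓡 4) (Y.ι ∘ Y.ch i j) 0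
      ((mfderiv (𝓡 4) (𝓡 4) Y.ι (Y.ch i j 0)).comp (mfderiv 𝓘(ℝ, ℂ × ℂ) (𝓡 4) (Y.ch i j) 0)) :=
    ((Y.ι_smooth _).mdifferentiableAt (by simp)).hasMFDerivAt.comp 0 hc.hasMFDerivAt
  have h2 : HasMFDerivAt 𝓘(ℝ, ℂ × ℂ) 𝓘(ℝ, ℂ × ℂ) (fun z : ℂ × ℂ => -z) 0
      (-ContinuousLinearMap.id ℝ (ℂ × ℂ)) := (hasFDerivAt_id (0 : ℂ × ℂ)).neg.hasMFDerivAt
  have h3 : HasMFDerivAt 𝓘(ℝ, ℂ × ℂ) (𝓡 4) (Y.ch i j) (-0)
      (mfderiv 𝓘(ℝ, ℂ × ℂ) (𝓡 4) (Y.ch i j) 0) := by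
    rw [neg_zero]
    exact hc.hasMFDerivAt
  have h4 := (h3.comp 0 h2).congr_of_eventuallyEq (f₁ := Y.ι ∘ Y.ch i j) (by
    filter_upwards [hn] with z hz
    exact (Y.ch_neg i j z hz).symm)
  have h5 := congrArg (fun A : ℂ × ℂ →L[ℝ] HS.E4 => A a) (hasMFDerivAt_unique h1 h4)
  rw [← Y.ch_zero]
  refine h5.trans ?_
  exact map_neg (mfderiv 𝓘(ℝ, ℂ × ℂ) (𝓡 4) (Y.ch i j) 0) a

end dc

end Vale.Agent.P247Y
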