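import Vale.Agent.P247Y.Sta

/-!
# P247, block Y: classes of curves; rows CLS and GEOM
-/

set_option linter.all false

open scoped Manifold ContDiff Topology
open Set MeasureTheory Filter Metric

noncomputable section

namespace Vale.Agent.P247Y

open Vale.Agent.P247.SCY
open Vale.Agent.P247.SCY.HS
open Vale.Agent.P247X
open Vale.Agent.P290.H726
open Vale.Agent.P290Z.Lat (cs)

section alg

theorem alt2_swap {V : Type*} [NormedAddCommGroup V] [NormedSpace ℝ V]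
    (a : V [⋀^Fin 2]→L[ℝ] ℝ) (u v : V) : a ![u, v] = - a ![v, u] := by
  have h := a.toAlternatingMap.map_swap ![v, u] (i := 0) (j := 1) (by decide)
  have e : (![v, u] ∘ Equiv.swap (0 : Fin 2) 1) = ![u, v] := by
    funext i
    fin_cases i <;> simp
  rw [e] at h
  exact h

theorem alt2_add_right {V : Type*} [NormedAddCommGroup V] [NormedSpace ℝ V]
    (a : V [⋀^Fin 2]→L[ℝ] ℝ) (u v v' : V) : a ![u, v + v'] = a ![u, v] + a ![u, v'] := by
  have h := a.map_update_add ![u, v] 1 v v'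
  have e : ∀ y : V, Function.update ![u, v] (1 : Fin 2) y = ![u, y] := fun y => by
    funext i
    fin_cases i <;> simp
  simpa only [e] using h

theorem alt2_smul_right {V : Type*} [NormedAddCommGroup V] [NormedSpace ℝ V]
    (a : V [⋀^Fin 2]→L[ℝ] ℝ) (u v : V) (t : ℝ) : a ![u, t • v] = t * a ![u, v] := by
  have h := a.map_update_smul ![u, v] 1 t v
  have e : ∀ y : V, Function.update ![u, v] (1 : Fin 2) y = ![u, y] := fun y => by
    funext i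
    fin_cases i <;> simp
  simpa only [e, smul_eq_mul] using h

theorem alt2_self {V : Type*} [NormedAddCommGroup V] [NormedSpace ℝ V]
    (a : V [⋀^Fin 2]→L[ℝ] ℝ) (u : V) : a ![u, u] = 0 := by
  have := alt2_swap a u u
  linarith

/-- an anti-invariant form vanishes on complex lines -/
theorem anti_zero {V : Type*} [NormedAddCommGroup V] [NormedSpace ℝ V]
    (a : V [⋀^Fin 2]→L[ℝ] ℝ) (J : V →L[ℝ] V) (hJ : ∀ u, J (J u) = -u)
    (h : ∀ u v, a ![J u, J v] = - a ![u, v]) (u : V) : a ![u, J u] = 0 := by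
  have h1 := h u (J u)
  rw [hJ, ← neg_one_smul ℝ u, alt2_smul_right, alt2_swap a (J u) u] at h1
  linarith

end alg

variable {X : Type} [Cl4 X]

/-- the pair of a hypersymplectic triple -/
def pairW {μ : Form X 4} {w : Tri X} (hw : Hypersymplectic μ w) : PairJ X where
  η j := w j.castSucc
  sc j := hyp_sc hw _
  J := Jw w
  ac := Jf_almostComplex (defAt hw) (hw.smooth 2) (hw.smooth 0) (hw.smooth 1)
  anti j x u v := by
    fin_cases j
    · exact Jf_anti_B (defAt hw) x u v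
    · exact Jf_anti_C (defAt hw) x u v
  ind x a b h := by
    by_contra hne
    have h0 : (![a, b, 0] : Fin 3 → ℝ) ≠ 0 := fun e => hne ⟨congrFun e 0, congrFun e 1⟩
    have h1 := (hw.posDef x).dotProduct_mulVec_pos h0
    have h2 : ∀ β : TangentSpace (𝓡 4) x [⋀^Fin 2]→L[ℝ] ℝ,
        a * HS.wedge (w 0 x) β (tbas x) + b * HS.wedge (w 1 x) β (tbas x) = 0 := by
      intro β
      have k : ∀ u v, a * w 0 x ![u, v] + b * w 1 x ![u, v] = 0 := h
      unfold HS.wedge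
      linear_combination β ![tbas x 2, tbas x 3] * k (tbas x 0) (tbas x 1) -
        β ![tbas x 1, tbas x 3] * k (tbas x 0) (tbas x 2) +
        β ![tbas x 1, tbas x 2] * k (tbas x 0) (tbas x 3) +
        β ![tbas x 0, tbas x 3] * k (tbas x 1) (tbas x 2) -
        β ![tbas x 0, tbas x 2] * k (tbas x 1) (tbas x 3) +
        β ![tbas x 0, tbas x 1] * k (tbas x 2) (tbas x 3)
    have h3 := h2 (w 0 x)
    have h4 := h2 (w 1 x)
    simp only [dotProduct, Matrix.mulVec, Fin.sum_univ_three, Qm, Matrix.of_apply, HS.quot,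
      star_trivial, Matrix.cons_val_zero, Matrix.cons_val_one, Matrix.cons_val] at h1
    refine h1.ne' ?_
    linear_combination (a / μ x (tbas x) / 2) * h3 + (b / μ x (tbas x) / 2) * h4

theorem w_zero {μ : Form X 4} {w : Tri X} (hw : Hypersymplectic μ w) (j : Fin 2) (x : X)
    (v : TangentSpace (𝓡 4) x) : w j.castSucc x ![v, Jw w x v] = 0 :=
  anti_zero (V := HS.E4) (w j.castSucc x) (Jw w x) ((pairW hw).ac.sq x) ((pairW hw).anti j x) v

theorem lin_lc {T : Form X 2 → ℝ} (h : LinC T) {n : ℕ} {c : Fin n → Form X 2}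
    (hc : ∀ i, SC (c i)) (v : Fin n → ℝ) : T (lc c v) = ∑ i, v i * T (c i) := by
  have key : ∀ s : Finset (Fin n), T (fun x => ∑ i ∈ s, v i • c i x) = ∑ i ∈ s, v i * T (c i) := by
    intro s
    induction s using Finset.induction_on with
    | empty =>
      have := h.smul 0 (fun _ => 0) (sc_zero (X := X) (k := 2)).cont
      simpa using this
    | insert a s ha ih =>
      simp only [Finset.sum_insert ha]
      rw [h.add _ _ ((hc a).smul _).cont (sc_sum s fun i => (hc i).smul (v i)).cont, ih,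
        h.smul _ _ (hc a).cont]
  exact key _

theorem PCur.coh {J : EndF X} {T : Form X 2 → ℝ} (h : PCur J T) {α β : Form X 2} (hα : SC α)
    (hβ : SC β) (e : Coh α β) : T α = T β := by
  have h1 := h.closed _ (hα.sub hβ).1 e
  rw [sub_eq, h.add _ _ hα.cont (hβ.smul _).cont, h.smul _ _ hβ.cont] at h1
  linarith

theorem PCur.w_zero {μ : Form X 4} {w : Tri X} (hw : Hypersymplectic μ w) {T : Form X 2 → ℝ}
    (h : PCur (Jw w) T) (j : Fin 2) : T (w j.castSucc) = 0 := by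
  have h1 := h.pos _ (hyp_sc hw j.castSucc).cont fun x v => (P247Y.w_zero hw j x v).ge
  have h2 := h.pos _ ((hyp_sc hw j.castSucc).smul (-1)).cont fun x v => by
    rw [ContinuousAlternatingMap.smul_apply, P247Y.w_zero hw j x v, smul_zero]
  rw [h.smul _ _ (hyp_sc hw j.castSucc).cont] at h2
  linarith

variable (c : Ctx X)

/-- the form of an integral class -/
abbrev Ctx.cl (v : Fin 22 → ℤ) : Form X 2 := lc c.M.c (cs ℝ v)

/-- the intersection number -/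
abbrev Ctx.ip (u v : Fin 22 → ℤ) : ℤ := bil c.M.G u v

theorem Ctx.hμ : Volume c.μ := c.top.vol

theorem Ctx.cl_sc (v : Fin 22 → ℤ) : SC (c.cl v) := sc_lc c.M.sc _

theorem Ctx.ip_comm (u v : Fin 22 → ℤ) : c.ip u v = c.ip v u := bil_symm _ c.M.k3.symm u v

theorem Ctx.pair_cl (u v : Fin 22 → ℤ) : pair c.μ (c.cl u) (c.cl v) = (c.ip u v : ℝ) := by
  rw [c.M.pair_lc c.hμ c.hw, bil_cs]

theorem IsCls.ip {T : Form X 2 → ℝ} {v : Fin 22 → ℤ} (h : IsCls c.μ T (c.cl v))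
    (u : Fin 22 → ℤ) : T (c.cl u) = (c.ip v u : ℝ) := by
  rw [h.2 _ (c.cl_sc u), c.pair_cl]

theorem cls : CLS_statement := by
  intro bb X _ c K
  obtain ⟨hP, hpos, -, hint, -⟩ := bb.irr X c.μ c.hμ c.w c.hw K
  have h1 : ∀ i, ∃ n : ℤ, K.T (c.M.c i) = n := by
    intro i
    obtain ⟨L, hL⟩ := c.M.int (Pi.single i 1)
    obtain ⟨n, hn⟩ := hint L
    refine ⟨n, ?_⟩
    rw [← hn, hL, lin_lc hP.toLinC c.M.sc, Finset.sum_eq_single i]
    · simp [cs]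
    · intro j _ hj
      simp [cs, hj]
    · simp
  choose n hn using h1
  have hG : c.M.G * c.M.G⁻¹ = 1 := Matrix.mul_nonsing_inv _ c.M.k3.unit
  let v : Fin 22 → ℤ := c.M.G⁻¹.mulVec n
  have hv : c.M.G.mulVec v = n := by rw [Matrix.mulVec_mulVec, hG, Matrix.one_mulVec]
  have h2 : ∀ u : Fin 22 → ℝ, K.T (lc c.M.c u) = bil c.M.G (cs ℝ v) u := by
    intro u
    rw [lin_lc hP.toLinC c.M.sc, bil_symm _ c.M.k3.symm, bil]
    refine Finset.sum_congr rfl fun i _ => ?_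
    rw [hn, ← hv]
    simp only [Matrix.mulVec, dotProduct, cs, Int.cast_sum, Int.cast_mul, Finset.mul_sum]
    exact Finset.sum_congr rfl fun j _ => by ring
  have h3 : IsCls c.μ K.T (c.cl v) := by
    refine ⟨c.cl_sc v, fun φ hφ => ?_⟩
    obtain ⟨u, hu⟩ := c.M.span φ hφ
    rw [PCur.coh hP hφ (sc_lc c.M.sc u) hu, h2, P247.SCY.pair_comm,
      hu.pair c.hμ c.hw hφ.1 (sc_lc c.M.sc u).1 (c.cl_sc v), P247.SCY.pair_comm,
      c.M.pair_lc c.hμ c.hw]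
  have h4 : ∀ i, K.T (c.w i) = bil c.M.G (cs ℝ v) (c.K.k i) := fun i => by
    rw [h3.2 _ (hyp_sc c.hw i), c.M.pair_rep c.hμ c.hw c.rep]
  exact ⟨v, h3, (h4 0).symm.trans (PCur.w_zero c.hw hP 0), (h4 1).symm.trans (PCur.w_zero c.hw hP 1),
    h4 2 ▸ hpos⟩

/-! ## Embedded curves with a class -/

/-- `A` is an irreducible curve of class `v` -/
def Cu (A : Set X) (v : Fin 22 → ℤ) : Prop :=
  ∃ K : Irr (Jw c.w), K.K = A ∧ IsCls c.μ K.T (c.cl v)

/-- `A` is an embedded curve of class `v` -/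
def Cv (A : Set X) (v : Fin 22 → ℤ) : Prop := Cu c A v ∧ ∀ x ∈ A, RegPt (Jw c.w) A x

variable {c}

theorem Cu.pos (bb : BB) {A A' : Set X} {v v' : Fin 22 → ℤ} (h : Cu c A v) (h' : Cu c A' v')
    (hne : A ≠ A') : (A ∩ A').Finite ∧ ((A ∩ A').ncard : ℤ) ≤ c.ip v v' ∧
      (((A ∩ A').ncard : ℤ) = c.ip v v' → ∀ x ∈ A ∩ A', TransAt A A' x) ∧
      ((∀ x ∈ A ∩ A', RegPt (Jw c.w) A x ∧ RegPt (Jw c.w) A' x ∧ TransAt A A' x) →
        ((A ∩ A').ncard : ℤ) = c.ip v v') := by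
  obtain ⟨K, rfl, hK⟩ := h
  obtain ⟨K', rfl, hK'⟩ := h'
  obtain ⟨h1, h2, h3, h4⟩ := bb.pos X c.μ c.hμ c.w c.hw K K' hne _ hK'
  rw [IsCls.ip c hK] at h2 h3 h4
  exact ⟨h1, by exact_mod_cast h2, fun e => h3 (by exact_mod_cast e),
    fun e => by exact_mod_cast h4 e⟩

theorem Cu.uniq (bb : BB) {A : Set X} {v v' : Fin 22 → ℤ} (h : Cu c A v) (h' : Cu c A v')
    (u : Fin 22 → ℤ) : c.ip v u = c.ip v' u := by
  obtain ⟨K, rfl, hK⟩ := h
  obtain ⟨K', e, hK'⟩ := h'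
  have := (bb.irr X c.μ c.hμ c.w c.hw K).2.2.2.2 K' e _ (c.cl_sc u).cont
  rw [IsCls.ip c hK, IsCls.ip c hK'] at this
  exact_mod_cast this.symm

theorem Cu.ne (bb : BB) {A A' : Set X} {v v' : Fin 22 → ℤ} (h : Cu c A v) (h' : Cu c A' v')
    (u : Fin 22 → ℤ) (hu : c.ip v u ≠ c.ip v' u) : A ≠ A' := by
  rintro rfl
  exact hu (h.uniq bb h' u)

theorem Cu.nonneg (bb : BB) {A A' : Set X} {v v' : Fin 22 → ℤ} (h : Cu c A v) (h' : Cu c A' v')
    (hne : A ≠ A') : 0 ≤ c.ip v v' :=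
  le_trans (Nat.cast_nonneg _) (h.pos bb h' hne).2.1

theorem Cu.disj (bb : BB) {A A' : Set X} {v v' : Fin 22 → ℤ} (h : Cu c A v) (h' : Cu c A' v')
    (hne : A ≠ A') (h0 : c.ip v v' ≤ 0) : Disjoint A A' := by
  obtain ⟨h1, h2, -⟩ := h.pos bb h' hne
  rw [disjoint_iff_inter_eq_empty, ← ncard_eq_zero h1]
  omega

theorem Cu.nonempty {A : Set X} {v : Fin 22 → ℤ} (h : Cu c A v) : A.Nonempty := by
  obtain ⟨K, rfl, -⟩ := h
  exact K.ne

theorem Cu.cpt {A : Set X} {v : Fin 22 → ℤ} (h : Cu c A v) : IsCompact A := by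
  obtain ⟨K, rfl, -⟩ := h
  exact K.cpt

theorem Cu.zero (bb : BB) {A A' : Set X} {v v' : Fin 22 → ℤ} (h : Cu c A v) (h' : Cu c A' v')
    (hd : Disjoint A A') : c.ip v v' = 0 := by
  have hne : A ≠ A' := by
    rintro rfl
    exact h.nonempty.ne_empty (disjoint_self.1 hd)
  have h1 := (h.pos bb h' hne).2.2.2
  rw [disjoint_iff_inter_eq_empty.1 hd] at h1
  simpa using (h1 fun x hx => hx.elim).symm

/-- intersection number one: one transversal point -/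
theorem Cv.one (bb : BB) {A A' : Set X} {v v' : Fin 22 → ℤ} (h : Cv c A v) (h' : Cv c A' v')
    (hne : A ≠ A') (h1 : c.ip v v' = 1) : ∃ x, A ∩ A' = {x} ∧ TransAt A A' x := by
  obtain ⟨k1, k2, k3, k4⟩ := h.1.pos bb h'.1 hne
  have k5 : (A ∩ A').ncard ≠ 0 := fun e => by
    have k6 := k4 (by rw [(ncard_eq_zero k1).1 e]; exact fun x hx => hx.elim)
    omega
  have k7 : (A ∩ A').ncard = 1 := by omega
  obtain ⟨x, hx⟩ := ncard_eq_one.1 k7
  exact ⟨x, hx, k3 (by omega) x (by rw [hx]; rfl)⟩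

theorem Cv.count (bb : BB) {A A' : Set X} {v v' : Fin 22 → ℤ} (h : Cv c A v) (h' : Cv c A' v')
    (hne : A ≠ A') (ht : ∀ x ∈ A ∩ A', TransAt A A' x) : ((A ∩ A').ncard : ℤ) = c.ip v v' :=
  (h.1.pos bb h'.1 hne).2.2.2 fun x hx => ⟨h.2 x hx.1, h'.2 x hx.2, ht x hx⟩

theorem cv_sph (bb : BB) (S : Sph (Jw c.w)) {v : Fin 22 → ℤ} (h : IsCls c.μ S.int (c.cl v)) :
    Cv c S.set v := by
  obtain ⟨K, k1, k2, k3⟩ := (bb.emb X c.μ c.hμ c.w c.hw).1 S
  exact ⟨⟨K, k1, h.1, fun φ hφ => (k3 φ hφ.cont).trans (h.2 φ hφ)⟩, k1 ▸ k2⟩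

theorem cv_tor (bb : BB) (S : Tor (Jw c.w)) {v : Fin 22 → ℤ} (h : IsCls c.μ S.int (c.cl v)) :
    Cv c S.set v := by
  obtain ⟨K, k1, k2, k3⟩ := (bb.emb X c.μ c.hμ c.w c.hw).2 S
  exact ⟨⟨K, k1, h.1, fun φ hφ => (k3 φ hφ.cont).trans (h.2 φ hφ)⟩, k1 ▸ k2⟩

/-- the class of a torus -/
theorem tor_cls (bb : BB) (S : Tor (Jw c.w)) : ∃ v : Fin 22 → ℤ, IsCls c.μ S.int (c.cl v) ∧
    bil c.M.G (cs ℝ v) (c.K.k 0) = 0 ∧ bil c.M.G (cs ℝ v) (c.K.k 1) = 0 := by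
  obtain ⟨K, k1, k2, k3⟩ := (bb.emb X c.μ c.hμ c.w c.hw).2 S
  obtain ⟨v, h1, h2, h3, -⟩ := cls bb X c K
  exact ⟨v, ⟨h1.1, fun φ hφ => (k3 φ hφ.cont).symm.trans (h1.2 φ hφ)⟩, h2, h3⟩

/-- the class of a torus depends on the image only -/
theorem tor_cls_congr (bb : BB) {S S' : Tor (Jw c.w)} (e : S'.set = S.set) {α : Form X 2}
    (h : IsCls c.μ S.int α) : IsCls c.μ S'.int α := by
  obtain ⟨K, k1, -, k3⟩ := (bb.emb X c.μ c.hμ c.w c.hw).2 S
  obtain ⟨K', k1', -, k3'⟩ := (bb.emb X c.μ c.hμ c.w c.hw).2 S'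
  refine ⟨h.1, fun φ hφ => ?_⟩
  rw [← k3' φ hφ.cont, (bb.irr X c.μ c.hμ c.w c.hw K).2.2.2.2 K' (by rw [k1, k1', e]) φ hφ.cont,
    k3 φ hφ.cont, h.2 φ hφ]

variable (c)

theorem cv_C (bb : BB) (i : Fin 4) : Cv c (c.C i).set (c.K.C i) := cv_sph bb _ (c.clsC i)

theorem cv_D (bb : BB) (i : Fin 4) : Cv c (c.D i).set (c.K.D i) := cv_sph bb _ (c.clsD i)

theorem cv_d (bb : BB) (hS : STDB_statement) (i j : Fin 4) : Cv c (c.St i j).set (c.K.d i j) := by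
  obtain ⟨δ, h1, h2⟩ := (hS X c.w (c.St i j)).2.2.2.1
  have e : δ.u = fun ζ => (c.St i j).p (0, ζ) := funext h1
  have e' : δ.set = (c.St i j).set := by rw [Sph.set, Std.set, h2, e]
  rw [← e']
  refine cv_sph bb δ ?_
  have := c.clsd i j
  rw [← e] at this
  exact this

/-! ## The intersection numbers -/

theorem bil_sum_left {G : Matrix (Fin 22) (Fin 22) ℤ} {R : Type} [CommRing R] {ι : Type}
    (s : Finset ι) (x : ι → Fin 22 → R) (y : Fin 22 → R) :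
    bil G (∑ i ∈ s, x i) y = ∑ i ∈ s, bil G (x i) y := by
  classical
  induction s using Finset.induction_on with
  | empty => simp [bil_zero_left]
  | insert a s ha ih => rw [Finset.sum_insert ha, Finset.sum_insert ha, bil_add_left, ih]

theorem Ctx.F1_ip (i : Fin 4) (v : Fin 22 → ℤ) :
    c.ip c.K.F₁ v = 2 * c.ip (c.K.C i) v + ∑ j, c.ip (c.K.d i j) v := by
  rw [c.K.hF₁ i, Ctx.ip, bil_add_left, bil_smul_left, bil_sum_left]

theorem Ctx.F2_ip (j : Fin 4) (v : Fin 22 → ℤ) :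
    c.ip c.K.F₂ v = 2 * c.ip (c.K.D j) v + ∑ i, c.ip (c.K.d i j) v := c.t.F1_ip j v

theorem Ctx.F1_d (i j : Fin 4) : c.ip c.K.F₁ (c.K.d i j) = 0 := by
  rw [c.F1_ip i]
  simp [Ctx.ip, c.K.Cd, c.K.dd]

theorem Ctx.F1_C (i : Fin 4) : c.ip c.K.F₁ (c.K.C i) = 0 := by
  rw [c.F1_ip i]
  simp only [c.ip_comm (c.K.d _ _)]
  simp [Ctx.ip, c.K.Cd, c.K.CC]

theorem Ctx.F1_D (j : Fin 4) : c.ip c.K.F₁ (c.K.D j) = 1 := by
  rw [c.F1_ip 0]
  simp only [c.ip_comm (c.K.d _ _)]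
  simp [Ctx.ip, c.K.Dd, c.K.CD]

theorem Ctx.F1_F1 : c.ip c.K.F₁ c.K.F₁ = 0 := by
  rw [c.F1_ip 0]
  simp only [c.ip_comm _ c.K.F₁, c.F1_d, c.F1_C]
  simp

theorem Ctx.F2_d (i j : Fin 4) : c.ip c.K.F₂ (c.K.d i j) = 0 := c.t.F1_d j i
theorem Ctx.F2_D (j : Fin 4) : c.ip c.K.F₂ (c.K.D j) = 0 := c.t.F1_C j
theorem Ctx.F2_C (i : Fin 4) : c.ip c.K.F₂ (c.K.C i) = 1 := c.t.F1_D i
theorem Ctx.F2_F2 : c.ip c.K.F₂ c.K.F₂ = 0 := c.t.F1_F1

theorem Ctx.F1_F2 : c.ip c.K.F₁ c.K.F₂ = 2 := by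
  rw [c.F1_ip 0]
  simp only [c.ip_comm _ c.K.F₂, c.F2_d, c.F2_C]
  simp

theorem cs_add (u v : Fin 22 → ℤ) : cs ℝ (u + v) = cs ℝ u + cs ℝ v := by
  funext i
  simp [cs]

theorem cs_smul (a : ℤ) (v : Fin 22 → ℤ) : cs ℝ (a • v) = (a : ℝ) • cs ℝ v := by
  funext i
  simp [cs]

theorem cs_sum {ι : Type} (s : Finset ι) (v : ι → Fin 22 → ℤ) :
    cs ℝ (∑ i ∈ s, v i) = ∑ i ∈ s, cs ℝ (v i) := by
  funext i
  simp [cs]

theorem Ctx.F1_k : bil c.M.G (cs ℝ c.K.F₁) (c.K.k 0) = 0 ∧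
    bil c.M.G (cs ℝ c.K.F₁) (c.K.k 1) = 0 := by
  rw [c.K.hF₁ 0, cs_add, cs_smul, cs_sum]
  simp only [bil_add_left, bil_smul_left, bil_sum_left, (c.K.wC 0).2.1, (c.K.wC 0).2.2.1,
    (c.K.wd 0 _).2.1, (c.K.wd 0 _).2.2.1]
  simp

/-- a class orthogonal to the spheres `d` and `C` is a multiple of `F₁` -/
theorem Ctx.eq_F1 {v : Fin 22 → ℤ} (h0 : bil c.M.G (cs ℝ v) (c.K.k 0) = 0)
    (h1 : bil c.M.G (cs ℝ v) (c.K.k 1) = 0) (hd : ∀ i j, c.ip v (c.K.d i j) = 0)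
    (hC : ∀ i, c.ip v (c.K.C i) = 0) (j : Fin 4) : v = c.ip v (c.K.D j) • c.K.F₁ := by
  have hD : ∀ j', c.ip v (c.K.D j') = c.ip v (c.K.D j) := by
    intro j'
    have k1 := c.F2_ip j v
    have k2 := c.F2_ip j' v
    simp only [c.ip_comm _ v, hd] at k1 k2
    simp at k1 k2
    omega
  have key := c.K.gen (v + (-c.ip v (c.K.D j)) • c.K.F₁) ?_ ?_ ?_ ?_ ?_
  · rw [neg_smul] at key
    exact add_neg_eq_zero.1 key
  · rw [cs_add, cs_smul, bil_add_left, bil_smul_left, h0, c.F1_k.1]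
    simp
  · rw [cs_add, cs_smul, bil_add_left, bil_smul_left, h1, c.F1_k.2]
    simp
  · intro a b
    rw [bil_add_left, bil_smul_left]
    have := hd a b
    have := c.F1_d a b
    simp_all [Ctx.ip]
  · intro a
    rw [bil_add_left, bil_smul_left]
    have := hC a
    have := c.F1_C a
    simp_all [Ctx.ip]
  · intro a
    rw [bil_add_left, bil_smul_left]
    have k1 := hD a
    have k2 := c.F1_D a
    simp only [Ctx.ip] at k1 k2 ⊢
    rw [k1, k2]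
    ring

theorem geom : GEOM_statement := by
  intro bb hS X _ c
  have hC := cv_C c bb
  have hD := cv_D c bb
  have hd := cv_d c bb hS
  refine ⟨fun i j => (hC i).one bb (hd i j) ((hC i).1.ne bb (hd i j).1 (c.K.d i j) ?_) ?_,
    fun i i' j h => (hC i).1.disj bb (hd i' j).1 ((hC i).1.ne bb (hd i' j).1 (c.K.d i' j) ?_) ?_,
    fun i i' h => (hC i).1.disj bb (hC i').1 ((hC i).1.ne bb (hC i').1 (c.K.C i) ?_) ?_,
    fun i j => (hC i).1.disj bb (hD j).1 ((hC i).1.ne bb (hD j).1 (c.K.D j) ?_) ?_⟩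
  · simp [Ctx.ip, c.K.Cd, c.K.dd]
  · simp [Ctx.ip, c.K.Cd]
  · simp [Ctx.ip, c.K.Cd, c.K.dd, h]
  · simp [Ctx.ip, c.K.Cd, h]
  · simp [Ctx.ip, c.K.CC, h.symm]
  · simp [Ctx.ip, c.K.CC, h]
  · simp [Ctx.ip, c.K.CD, c.K.DD]
  · simp [Ctx.ip, c.K.CD]

end Vale.Agent.P247Y
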