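import Vale.Agent.P247Y.Folb
import Vale.Agent.P247M.PB

/-!
# P247, block Y: projections, lifts and images of tori; constancy of the class in a family
-/

set_option linter.all false

open scoped Manifold ContDiff Topology
open Set MeasureTheory Filter Metric Function

noncomputable section

namespace Vale.Agent.P247Y.PrtH

open Vale.Agent.P247.SCY
open Vale.Agent.P247.SCY.HS
open Vale.Agent.P247X
open Vale.Agent.P247.H74 (P2)
open Vale.Agent.P290Z.Lat (cs)
open FolH

section maps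

variable {Z X : Type} [TopologicalSpace Z] [ChartedSpace HS.E4 Z] [TopologicalSpace X]
  [ChartedSpace HS.E4 X]

theorem dm_map {f : Z → X} {u : ℂ → Z} {z : ℂ} (hf : MDifferentiableAt (𝓡 4) (𝓡 4) f (u z))
    (hu : MDifferentiableAt 𝓘(ℝ, ℂ) (𝓡 4) u z) (a : ℂ) :
    dm (fun w => f (u w)) z a = mfderiv (𝓡 4) (𝓡 4) f (u z) (dm u z a) :=
  DFunLike.congr_fun (mfderiv_comp z hf hu) a

/-- the image of a torus under a holomorphic immersion -/
def mapTor {J : EndF Z} {J' : EndF X} (T : Tor J) (f : Z → X)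
    (hs : ∀ z, ContMDiffAt (𝓡 4) (𝓡 4) ∞ f (T.u z)) (hi : InjOn f T.set)
    (hd : ∀ z, Injective (mfderiv (𝓡 4) (𝓡 4) f (T.u z)))
    (hJ : ∀ z (v : TangentSpace (𝓡 4) (T.u z)), mfderiv (𝓡 4) (𝓡 4) f (T.u z) (J _ v) =
      J' _ (mfderiv (𝓡 4) (𝓡 4) f (T.u z) v)) : Tor J' where
  u z := f (T.u z)
  τ := T.τ
  τ_pos := T.τ_pos
  smooth z := (hs z).comp z (T.smooth z)
  per m n z := by rw [T.per]
  inj z z' h := T.inj z z' (hi ⟨z, rfl⟩ ⟨z', rfl⟩ h)
  imm z h := by
    rw [dm_map ((hs z).mdifferentiableAt (by simp)) ((T.smooth z).mdifferentiableAt (by simp))]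
      at h
    exact T.imm z (hd z (h.trans (map_zero _).symm))
  hol z := by
    unfold JAt
    rw [dm_map ((hs z).mdifferentiableAt (by simp)) ((T.smooth z).mdifferentiableAt (by simp)),
      dm_map ((hs z).mdifferentiableAt (by simp)) ((T.smooth z).mdifferentiableAt (by simp)),
      T.hol z, hJ]

end maps

/-- the unit square -/
def Sq : Set ℂ := {z | z.re ∈ Ico (0 : ℝ) 1 ∧ z.im ∈ Ico (0 : ℝ) 1}

theorem meas_Sq : MeasurableSet Sq :=
  (Complex.measurable_re measurableSet_Ico).inter (Complex.measurable_im measurableSet_Ico)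

theorem Sq_sub : Sq ⊆ closedBall 0 2 := fun z hz => by
  rw [mem_closedBall_zero_iff]
  refine (Complex.norm_le_abs_re_add_abs_im z).trans ?_
  rw [abs_of_nonneg hz.1.1, abs_of_nonneg hz.2.1]
  linarith [hz.1.2, hz.2.2]

/-- real and imaginary part -/
def ri : ℂ →L[ℝ] P2 := Complex.reCLM.prod Complex.imCLM

theorem para_eq (τ : ℂ) : para τ = (un τ ∘L ri) '' Sq := by
  ext z
  constructor
  · rintro ⟨s, hs, t, ht, rfl⟩
    refine ⟨⟨s, t⟩, ⟨hs, ht⟩, ?_⟩
    rw [ContinuousLinearMap.comp_apply, un_apply]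
    rfl
  · rintro ⟨w, hw, rfl⟩
    refine ⟨w.re, hw.1, w.im, hw.2, ?_⟩
    rw [ContinuousLinearMap.comp_apply, un_apply]
    rfl

variable {X : Type} [TopologicalSpace X] [ChartedSpace HS.E4 X]

theorem int_eq {J : EndF X} (T : Tor J) (φ : Form X 2) :
    T.int φ = ∫ w in Sq, pull2 φ (fun w => T.u (un T.τ (ri w))) w := by
  have hdet : (un T.τ ∘L ri).det = T.τ.im := by
    rw [P247C.det_eq]
    simp [un_apply, ri]
  have hinj : Injective (un T.τ ∘L ri) := by
    intro a b h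
    have h2 := congrArg (co T.τ) h
    simp only [ContinuousLinearMap.comp_apply, un_apply, co_un T.τ_pos] at h2
    exact Complex.ext (congrArg Prod.fst h2) (congrArg Prod.snd h2)
  unfold Tor.int
  rw [para_eq, integral_image_eq_integral_abs_det_fderiv_smul volume meas_Sq
    (fun w _ => (un T.τ ∘L ri).hasFDerivAt.hasFDerivWithinAt) hinj.injOn]
  refine integral_congr_ae (Eventually.of_forall fun w => ?_)
  have h := P247C.pull2_comp φ (un T.τ ∘L ri).hasFDerivAt
    ((T.smooth ((un T.τ ∘L ri) w)).mdifferentiableAt (by simp))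
  beta_reduce
  rw [hdet, abs_of_pos T.τ_pos, smul_eq_mul, ← hdet]
  exact h.symm

variable [IsManifold (𝓡 4) ∞ X]

theorem int_cont {J : EndF X} {s : Set P2} {K : P2 → Tor J} {Ψ : P2 × P2 → X} (hs : IsOpen s)
    (hΨ : ContMDiffOn 𝓘(ℝ, P2 × P2) (𝓡 4) ∞ Ψ (s ×ˢ univ))
    (hK : ∀ y ∈ s, ∀ p : P2, (K y).u (p.1 + p.2 * (K y).τ) = Ψ (y, p)) {φ : Form X 2}
    (hφ : Cont φ) : ContinuousOn (fun y => (K y).int φ) s := by
  have ho : IsOpen (s ×ˢ (univ : Set P2)) := hs.prod isOpen_univ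
  obtain ⟨g, hg⟩ : ∃ g : P2 × P2 → ℝ, ∀ q, g q =
      P247M.pb Ψ φ q ![(0, ri 1), (0, ri Complex.I)] := ⟨_, fun _ => rfl⟩
  have hc : ContinuousOn g (s ×ˢ univ) := by
    rw [show g = _ from funext hg]
    exact (continuous_eval_const _).comp_continuousOn (P247M.continuousOn_pb ho hΨ hφ)
  have h1 : ∀ y ∈ s, (K y).int φ = ∫ w in closedBall (0 : ℂ) 2, g (y, ri w) ∂volume.restrict Sq := by
    intro y hy
    rw [int_eq, Measure.restrict_restrict measurableSet_closedBall, inter_eq_right.2 Sq_sub]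
    have h2 : (fun w => (K y).u (un (K y).τ (ri w))) = fun w => Ψ (y, ri w) := by
      funext w
      rw [un_apply, hK y hy]
    rw [h2]
    refine integral_congr_ae (Eventually.of_forall fun w => ?_)
    have hd := (hΨ.contMDiffAt (ho.mem_nhds (show (y, ri w) ∈ _ from ⟨hy, trivial⟩))
      ).mdifferentiableAt (by simp)
    beta_reduce
    rw [hg, P247M.pb_two]
    unfold pull2
    rw [slice_der hd, slice_der hd]
  rw [continuousOn_iff_continuous_restrict]
  have : LocallyCompactSpace s := hs.locallyCompactSpace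
  have h3 : Continuous (uncurry fun (y : s) (w : ℂ) => g (y, ri w)) :=
    hc.comp_continuous (f := fun q : s × ℂ => ((q.1 : P2), ri q.2)) (by fun_prop)
      fun q => ⟨q.1.2, trivial⟩
  refine (continuous_parametric_integral_of_continuous (μ := volume.restrict Sq) h3
    (isCompact_closedBall 0 2)).congr fun y => (h1 y y.2).symm

theorem lin_sum {T : Form X 2 → ℝ} (hT : LinC T) {ι : Type} (s : Finset ι) {α : ι → Form X 2}
    (h : ∀ i, SC (α i)) : T (fun x => ∑ i ∈ s, α i x) = ∑ i ∈ s, T (α i) := by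
  classical
  induction s using Finset.induction_on with
  | empty =>
    have h0 := hT.smul 0 (fun _ => 0) (SC.cont sc_zero)
    simpa using h0
  | insert a s ha ih =>
    simp only [Finset.sum_insert ha]
    rw [hT.add _ _ (h a).cont (sc_sum s h).cont, ih]

theorem lc_single {n : ℕ} (c : Fin n → Form X 2) (i : Fin n) :
    lc c (cs ℝ (Pi.single i 1)) = c i := by
  funext x
  unfold lc
  rw [Finset.sum_eq_single i]
  · simp [cs]
  · intro j _ hj
    simp [cs, hj]
  · simp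

end Vale.Agent.P247Y.PrtH

namespace Vale.Agent.P247Y

open Vale.Agent.P247.SCY
open Vale.Agent.P247.SCY.HS
open Vale.Agent.P247X
open Vale.Agent.P247.H74 (P2)
open Vale.Agent.P290Z.Lat (cs)
open FolH PrtH

theorem DC.ι_ι₀ {X : Type} [TopologicalSpace X] [ChartedSpace HS.E4 X] {w : Tri X}
    {St : Fin 4 → Fin 4 → Std w} (Y : DC St) (y : Y.Y) : Y.ι (Y.ι y) = y := by
  by_cases h : y ∈ range Y.emb
  · obtain ⟨z, rfl⟩ := h
    rw [Y.ι_emb, Y.ι_emb, ← Y.cov.act_add, show (1 + 1 : ZMod 2) = 0 from rfl, Y.cov.act_zero]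
  · rw [Y.range_emb] at h
    simp only [mem_setOf_eq, not_forall, not_not] at h
    obtain ⟨i, j, rfl⟩ := h
    rw [Y.ι_pt, Y.ι_pt]

theorem PRT : PRT_statement := by
  intro pre X _ c Y
  have ho : IsOpen (range Y.emb) := Y.emb_open.isOpen_range
  refine ⟨fun T h1 h2 => ⟨mapTor T Y.pr
      (fun z => Y.pr_smooth.contMDiffAt (ho.mem_nhds (h1 ⟨z, rfl⟩))) h2
      (fun z => (Y.pr_bij _ (h1 ⟨z, rfl⟩)).1) fun z v => Y.J_pr _ (h1 ⟨z, rfl⟩) v, rfl, rfl⟩,
    fun T => ⟨mapTor T Y.ι (fun z => Y.ι_smooth _)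
      (LeftInverse.injective Y.ι_ι₀).injOn (fun z a b h => ?_) fun z v => Y.J_ι _ v, rfl, rfl⟩,
    fun K u hu h1 h2 h3 => ?_, fun s K Ψ hs hs2 hΨ hK y hy y' hy' α hα => ⟨hα.1, fun φ hφ => ?_⟩⟩
  · have h4 := fun v => mfderiv_left_inv ((Y.ι_smooth (T.u z)).mdifferentiableAt (by simp))
      ((Y.ι_smooth _).mdifferentiableAt (by simp)) (Eventually.of_forall Y.ι_ι₀) v
    rw [← h4 a, h, h4 b]
  · have hK : K.u = fun z => Y.pr (u z) := funext fun z => (h2 z).symm
    have hsm : ContMDiff 𝓘(ℝ, ℂ) (𝓡 4) ∞ u := fun z =>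
      lift_sm ho Y.pr_smooth (h1 z) (Y.pr_bij _ (h1 z)).1 hu.continuousAt (hK ▸ K.smooth z)
    have hd := fun z a => dm_map ((Y.pr_smooth.contMDiffAt (ho.mem_nhds (h1 z))).mdifferentiableAt
      (by simp)) ((hsm z).mdifferentiableAt (by simp)) a
    refine ⟨⟨u, K.τ, K.τ_pos, hsm, h3, fun z z' h => K.inj z z' (by rw [← h2, ← h2, h]),
      fun z h => ?_, fun z => ?_⟩, rfl, rfl⟩
    · have h5 := K.imm z
      rw [hK, hd, h] at h5
      exact h5 (map_zero _)
    · have h5 := K.hol z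
      unfold JAt at h5 ⊢
      rw [hK, hd, hd] at h5
      exact (Y.pr_bij _ (h1 z)).1 (h5.trans (Y.J_pr _ (h1 z) _).symm)
  · rw [← hα.2 φ hφ]
    choose I hI1 hI2 hI3 using (pre.bb.emb X c.μ c.top.vol c.w c.hw).2
    have irr := pre.bb.irr X c.μ c.top.vol c.w c.hw
    obtain ⟨v, hv⟩ := c.M.span φ hφ
    have hexp : ∀ T : Tor (Jw c.w), T.int φ = ∑ i, v i * T.int (c.M.c i) := by
      intro T
      have hP := (irr (I T)).1
      have h4 := hP.closed _ (smooth_sub hφ.1 (sc_lc c.M.sc v).1) hv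
      have h5 := hP.add _ _ (hφ.sub (sc_lc c.M.sc v)).cont (sc_lc c.M.sc v).cont
      simp only [sub_add_cancel] at h5
      rw [← hI3 T φ hφ.cont, h5, h4, zero_add]
      refine (lin_sum hP.toLinC _ fun i => (c.M.sc i).smul (v i)).trans
        (Finset.sum_congr rfl fun i _ => ?_)
      rw [hP.smul _ _ (c.M.sc i).cont, hI3 T _ (c.M.sc i).cont]
    rw [hexp, hexp]
    refine Finset.sum_congr rfl fun i _ => congrArg (v i * ·) ?_
    have hint : ∀ T : Tor (Jw c.w), T.int (c.M.c i) ∈ range ((↑) : ℤ → ℝ) := by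
      intro T
      obtain ⟨L, hL⟩ := c.M.int (Pi.single i 1)
      obtain ⟨n, hn⟩ := (irr (I T)).2.2.2.1 L
      rw [hL, lc_single, hI3 T _ (c.M.sc i).cont] at hn
      exact ⟨n, hn.symm⟩
    exact hs2.constant_of_mapsTo Int.isClosedEmbedding_coe_real.isEmbedding.isDiscrete_range
      (int_cont hs hΨ hK (c.M.sc i).cont) (fun z _ => hint _) hy' hy

end Vale.Agent.P247Y
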