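import Vale.Agent.P247Y.Cov

/-!
# P247, block Y: RATX
-/

set_option linter.all false

open scoped Topology
open Set Filter Metric

noncomputable section

namespace Vale.Agent.P247Y

open Vale.Agent.P247X

open Classical in
/-- the chart at infinity -/
def invP (z : ℂ) : OnePoint ℂ := if z = 0 then OnePoint.infty else ((z⁻¹ : ℂ) : OnePoint ℂ)

theorem invP_ne {z : ℂ} (h : z ≠ 0) : invP z = ((z⁻¹ : ℂ) : OnePoint ℂ) := if_neg h

theorem invP_zero : invP 0 = OnePoint.infty := if_pos rfl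

theorem continuous_invP : Continuous invP := by
  rw [continuous_iff_continuousAt]
  intro z
  by_cases h : z = 0
  · subst h
    rw [← continuousWithinAt_compl_self, ContinuousWithinAt, invP_zero]
    have h1 : Tendsto (fun z : ℂ => ((z⁻¹ : ℂ) : OnePoint ℂ)) (𝓝[≠] 0) (𝓝 OnePoint.infty) := by
      refine OnePoint.tendsto_coe_infty.comp ?_
      rw [coclosedCompact_eq_cocompact, ← Metric.cobounded_eq_cocompact]
      exact tendsto_inv₀_nhdsNE_zero
    refine h1.congr' ?_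
    filter_upwards [self_mem_nhdsWithin] with y hy
    exact (invP_ne hy).symm
  · refine (OnePoint.continuous_coe.continuousAt.comp (continuousAt_inv₀ h)).congr ?_
    filter_upwards [isOpen_ne.mem_nhds h] with y hy
    exact (invP_ne hy).symm

theorem preconn_ne : IsPreconnected ({0}ᶜ : Set ℂ) :=
  (isConnected_compl_singleton_of_one_lt_rank (by simp) (0 : ℂ)).isPreconnected

/-- maps from the sphere lift -/
theorem GCov.lift_sphere {X : Type} [TopologicalSpace X] {W : Set X} {G : Type} [AddCommGroup G]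
    (Z : GCov W G) {n : OnePoint ℂ → X} (hn : Continuous n) (hW : ∀ s, n s ∈ W) :
    ∃ N : OnePoint ℂ → Z.Z, Continuous N ∧ ∀ s, Z.π (N s) = n s := by
  obtain ⟨g₁, hc₁, h₁⟩ := Z.lift (A := ℂ) (hn.comp OnePoint.continuous_coe) fun a => hW _
  obtain ⟨g₂, hc₂, h₂⟩ := Z.lift (A := ℂ) (hn.comp continuous_invP) fun a => hW _
  obtain ⟨a, ha⟩ := Z.uniq preconn_ne (f := g₁) (g := fun z => g₂ z⁻¹) hc₁.continuousOn
    (hc₂.comp_continuousOn continuousOn_inv₀) fun z hz => by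
      rw [h₁, h₂, Function.comp_apply, Function.comp_apply, invP_ne (inv_ne_zero hz), inv_inv]
  refine ⟨fun s => OnePoint.elim s (g₂ 0) (fun z => Z.act a (g₁ z)), ?_, ?_⟩
  · rw [OnePoint.continuous_iff]
    refine ⟨?_, (Z.act_cont a).comp hc₁⟩
    rw [coclosedCompact_eq_cocompact, ← Metric.cobounded_eq_cocompact]
    refine ((hc₂.tendsto 0).comp (tendsto_inv₀_cobounded (α := ℂ))).congr' ?_
    filter_upwards [(Bornology.isBounded_singleton (x := (0 : ℂ))).compl] with z hz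
    exact ha z hz
  · intro s
    induction s using OnePoint.rec with
    | infty => exact (h₂ 0).trans (congrArg n invP_zero)
    | coe z => exact (Z.π_act a _).trans (h₁ z)

theorem RATX : RATX_statement := by
  classical
  rintro - X _ _ W Z L hL ⟨n, hn, hr, p, q, hpq⟩
  obtain ⟨N, hN, hπ⟩ := Z.lift_sphere hn fun s => hL (hr ▸ ⟨s, rfl⟩)
  obtain ⟨h, hh⟩ : ∃ h, n p = n q → N q = Z.act h (N p) := by
    by_cases e : n p = n q
    · obtain ⟨h, hh⟩ := Z.trans (N p) (N q) (by rw [hπ, hπ, e])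
      exact ⟨h, fun _ => hh⟩
    · exact ⟨0, fun e' => (e e').elim⟩
  let A : Set (ZMod 2 × ZMod 2) → Set Z.Z := fun H => ⋃ g ∈ H, range fun s => Z.act g (N s)
  have hA : ∀ H, IsCompact (A H) := fun H =>
    (toFinite H).isCompact_biUnion fun g _ => isCompact_range ((Z.act_cont g).comp hN)
  let H : Set (ZMod 2 × ZMod 2) := {g | g = 0 ∨ g = h}
  have hd : Disjoint (A H) (A Hᶜ) := by
    rw [Set.disjoint_left]
    intro z hz hz'
    simp only [A, mem_iUnion, mem_range] at hz hz'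
    obtain ⟨g, hg, s, rfl⟩ := hz
    obtain ⟨g', hg', t, e⟩ := hz'
    have e' : n s = n t := by rw [← hπ, ← hπ, ← Z.π_act g, ← e, Z.π_act]
    have h1 : ∀ h g g' : ZMod 2 × ZMod 2, (g = 0 ∨ g = h) →
        (g' = g ∨ g' + h = g ∨ g' = g + h) → g' = 0 ∨ g' = h := by decide
    refine hg' (h1 h g g' hg ?_)
    rcases hpq s t e' with rfl | ⟨rfl, rfl⟩ | ⟨rfl, rfl⟩
    · exact .inl (Z.act_cancel e)
    · rw [hh e', ← Z.act_add] at e
      exact .inr (.inl (Z.act_cancel e))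
    · rw [hh e'.symm, ← Z.act_add] at e
      exact .inr (.inr (Z.act_cancel e))
  obtain ⟨U, U', hU, hU', hAU, hAU', hUU⟩ := SeparatedNhds.of_isCompact_isCompact (hA H) (hA Hᶜ) hd
  obtain ⟨g₁, hg₁⟩ : ∃ g, g ∈ Hᶜ := by
    have h1 : ∀ h : ZMod 2 × ZMod 2, ∃ g, ¬ (g = 0 ∨ g = h) := by decide
    exact h1 h
  have hmem : ∀ H g s, g ∈ H → Z.act g (N s) ∈ A H := fun H g s hg =>
    mem_biUnion hg ⟨s, rfl⟩
  refine ⟨Z.π '' U ∩ Z.π '' U' ∩ Z.π '' (⋂ g, Z.act g ⁻¹' (U ∪ U')),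
    ((Z.isOpenMap U hU).inter (Z.isOpenMap U' hU')).inter (Z.isOpenMap _
      (isOpen_iInter_of_finite fun g => (hU.union hU').preimage (Z.act_cont g))), ?_, ?_⟩
  · rw [← hr]
    rintro _ ⟨s, rfl⟩
    refine ⟨⟨⟨_, hAU (hmem H 0 s (.inl rfl)), by rw [Z.π_act, hπ]⟩,
      ⟨_, hAU' (hmem _ g₁ s hg₁), by rw [Z.π_act, hπ]⟩⟩, N s, mem_iInter.2 fun g => ?_, hπ s⟩
    by_cases hg : g ∈ H
    · exact .inl (hAU (hmem H g s hg))
    · exact .inr (hAU' (hmem _ g s hg))
  · rintro K hK ⟨x, hx⟩ hc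
    obtain ⟨⟨⟨z, hz, e⟩, z', hz', e'⟩, -⟩ := hK hx
    have hsub : Z.π ⁻¹' K ⊆ U ∪ U' := by
      intro y hy
      obtain ⟨-, y', hy', e⟩ := hK hy
      obtain ⟨g, rfl⟩ := Z.trans y' y e
      exact mem_iInter.1 hy' g
    obtain ⟨y, -, hy⟩ := hc U U' hU hU' hsub ⟨z, by rw [mem_preimage, e]; exact hx, hz⟩
      ⟨z', by rw [mem_preimage, e']; exact hx, hz'⟩
    exact Set.disjoint_left.1 hUU hy.1 hy.2

end Vale.Agent.P247Y
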