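import Vale.Agent.P247Y.Stdb

/-!
# P247, block Y: the manifold `Y` is connected
-/

set_option linter.unusedSectionVars false

open scoped Manifold ContDiff Topology
open Set Filter Metric Function

noncomputable section

namespace Vale.Agent.P247Y

open Vale.Agent.P247.SCY
open Vale.Agent.P247.SCY.HS
open Vale.Agent.P247X

namespace YcH

theorem z2 (g : ZMod 2) : g = 0 ∨ g = 1 := by revert g; decide

theorem B2_basis {U : Set (ℂ × ℂ)} (hU : U ∈ 𝓝 (0 : ℂ × ℂ)) {r : ℝ} (hr : 0 < r) :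
    ∃ ρ > 0, ρ ≤ r ∧ B2 ρ ⊆ U := by
  obtain ⟨δ, hδ, h⟩ := Metric.mem_nhds_iff.1 hU
  refine ⟨min r (δ ^ 2), lt_min hr (by positivity), min_le_left _ _, fun z hz => h ?_⟩
  have h1 : ‖z.1‖ ^ 2 + ‖z.2‖ ^ 2 < δ ^ 2 := lt_of_lt_of_le hz (min_le_right _ _)
  rw [mem_ball_zero_iff, Prod.norm_def, max_lt_iff]
  constructor <;> refine lt_of_pow_lt_pow_left₀ 2 hδ.le ?_ <;>
    nlinarith [sq_nonneg ‖z.1‖, sq_nonneg ‖z.2‖]

theorem zero_mem_B2 {r : ℝ} (h : 0 < r) : (0 : ℂ × ℂ) ∈ B2 r := by simpa [B2] using h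

theorem B2_mono {ρ r : ℝ} (h : ρ ≤ r) : B2 ρ ⊆ B2 r := fun _ hz => lt_of_lt_of_le hz h

theorem neg_mem_B2 {r : ℝ} {z : ℂ × ℂ} (h : z ∈ B2 r) : -z ∈ B2 r := by simpa [B2] using h

theorem neg_mem_B0 {r : ℝ} {z : ℂ × ℂ} (h : z ∈ B0 r) : -z ∈ B0 r :=
  ⟨neg_mem_B2 h.1, fun h0 => h.2 (neg_eq_zero.1 h0)⟩

variable {X : Type} [TopologicalSpace X] [ChartedSpace HS.E4 X] {w : Tri X}
  {St : Fin 4 → Fin 4 → Std w} (Y : DC St)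

theorem cases (y : Y.Y) : (∃ z, y = Y.emb z) ∨ ∃ i j, y = Y.pt i j := by
  by_cases h : y ∈ range Y.emb
  · exact Or.inl (h.imp fun _ h => h.symm)
  · rw [Y.range_emb, mem_ofPred_eq] at h
    push Not at h
    exact Or.inr h

theorem ι_ι (y : Y.Y) : Y.ι (Y.ι y) = y := by
  rcases cases Y y with ⟨z, rfl⟩ | ⟨i, j, rfl⟩
  · rw [Y.ι_emb, Y.ι_emb, ← Y.cov.act_add, show (1 + 1 : ZMod 2) = 0 from rfl, Y.cov.act_zero]
  · rw [Y.ι_pt, Y.ι_pt]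

theorem isOpen_Yo : IsOpen Y.Yo := Y.emb_open.isOpen_range

theorem pr_ι {y : Y.Y} (h : y ∈ Y.Yo) : Y.pr (Y.ι y) = Y.pr y := by
  obtain ⟨z, rfl⟩ := h
  rw [Y.ι_emb, Y.pr_emb, Y.pr_emb, Y.cov.π_act]

theorem ι_mem {y : Y.Y} (h : y ∈ Y.Yo) : Y.ι y ∈ Y.Yo := by
  obtain ⟨z, rfl⟩ := h
  exact ⟨_, (Y.ι_emb z).symm⟩

theorem pr_eq {y y' : Y.Y} (h : y ∈ Y.Yo) (h' : y' ∈ Y.Yo) (e : Y.pr y = Y.pr y') :
    y' = y ∨ y' = Y.ι y := by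
  obtain ⟨z, rfl⟩ := h
  obtain ⟨z', rfl⟩ := h'
  rw [Y.pr_emb, Y.pr_emb] at e
  obtain ⟨g, rfl⟩ := Y.cov.trans z z' e
  rcases z2 g with rfl | rfl
  · exact Or.inl (by rw [Y.cov.act_zero])
  · exact Or.inr (Y.ι_emb z).symm

theorem pr_mem {y : Y.Y} (h : y ∈ Y.Yo) : Y.pr y ∈ Xo St := by
  obtain ⟨z, rfl⟩ := h
  rw [Y.pr_emb]
  exact Y.cov.mem z

theorem pr_surj {x : X} (h : x ∈ Xo St) : ∃ y ∈ Y.Yo, Y.pr y = x := by
  obtain ⟨V, -, h1, -, σ, -, h2, -⟩ := Y.cov.loc x h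
  exact ⟨_, ⟨σ x, rfl⟩, (Y.pr_emb _).trans (h2 x h1)⟩

/-- the image of a set in `X` -/
def dn (O : Set Y.Y) : Set X :=
  Y.pr '' (O ∩ Y.Yo) ∪ {x | ∃ i j, Y.pt i j ∈ O ∧ x ∈ (St i j).set}

theorem isOpen_dn [IsManifold (𝓡 4) ∞ X] [T2Space X] {O : Set Y.Y} (hO : IsOpen O) :
    IsOpen (dn Y O) := by
  have h1 : IsOpen (Y.pr '' (O ∩ Y.Yo)) := isOpen_image_bij (isOpen_Yo Y) Y.pr_smooth Y.pr_bij
    (hO.inter (isOpen_Yo Y)) inter_subset_right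
  rw [isOpen_iff_mem_nhds]
  rintro x (hx | ⟨i, j, hp, hx⟩)
  · exact mem_of_superset (h1.mem_nhds hx) subset_union_left
  · have hc : ContinuousAt (Y.ch i j) 0 := (Y.ch_smooth i j).continuousOn.continuousAt
      ((StdbH.isOpen_B2 _).mem_nhds (zero_mem_B2 (St i j).r_pos))
    obtain ⟨ρ, h2, h3, h4⟩ := B2_basis (hc.preimage_mem_nhds
      (hO.mem_nhds (by rwa [Y.ch_zero]))) (St i j).r_pos
    refine mem_of_superset (((stdb X w (St i j)).2.2.2.2.2.2.2.2.2.2.1 ρ h2 h3).mem_nhds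
      (Or.inl hx)) ?_
    rintro x' (hx' | ⟨z, hz, rfl⟩)
    · exact Or.inr ⟨i, j, hp, hx'⟩
    · have hz' : z ∈ B0 (St i j).r := ⟨B2_mono h3 hz.1, hz.2⟩
      exact Or.inl ⟨_, ⟨h4 hz.1, Y.ch_mem i j z hz'⟩, Y.pr_ch i j z hz'⟩

theorem inv_clopen [IsManifold (𝓡 4) ∞ X] [T2Space X] [ConnectedSpace X]
    (hd : ∀ i j i' j', (i, j) ≠ (i', j') → Disjoint (St i j).nb (St i' j').nb) {O : Set Y.Y}
    (hO : IsClopen O) (hι : ∀ y ∈ O, Y.ι y ∈ O) (h0 : Y.pt 0 0 ∈ O) : O = univ := by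
  have hc : (dn Y O)ᶜ = dn Y Oᶜ := by
    refine Subset.antisymm (fun x hx => ?_) ?_
    · by_cases h : x ∈ Xo St
      · obtain ⟨y, h1, rfl⟩ := pr_surj Y h
        exact Or.inl ⟨y, ⟨fun h2 => hx (Or.inl ⟨y, ⟨h2, h1⟩, rfl⟩), h1⟩, rfl⟩
      · rw [Xo, mem_ofPred_eq] at h
        push Not at h
        obtain ⟨i, j, h⟩ := h
        exact Or.inr ⟨i, j, fun h2 => hx (Or.inr ⟨i, j, h2, h⟩), h⟩
    · rintro x (⟨y, hy, rfl⟩ | ⟨i, j, h1, h2⟩) (⟨y', hy', e⟩ | ⟨i', j', h1', h2'⟩)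
      · rcases pr_eq Y hy'.2 hy.2 e with h | h
        · exact hy.1 (h ▸ hy'.1)
        · exact hy.1 (h ▸ hι _ hy'.1)
      · exact pr_mem Y hy.2 i' j' h2'
      · exact pr_mem Y hy'.2 i j (e ▸ h2)
      · refine (hd i j i' j' fun e => ?_).ne_of_mem ((stdb X w _).2.2.1 h2)
          ((stdb X w _).2.2.1 h2') rfl
        obtain ⟨rfl, rfl⟩ := Prod.mk.inj e
        exact h1 h1'
  have h1 : IsClopen (dn Y O) :=
    ⟨⟨hc ▸ isOpen_dn Y hO.compl.isOpen⟩, isOpen_dn Y hO.isOpen⟩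
  have h2 := h1.eq_univ ⟨_, Or.inr ⟨0, 0, h0, Or.inl rfl⟩⟩
  rw [h2, compl_univ] at hc
  refine eq_univ_of_forall fun y => by_contra fun hy => ?_
  rcases cases Y y with ⟨z, rfl⟩ | ⟨i, j, rfl⟩
  · exact (hc ▸ Or.inl ⟨_, ⟨hy, z, rfl⟩, rfl⟩ : Y.pr (Y.emb z) ∈ (∅ : Set X))
  · exact (hc ▸ Or.inr ⟨i, j, hy, Or.inl rfl⟩ : (St i j).q (0, 0) ∈ (∅ : Set X))

end YcH

open YcH in
theorem yconn : YCONN_statement := by
  intro _ X _ c Y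
  have key : ∀ O : Set Y.Y, IsClopen O → Y.pt 0 0 ∈ O → O = univ := fun O hO h0 => by
    have h := inv_clopen Y c.disj (hO.inter (hO.preimage Y.ι_smooth.continuous))
      (fun y hy => ⟨hy.2, by rw [mem_preimage, ι_ι]; exact hy.1⟩)
      ⟨h0, by rw [mem_preimage, Y.ι_pt]; exact h0⟩
    exact eq_univ_of_univ_subset (h ▸ inter_subset_left)
  have : PreconnectedSpace Y.Y := preconnectedSpace_iff_clopen.2 fun O hO => by
    by_cases h : Y.pt 0 0 ∈ O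
    · exact Or.inr (key O hO h)
    · exact Or.inl (compl_univ_iff.1 (key _ hO.compl h))
  exact { toNonempty := ⟨Y.pt 0 0⟩ }

end Vale.Agent.P247Y
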