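import Vale.Agent.P247Y.Sta
import Vale.Agent.P247Y.LocInv

/-!
# P247, block Y: the product structure given by two transverse foliations by tori
-/

set_option linter.all false

open scoped Manifold ContDiff Topology
open Set Filter Metric Function

noncomputable section

namespace Vale.Agent.P247Y

open Vale.Agent.P247.SCY hiding dm
open Vale.Agent.P247.SCY.HS
open Vale.Agent.P247X
open Vale.Agent.P247.H74 (R4 e P2)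
open Vale.Agent.P247.H574 (tr)

namespace Prd

theorem coord_ex {τ : ℂ} (h : 0 < τ.im) (z : ℂ) : ∃ s t : ℝ, z = s + t * τ :=
  ⟨z.re - z.im / τ.im * τ.re, z.im / τ.im, by
    apply Complex.ext <;> simp [-Complex.ofReal_div]
    field_simp⟩

theorem coord_inj {τ : ℂ} (h : 0 < τ.im) {s t s' t' : ℝ} (e : (s : ℂ) + t * τ = s' + t' * τ) :
    s = s' ∧ t = t' := by
  have h1 := congrArg Complex.im e
  have h2 := congrArg Complex.re e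
  simp at h1 h2
  obtain rfl := h1.resolve_right h.ne'
  exact ⟨by linarith, rfl⟩

/-- `x i + x j * τ` -/
def lc (τ : ℂ) (i j : Fin 4) : R4 →L[ℝ] ℂ :=
  (ContinuousLinearMap.proj i : R4 →L[ℝ] ℝ).smulRight 1 +
    (ContinuousLinearMap.proj j : R4 →L[ℝ] ℝ).smulRight τ

theorem lc_apply (τ : ℂ) (i j : Fin 4) (x : R4) : lc τ i j x = x i + x j * τ := by simp [lc]

/-- `p.1 + p.2 * τ` -/
def lp (τ : ℂ) : P2 →L[ℝ] ℂ :=
  (ContinuousLinearMap.fst ℝ ℝ ℝ).smulRight 1 + (ContinuousLinearMap.snd ℝ ℝ ℝ).smulRight τ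

theorem lp_apply (τ : ℂ) (p : P2) : lp τ p = p.1 + p.2 * τ := by simp [lp]

theorem bij_of_inj {E F : Type} [NormedAddCommGroup E] [NormedSpace ℝ E] [FiniteDimensional ℝ E]
    [NormedAddCommGroup F] [NormedSpace ℝ F] [FiniteDimensional ℝ F]
    (h : Module.finrank ℝ E = Module.finrank ℝ F) (A : E →L[ℝ] F) (hA : Injective A) :
    Bijective A :=
  ⟨hA, (LinearMap.injective_iff_surjective_of_finrank_eq_finrank (f := A.toLinearMap) h).1 hA⟩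

variable {Z : Type} [TopologicalSpace Z] [ChartedSpace HS.E4 Z] {J : EndF Z}

theorem dm_zero (u : ℂ → Z) (w : ℂ) : dm u w 0 = 0 := (mfderiv 𝓘(ℝ, ℂ) (𝓡 4) u w).map_zero

theorem dm_lin (u : ℂ → Z) (w a b : ℂ) (s t : ℝ) :
    dm u w (s * a + t * b) = s • dm u w a + t • dm u w b := by
  let A : ℂ →L[ℝ] HS.E4 := mfderiv 𝓘(ℝ, ℂ) (𝓡 4) u w
  change A (s • a + t • b) = s • A a + t • A b
  rw [map_add, map_smul, map_smul]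

theorem dm_I (hJ : ∀ x u, J x (J x u) = -u) (T : Tor J) (w a : ℂ) :
    dm T.u w (Complex.I * a) = J (T.u w) (dm T.u w a) := by
  have h : ∀ s t : ℝ, dm T.u w (s + t * Complex.I) =
      s • dm T.u w 1 + t • J (T.u w) (dm T.u w 1) := fun s t => by
    rw [← T.hol w, ← dm_lin, mul_one]
  have e1 : Complex.I * a = (-a.im : ℝ) + a.re * Complex.I := by
    apply Complex.ext <;> simp
  rw [e1, h, ← Complex.re_add_im a, h, map_add, map_smul, map_smul, hJ]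
  simp [add_comm]

theorem dm_coef (hJ : ∀ x u, J x (J x u) = -u) (T : Tor J) (w a c : ℂ) :
    dm T.u w (c * a) = c.re • dm T.u w a + c.im • J (T.u w) (dm T.u w a) := by
  rw [← dm_I hJ, ← dm_lin, ← mul_assoc, ← add_mul, Complex.re_add_im]

theorem dm_inj (hJ : ∀ x u, J x (J x u) = -u) (T : Tor J) (w a : ℂ) (h : dm T.u w a = 0) :
    a = 0 := by
  by_contra h0
  apply T.imm w
  rw [← inv_mul_cancel₀ h0, dm_coef hJ, h]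
  simp

theorem cplx (hJ : ∀ x u, J x (J x u) = -u) (T : Tor J) {w α β : ℂ} {z : Z} (hz : T.u w = z)
    {u v : TangentSpace (𝓡 4) z} (hu : (u : HS.E4) = dm T.u w α) (hv : (v : HS.E4) = dm T.u w β)
    (u0 : u ≠ 0) : ∃ a b : ℝ, v = a • u + b • J z u := by
  subst hz hu hv
  have h0 : α ≠ 0 := by
    rintro rfl
    exact u0 (map_zero _)
  exact ⟨_, _, by rw [← dm_coef hJ T w α (β / α), div_mul_cancel₀ _ h0]⟩

theorem Tor.md (T : Tor J) (w : ℂ) : MDifferentiableAt 𝓘(ℝ, ℂ) (𝓡 4) T.u w :=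
  (T.smooth w).mdifferentiableAt (by simp)

theorem der_eq {π : Z → P2} {U : Set Z} (hU : IsOpen U)
    (hπ : ContMDiffOn (𝓡 4) 𝓘(ℝ, P2) ∞ π U) {Q : R4 → Z} {x : R4}
    (hQ : MDifferentiableAt 𝓘(ℝ, R4) (𝓡 4) Q x) (S : Tor J) (l : R4 →L[ℝ] ℂ) (h1 : Q x ∈ U)
    (h2 : S.u (l x) ∈ U) (h : ∀ᶠ y in 𝓝 x, π (Q y) = π (S.u (l y))) (v : R4) :
    (mfderiv (𝓡 4) 𝓘(ℝ, P2) π (Q x) (dm4 Q x v) : P2) =
      mfderiv (𝓡 4) 𝓘(ℝ, P2) π (S.u (l x)) (dm S.u (l x) (l v)) := by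
  have a1 := (hπ.contMDiffAt (hU.mem_nhds h1)).mdifferentiableAt (by simp)
  have a2 := (hπ.contMDiffAt (hU.mem_nhds h2)).mdifferentiableAt (by simp)
  have a3 := (a2.hasMFDerivAt.comp (l x) (Tor.md S _).hasMFDerivAt).comp x l.hasMFDerivAt
  have a4 := (a1.hasMFDerivAt.comp x hQ.hasMFDerivAt).congr_of_eventuallyEq
    (f₁ := (π ∘ S.u) ∘ l) (h.mono fun y hy => hy.symm)
  exact congrArg (fun A : R4 →L[ℝ] P2 => A v) (hasMFDerivAt_unique a4 a3)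

variable [IsManifold (𝓡 4) ∞ Z] [T2Space Z]

/-- a foliation chart around a leaf -/
theorem chart (hF : FOLB_statement) {𝓛 : Set Z → Prop} (h : Foli J 𝓛) {L : Set Z} (hL : 𝓛 L) :
    ∃ (U : Set Z) (π : Z → P2) (T : Tor J), IsOpen U ∧ L ⊆ U ∧ T.set = L ∧
      ContMDiffOn (𝓡 4) 𝓘(ℝ, P2) ∞ π U ∧ (∀ z ∈ L, π z = 0) ∧
      (∀ z ∈ U, ∀ z' ∈ U, π z = π z' → ∃ L', 𝓛 L' ∧ z ∈ L' ∧ z' ∈ L') ∧
      ∀ z w, T.u w = z → ∀ v : HS.E4, (mfderiv (𝓡 4) 𝓘(ℝ, P2) π z v : P2) = 0 →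
        ∃ a, v = (dm T.u w a : HS.E4) := by
  obtain ⟨F, rfl, h1⟩ := h.fol L hL
  obtain ⟨h2, h3, ⟨π, h4, h5⟩, -⟩ := hF Z J F
  have h0 : (0 : P2) ∈ ball (0 : P2) F.ε := mem_ball_self F.ε_pos
  obtain ⟨T, -, h6⟩ := h3 0 h0
  have hU : IsOpen F.img := h2 _ isOpen_ball Subset.rfl
  have hD : IsOpen (Dom F.ε) := isOpen_ball.prod isOpen_univ
  refine ⟨F.img, π, T, hU, ?_, ?_, h4, ?_, ?_, ?_⟩
  · rintro _ ⟨p, rfl⟩
    exact ⟨(0, p), ⟨h0, trivial⟩, rfl⟩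
  · ext z
    refine ⟨?_, fun ⟨p, hp⟩ => ⟨_, (h6 p).trans hp⟩⟩
    rintro ⟨w, rfl⟩
    obtain ⟨s, t, rfl⟩ := coord_ex T.τ_pos w
    exact ⟨(s, t), (h6 (s, t)).symm⟩
  · rintro _ ⟨p, rfl⟩
    exact h5 (0, p) ⟨h0, trivial⟩
  · rintro _ ⟨q, hq, rfl⟩ _ ⟨q', hq', rfl⟩ e
    rw [h5 q hq, h5 q' hq'] at e
    exact ⟨_, h1 q.1 hq.1, ⟨q.2, rfl⟩, q'.2, by rw [e]⟩
  · intro z w hz v hv
    obtain ⟨s, t, rfl⟩ := coord_ex T.τ_pos w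
    obtain rfl : F.Ψ (0, (s, t)) = z := (h6 (s, t)).symm.trans hz
    have hq : ((0 : P2), (s, t)) ∈ Dom F.ε := ⟨h0, trivial⟩
    obtain ⟨⟨α, β⟩, rfl⟩ := (F.bij _ hq).2 v
    have a1 := ((F.smooth.contMDiffAt (hD.mem_nhds hq)).mdifferentiableAt (by simp)).hasMFDerivAt
    have a2 := ((h4.contMDiffAt (hU.mem_nhds ⟨_, hq, rfl⟩)).mdifferentiableAt
      (by simp)).hasMFDerivAt
    have a3 := (a2.comp _ a1).congr_of_eventuallyEq (f₁ := ContinuousLinearMap.fst ℝ P2 P2)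
      (eventually_of_mem (hD.mem_nhds hq) fun q hq => (h5 q hq).symm)
    obtain rfl : α = 0 := (congrArg (fun A : P2 × P2 →L[ℝ] P2 => A (α, β))
      (hasMFDerivAt_unique (ContinuousLinearMap.fst ℝ P2 P2).hasMFDerivAt a3)).trans hv
    have a4 : HasMFDerivAt 𝓘(ℝ, P2) (𝓡 4) (F.Ψ ∘ ContinuousLinearMap.inr ℝ P2 P2) (s, t) _ :=
      a1.comp (s, t) (ContinuousLinearMap.inr ℝ P2 P2).hasMFDerivAt
    have a5 := (Tor.md T _).hasMFDerivAt.comp (s, t) (lp T.τ).hasMFDerivAt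
    have e : T.u ∘ lp T.τ = F.Ψ ∘ ContinuousLinearMap.inr ℝ P2 P2 := funext fun p => by
      rw [comp_apply, lp_apply, h6]
      rfl
    have a6 := a4.mfderiv
    rw [← e, a5.mfderiv] at a6
    refine ⟨lp T.τ β, ?_⟩
    rw [← lp_apply T.τ (s, t)]
    exact (congrArg (fun A : P2 →L[ℝ] HS.E4 => A β) a6).symm

/-- the local analysis of the product map -/
theorem loc (hF : FOLB_statement) {𝓛 𝓜 : Set Z → Prop} (hJ : ∀ x u, J x (J x u) = -u)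
    (h𝓛 : Foli J 𝓛) (h𝓜 : Foli J 𝓜) (hT : ∀ L M, 𝓛 L → 𝓜 M → OneT J L M) {A B : Tor J}
    (hA : 𝓛 A.set) (hB : 𝓜 B.set) {Q : R4 → Z}
    (hQ : ∀ x q, Q x = q ↔ (∃ L, 𝓛 L ∧ q ∈ L ∧ B.u (lc B.τ 2 3 x) ∈ L) ∧
      ∃ M, 𝓜 M ∧ q ∈ M ∧ A.u (lc A.τ 0 1 x) ∈ M) (x : R4) :
    ContMDiffAt 𝓘(ℝ, R4) (𝓡 4) ∞ Q x ∧ Bijective (dm4 Q x) ∧
      (∃ a b : ℝ, dm4 Q x (e 1) = a • dm4 Q x (e 0) + b • J (Q x) (dm4 Q x (e 0))) ∧
      ∃ a b : ℝ, dm4 Q x (e 3) = a • dm4 Q x (e 2) + b • J (Q x) (dm4 Q x (e 2)) := by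
  obtain ⟨⟨L, hL, qL, bL⟩, M, hM, qM, aM⟩ := (hQ x _).1 rfl
  obtain ⟨U, π, T, u1, u2, rfl, u3, u4, u5, u6⟩ := chart hF h𝓛 hL
  obtain ⟨U', π', T', v1, v2, rfl, v3, v4, v5, v6⟩ := chart hF h𝓜 hM
  obtain ⟨w, hw⟩ := id qL
  obtain ⟨w', hw'⟩ := id qM
  have s1 : ContMDiffOn (𝓡 4) 𝓘(ℝ, P2 × P2) ∞ (fun z => (π z, π' z)) (U ∩ U') :=
    (u3.mono inter_subset_left).prodMk_space (v3.mono inter_subset_right)
  have d3 := ((s1.contMDiffAt ((u1.inter v1).mem_nhds ⟨u2 qL, v2 qM⟩)).mdifferentiableAt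
    (by simp)).hasMFDerivAt
  have i1 : Injective (mfderiv (𝓡 4) 𝓘(ℝ, P2 × P2) (fun z => (π z, π' z)) (Q x)) := by
    refine (injective_iff_map_eq_zero _).2 fun v hv => ?_
    have e1 := congrArg (fun A : HS.E4 →L[ℝ] P2 => A v)
      ((ContinuousLinearMap.fst ℝ P2 P2).hasMFDerivAt.comp _ d3).mfderiv
    have e2 := congrArg (fun A : HS.E4 →L[ℝ] P2 => A v)
      ((ContinuousLinearMap.snd ℝ P2 P2).hasMFDerivAt.comp _ d3).mfderiv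
    obtain ⟨a, ha⟩ := u6 _ w hw v (e1.trans (congrArg Prod.fst hv))
    obtain ⟨b, hb⟩ := v6 _ w' hw' v (e2.trans (congrArg Prod.snd hv))
    obtain rfl := (hT _ _ hL hM).2 T T' rfl rfl w w' (hw.trans hw'.symm) a b (ha.symm.trans hb)
    exact ha.trans (map_zero _)
  obtain ⟨ε, e1, e2, e3, e4⟩ := locInv (u1.inter v1) s1 ⟨u2 qL, v2 qM⟩
    (bij_of_inj (E := HS.E4) (F := P2 × P2) (by simp) _ i1)
  have cB : ContMDiff 𝓘(ℝ, R4) (𝓡 4) ∞ fun y => B.u (lc B.τ 2 3 y) :=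
    B.smooth.comp (lc B.τ 2 3).contMDiff
  have cA : ContMDiff 𝓘(ℝ, R4) (𝓡 4) ∞ fun y => A.u (lc A.τ 0 1 y) :=
    A.smooth.comp (lc A.τ 0 1).contMDiff
  have s2 : ContMDiffAt 𝓘(ℝ, R4) 𝓘(ℝ, P2 × P2) ∞
      (fun y => (π (B.u (lc B.τ 2 3 y)), π' (A.u (lc A.τ 0 1 y)))) x :=
    ((u3.contMDiffAt (u1.mem_nhds (u2 bL))).comp x (cB x)).prodMk_space
      ((v3.contMDiffAt (v1.mem_nhds (v2 aM))).comp x (cA x))
  have t1 : ε.target ∈ 𝓝 (π (B.u (lc B.τ 2 3 x)), π' (A.u (lc A.τ 0 1 x))) := by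
    have := ε.map_source e1
    rw [e3, u4 _ qL, v4 _ qM] at this
    rw [u4 _ bL, v4 _ aM]
    exact ε.open_target.mem_nhds this
  have key : ∀ᶠ y in 𝓝 x, Q y = ε.symm (π (B.u (lc B.τ 2 3 y)), π' (A.u (lc A.τ 0 1 y))) ∧
      π (Q y) = π (B.u (lc B.τ 2 3 y)) ∧ π' (Q y) = π' (A.u (lc A.τ 0 1 y)) := by
    filter_upwards [s2.continuousAt.preimage_mem_nhds t1,
      cB.continuous.continuousAt.preimage_mem_nhds (u1.mem_nhds (u2 bL)),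
      cA.continuous.continuousAt.preimage_mem_nhds (v1.mem_nhds (v2 aM))] with y h1 h2 h3
    have h4 := ε.right_inv h1
    rw [e3, Prod.mk.injEq] at h4
    have h5 := e2 (ε.map_target h1)
    have h6 := (hQ y _).2 ⟨u5 _ h5.1 _ h2 h4.1, v5 _ h5.2 _ h3 h4.2⟩
    exact ⟨h6, by rw [h6]; exact h4⟩
  have sQ : ContMDiffAt 𝓘(ℝ, R4) (𝓡 4) ∞ Q x :=
    ((e4.contMDiffAt t1).comp x s2).congr_of_eventuallyEq (key.mono fun y hy => hy.1)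
  have dQ := sQ.mdifferentiableAt (by simp)
  have D1 := der_eq u1 u3 dQ B _ (u2 qL) (u2 bL) (key.mono fun y hy => hy.2.1)
  have D2 := der_eq v1 v3 dQ A _ (v2 qM) (v2 aM) (key.mono fun y hy => hy.2.2)
  have i2 : Injective (mfderiv 𝓘(ℝ, R4) (𝓡 4) Q x) := by
    refine (injective_iff_map_eq_zero _).2 fun (v : R4) (hv : dm4 Q x v = 0) => ?_
    obtain ⟨z, hz⟩ := bL
    obtain ⟨z', hz'⟩ := aM
    obtain ⟨a, ha⟩ := u6 _ z hz _ ((D1 v).symm.trans (by rw [hv]; exact map_zero _))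
    obtain ⟨b, hb⟩ := v6 _ z' hz' _ ((D2 v).symm.trans (by rw [hv]; exact map_zero _))
    obtain rfl := (hT _ _ hL hB).2 T B rfl rfl _ _ hz _ _ ha.symm
    have h1 := (hT _ _ hA hM).2 A T' rfl rfl _ _ hz'.symm _ _ hb
    have h2 := dm_inj hJ B _ _ (ha.trans (map_zero _))
    rw [lc_apply] at h1 h2
    have h3 := coord_inj A.τ_pos (s' := 0) (t' := 0) (h1.trans (by simp))
    have h4 := coord_inj B.τ_pos (s' := 0) (t' := 0) (h2.trans (by simp))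
    funext i
    fin_cases i
    exacts [h3.1, h3.2, h4.1, h4.2]
  have n0 (i : Fin 4) : dm4 Q x (e i) ≠ 0 := fun h => by
    have : e i = 0 := i2 (h.trans (map_zero _).symm)
    simpa [e] using congrFun this i
  have k1 (v : R4) (hv : lc B.τ 2 3 v = 0) := u6 _ w hw _ ((D1 v).trans (by
    rw [hv, dm_zero]; exact map_zero _))
  have k2 (v : R4) (hv : lc A.τ 0 1 v = 0) := v6 _ w' hw' _ ((D2 v).trans (by
    rw [hv, dm_zero]; exact map_zero _))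
  refine ⟨sQ, bij_of_inj (E := R4) (F := HS.E4) (by simp) _ i2, ?_, ?_⟩
  · obtain ⟨α, hα⟩ := k1 (e 0) (by simp [lc_apply, e])
    obtain ⟨β, hβ⟩ := k1 (e 1) (by simp [lc_apply, e])
    exact cplx hJ T hw hα hβ (n0 0)
  · obtain ⟨α, hα⟩ := k2 (e 2) (by simp [lc_apply, e])
    obtain ⟨β, hβ⟩ := k2 (e 3) (by simp [lc_apply, e])
    exact cplx hJ T' hw' hα hβ (n0 2)

end Prd

open Prd in
theorem PROD : PROD_statement := by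
  intro hF _ Z _ _ _ _ J 𝓛 𝓜 hJ h𝓛 h𝓜 hT A B hA hB h0
  have one {L M : Set Z} (hL : 𝓛 L) (hM : 𝓜 M) : (∃ q, q ∈ L ∧ q ∈ M) ∧
      ∀ q ∈ L, q ∈ M → ∀ q' ∈ L, q' ∈ M → q = q' := by
    obtain ⟨q, hq⟩ := (hT L M hL hM).1
    have h (z : Z) : z ∈ L ∧ z ∈ M ↔ z = q := Set.ext_iff.1 hq z
    exact ⟨⟨q, (h q).2 rfl⟩, fun a h1 h2 b h3 h4 => ((h a).1 ⟨h1, h2⟩).trans ((h b).1 ⟨h3, h4⟩).symm⟩
  have ex (x : R4) : ∃ p, ∀ q, p = q ↔ (∃ L, 𝓛 L ∧ q ∈ L ∧ B.u (lc B.τ 2 3 x) ∈ L) ∧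
      ∃ M, 𝓜 M ∧ q ∈ M ∧ A.u (lc A.τ 0 1 x) ∈ M := by
    obtain ⟨L, hL, h1⟩ := h𝓛.cov (B.u (lc B.τ 2 3 x))
    obtain ⟨M, hM, h2⟩ := h𝓜.cov (A.u (lc A.τ 0 1 x))
    obtain ⟨⟨p, h3, h4⟩, h5⟩ := one hL hM
    refine ⟨p, fun q => ⟨fun e => e ▸ ⟨⟨L, hL, h3, h1⟩, M, hM, h4, h2⟩, ?_⟩⟩
    rintro ⟨⟨L', hL', h6, h7⟩, M', hM', h8, h9⟩
    obtain rfl := h𝓛.uniq _ _ hL hL' ⟨_, h1, h7⟩
    obtain rfl := h𝓜.uniq _ _ hM hM' ⟨_, h2, h9⟩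
    exact h5 _ h3 h4 _ h6 h8
  choose Q hQ using ex
  have H := loc hF hJ h𝓛 h𝓜 hT hA hB hQ
  simp only [lc_apply] at hQ
  refine ⟨Q, fun x => (H x).1, fun x => (H x).2.1, fun z => ?_, fun x y => ⟨fun h => ?_, ?_⟩,
    fun x => ?_, fun x => (H x).2.2.1, fun x => (H x).2.2.2, fun s t => ?_, fun s t => ?_⟩
  · obtain ⟨L, hL, h1⟩ := h𝓛.cov z
    obtain ⟨M, hM, h2⟩ := h𝓜.cov z
    obtain ⟨_, h3, w, rfl⟩ := (one hL hB).1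
    obtain ⟨_, ⟨w', rfl⟩, h4⟩ := (one hA hM).1
    obtain ⟨s, t, rfl⟩ := coord_ex B.τ_pos w
    obtain ⟨s', t', rfl⟩ := coord_ex A.τ_pos w'
    exact ⟨![s', t', s, t], (hQ _ _).2 ⟨⟨L, hL, h1, h3⟩, M, hM, h2, h4⟩⟩
  · obtain ⟨⟨L, hL, h1, h2⟩, M, hM, h3, h4⟩ := (hQ x _).1 rfl
    obtain ⟨⟨L', hL', h5, h6⟩, M', hM', h7, h8⟩ := (hQ y _).1 h.symm
    obtain rfl := h𝓛.uniq _ _ hL hL' ⟨_, h1, h5⟩
    obtain rfl := h𝓜.uniq _ _ hM hM' ⟨_, h3, h7⟩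
    obtain ⟨m, n, e1⟩ := B.inj _ _ ((one hL hB).2 _ h2 ⟨_, rfl⟩ _ h6 ⟨_, rfl⟩)
    obtain ⟨m', n', e2⟩ := A.inj _ _ ((one hA hM).2 _ ⟨_, rfl⟩ h4 _ ⟨_, rfl⟩ h8)
    have e3 := coord_inj B.τ_pos (s' := x 2 + m) (t' := x 3 + n) (e1.trans (by push_cast; ring))
    have e4 := coord_inj A.τ_pos (s' := x 0 + m') (t' := x 1 + n') (e2.trans (by push_cast; ring))
    refine ⟨![m', n', m, n], funext fun i => ?_⟩
    fin_cases i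
    exacts [e4.1, e4.2, e3.1, e3.2]
  · rintro ⟨k, rfl⟩
    have e1 (T : Tor J) (i j : Fin 4) :
        T.u (tr k x i + tr k x j * T.τ) = T.u (x i + x j * T.τ) := by
      rw [← T.per (k i) (k j) (x i + x j * T.τ), tr, tr]
      congr 1
      push_cast
      ring
    refine (hQ x _).2 ?_
    rw [← e1 A, ← e1 B]
    exact (hQ _ _).1 rfl
  · obtain ⟨⟨L, hL, h1, h2⟩, M, hM, h3, h4⟩ := (hQ x _).1 rfl
    exact ⟨L, M, hL, hM, h1, h3, h2, h4⟩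
  · obtain ⟨M, hM, h1⟩ := h𝓜.cov (A.u (s + t * A.τ))
    exact (hQ _ _).2 ⟨⟨_, hA, ⟨_, rfl⟩, 0, by simpa using h0⟩, M, hM, h1, h1⟩
  · obtain ⟨L, hL, h1⟩ := h𝓛.cov (B.u (s + t * B.τ))
    exact (hQ _ _).2 ⟨⟨L, hL, h1, h1⟩, _, hB, ⟨_, rfl⟩, 0, by simpa using h0.symm⟩

end Vale.Agent.P247Y
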