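import Vale.Agent.P247Y.Dc

/-!
# P247, block Y: two foliations by tori, the open-closed argument
-/

set_option linter.all false

open scoped Manifold ContDiff Topology
open Set Filter Metric Function

noncomputable section

namespace Vale.Agent.P247Y.MeH

open Vale.Agent.P247.SCY hiding dm
open Vale.Agent.P247.SCY.HS
open Vale.Agent.P247X
open Vale.Agent.P247.H74 (P2)

variable {Z : Type} [TopologicalSpace Z] [ChartedSpace HS.E4 Z] {J : EndF Z}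

theorem line_der {u : ℂ → Z} {z : ℂ} (h : MDifferentiableAt 𝓘(ℝ, ℂ) (𝓡 4) u z) (a : ℂ) :
    MDifferentiableAt 𝓘(ℝ, ℝ) (𝓡 4) (fun t : ℝ => u (z + t • a)) 0 ∧
    (mfderiv 𝓘(ℝ, ℝ) (𝓡 4) (fun t : ℝ => u (z + t • a)) 0 (1 : ℝ) : HS.E4) =
      (dm u z a : HS.E4) := by
  have h1 : HasFDerivAt (fun t : ℝ => z + t • a) ((ContinuousLinearMap.id ℝ ℝ).smulRight a) 0 :=
    ((hasFDerivAt_id (0 : ℝ)).smul_const a).const_add z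
  have h2 : HasMFDerivAt 𝓘(ℝ, ℂ) (𝓡 4) u (z + (0 : ℝ) • a) (mfderiv 𝓘(ℝ, ℂ) (𝓡 4) u z) := by
    rw [zero_smul, add_zero]
    exact h.hasMFDerivAt
  have h3 := h2.comp (0 : ℝ) h1.hasMFDerivAt
  refine ⟨h3.mdifferentiableAt, (DFunLike.congr_fun h3.mfderiv (1 : ℝ)).trans ?_⟩
  exact congrArg (mfderiv 𝓘(ℝ, ℂ) (𝓡 4) u z) (one_smul ℝ a)

theorem der0 {P : Z → P2 × P2} {u : ℂ → Z} {w : ℂ} {x : Z} (hx : u w = x)
    (hP : MDifferentiableAt (𝓡 4) 𝓘(ℝ, P2 × P2) P x) (hu : MDifferentiableAt 𝓘(ℝ, ℂ) (𝓡 4) u w)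
    (A : P2 × P2 →L[ℝ] P2) {k : P2} (h : ∀ w, A (P (u w)) = k) (a : ℂ) :
    A (mfderiv (𝓡 4) 𝓘(ℝ, P2 × P2) P x (dm u w a : HS.E4)) = 0 := by
  subst hx
  have h1 := (A.hasMFDerivAt.comp _ (hP.hasMFDerivAt.comp w hu.hasMFDerivAt)).mfderiv
  rw [show A ∘ P ∘ u = fun _ => k from funext h, mfderiv_const] at h1
  exact (DFunLike.congr_fun h1 a).symm

theorem bij (A : HS.E4 →L[ℝ] P2 × P2) (h : Injective A) : Bijective A :=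
  ⟨h, (LinearMap.injective_iff_surjective_of_finrank_eq_finrank (f := A.toLinearMap)
    (by simp)).1 h⟩

/-- `p.1 + p.2 * τ` -/
def lp (τ : ℂ) : P2 →L[ℝ] ℂ :=
  (ContinuousLinearMap.fst ℝ ℝ ℝ).smulRight 1 + (ContinuousLinearMap.snd ℝ ℝ ℝ).smulRight τ

theorem lp_apply (τ : ℂ) (p : P2) : lp τ p = p.1 + p.2 * τ := by simp [lp]

variable [IsManifold (𝓡 4) ∞ Z] [T2Space Z]

/-- a saturated foliation chart around a leaf -/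
theorem chart (hF : FOLB_statement) {𝓛 : Set Z → Prop} (h : Foli J 𝓛) {L : Set Z} (hL : 𝓛 L)
    {O : Set Z} (hO : IsOpen O) (hLO : L ⊆ O) :
    ∃ (U : Set Z) (π : Z → P2) (T : Tor J), IsOpen U ∧ L ⊆ U ∧ U ⊆ O ∧ T.set = L ∧
      ContMDiffOn (𝓡 4) 𝓘(ℝ, P2) ∞ π U ∧
      (∀ L', 𝓛 L' → ∀ z ∈ L', z ∈ U → ∀ z', z' ∈ L' ↔ z' ∈ U ∧ π z' = π z) ∧
      ∀ z w, T.u w = z → ∀ v : HS.E4, (mfderiv (𝓡 4) 𝓘(ℝ, P2) π z v : P2) = 0 →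
        ∃ a, v = (dm T.u w a : HS.E4) := by
  obtain ⟨F₀, rfl, g1⟩ := h.fol L hL
  obtain ⟨ε, g2, g3, g4⟩ := (hF Z J F₀).2.2.2.1 O hO hLO
  obtain ⟨F, rfl, g5, -⟩ := (hF Z J F₀).2.2.2.2 ε g2 g3
  have g6 : ∀ y, F₀.leaf y = F.leaf y := fun y => by rw [Fol.leaf, Fol.leaf, g5]
  have h1 : ∀ y ∈ ball (0 : P2) F.ε, 𝓛 (F.leaf y) := fun y hy =>
    g6 y ▸ g1 y (ball_subset_ball g3 hy)
  rw [← g5] at g4
  rw [g6]
  obtain ⟨h2, h3, ⟨π, h4, h5⟩, -⟩ := hF Z J F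
  have h0 : (0 : P2) ∈ ball (0 : P2) F.ε := mem_ball_self F.ε_pos
  obtain ⟨T, -, h6⟩ := h3 0 h0
  have hU : IsOpen F.img := h2 _ isOpen_ball Subset.rfl
  refine ⟨F.img, π, T, hU, F.leaf_sub h0, g4, leaf_eq h6, h4, ?_, ?_⟩
  · rintro L' hL' _ hz ⟨q, hq, rfl⟩ z'
    rw [h.uniq _ _ hL' (h1 _ hq.1) ⟨_, hz, q.2, rfl⟩, h5 q hq]
    constructor
    · rintro ⟨p, rfl⟩
      exact ⟨⟨(q.1, p), mem_dom.2 hq.1, rfl⟩, h5 (q.1, p) (mem_dom.2 hq.1)⟩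
    · rintro ⟨⟨q', hq', rfl⟩, e⟩
      rw [h5 q' hq'] at e
      exact ⟨q'.2, by rw [← e]⟩
  · intro z w hz v hv
    obtain ⟨p, rfl⟩ := cz_surj T.τ_pos w
    obtain rfl : F.Ψ (0, p) = z := (h6 p).symm.trans hz
    have hq := F.zero_mem p
    obtain ⟨⟨α, β⟩, rfl⟩ := (F.bij _ hq).2 v
    have a1 := ((F.at hq).mdifferentiableAt (by simp)).hasMFDerivAt
    have a2 := ((h4.contMDiffAt (hU.mem_nhds ⟨_, hq, rfl⟩)).mdifferentiableAt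
      (by simp)).hasMFDerivAt
    have a3 := (a2.comp _ a1).congr_of_eventuallyEq (f₁ := ContinuousLinearMap.fst ℝ P2 P2)
      (eventually_of_mem ((dom_open _).mem_nhds hq) fun q hq => (h5 q hq).symm)
    obtain rfl : α = 0 := (congrArg (fun A : P2 × P2 →L[ℝ] P2 => A (α, β))
      (hasMFDerivAt_unique (ContinuousLinearMap.fst ℝ P2 P2).hasMFDerivAt a3)).trans hv
    have a4 : HasMFDerivAt 𝓘(ℝ, P2) (𝓡 4) (F.Ψ ∘ ContinuousLinearMap.inr ℝ P2 P2) p _ :=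
      a1.comp p (ContinuousLinearMap.inr ℝ P2 P2).hasMFDerivAt
    have a5 := (Tor.mdiff T _).hasMFDerivAt.comp p (lp T.τ).hasMFDerivAt
    have e : T.u ∘ lp T.τ = F.Ψ ∘ ContinuousLinearMap.inr ℝ P2 P2 := funext fun p => by
      rw [comp_apply, lp_apply, h6]
      rfl
    have a6 := a4.mfderiv
    rw [← e, a5.mfderiv] at a6
    refine ⟨lp T.τ β, ?_⟩
    rw [cz, ← lp_apply T.τ p]
    exact (congrArg (fun A : P2 →L[ℝ] HS.E4 => A β) a6).symm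

theorem leaf_cpt (hF : FOLB_statement) {𝓛 : Set Z → Prop} (h : Foli J 𝓛) {L : Set Z} (hL : 𝓛 L) :
    IsCompact L ∧ L.Nonempty := by
  obtain ⟨-, -, T, -, -, -, rfl, -⟩ := chart hF h hL isOpen_univ (subset_univ _)
  exact ⟨Tor.cpt T, Tor.ne T⟩

/-- saturated neighbourhoods -/
theorem sat (hF : FOLB_statement) {𝓛 : Set Z → Prop} (h : Foli J 𝓛) {L : Set Z} (hL : 𝓛 L)
    {O : Set Z} (hO : IsOpen O) (hLO : L ⊆ O) {y : Z} (hy : y ∈ L) :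
    ∀ᶠ z in 𝓝 y, ∀ L', 𝓛 L' → z ∈ L' → L' ⊆ O := by
  obtain ⟨U, π, -, h1, h2, h3, -, -, h4, -⟩ := chart hF h hL hO hLO
  filter_upwards [h1.mem_nhds (h2 hy)] with z hz L' k1 k2 z' k3
  exact h3 ((h4 L' k1 z k2 hz z').1 k3).1

variable {𝓛 𝓜 : Set Z → Prop}

theorem closed_meet (hF : FOLB_statement) (h𝓛 : Foli J 𝓛) (h𝓜 : Foli J 𝓜) :
    IsClosed {p : Z × Z | ∃ L M, 𝓛 L ∧ 𝓜 M ∧ p.1 ∈ L ∧ p.2 ∈ M ∧ (L ∩ M).Nonempty} := by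
  rw [← isOpen_compl_iff, isOpen_iff_mem_nhds]
  rintro ⟨y, y'⟩ hp
  obtain ⟨L, hL, h1⟩ := h𝓛.cov y
  obtain ⟨M, hM, h2⟩ := h𝓜.cov y'
  obtain ⟨U, V, o1, o2, o3, o4, o5⟩ := SeparatedNhds.of_isCompact_isCompact
    (leaf_cpt hF h𝓛 hL).1 (leaf_cpt hF h𝓜 hM).1
    (not_disjoint_iff_nonempty_inter.not_right.2 fun h => hp ⟨L, M, hL, hM, h1, h2, h⟩)
  filter_upwards [prod_mem_nhds (sat hF h𝓛 hL o1 o3 h1) (sat hF h𝓜 hM o2 o4 h2)] with p hq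
  rintro ⟨L', M', k1, k2, k3, k4, z, k5, k6⟩
  exact disjoint_left.1 o5 (hq.1 L' k1 k3 k5) (hq.2 M' k2 k4 k6)

theorem open_one (hF : FOLB_statement) (hJ : ∀ x u, J x (J x u) = -u) (h𝓛 : Foli J 𝓛)
    (h𝓜 : Foli J 𝓜) :
    IsOpen {p : Z × Z | ∀ L M, 𝓛 L → 𝓜 M → p.1 ∈ L → p.2 ∈ M → OneT J L M} := by
  rw [isOpen_iff_mem_nhds]
  rintro ⟨y, y'⟩ hp
  obtain ⟨L, hL, h1⟩ := h𝓛.cov y
  obtain ⟨M, hM, h2⟩ := h𝓜.cov y'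
  obtain ⟨⟨q, hq⟩, hT⟩ := hp L M hL hM h1 h2
  obtain ⟨qL, qM⟩ : q ∈ L ∩ M := hq ▸ rfl
  obtain ⟨U, π, T, u1, u2, -, rfl, u3, u5, u6⟩ := chart hF h𝓛 hL isOpen_univ (subset_univ _)
  obtain ⟨U', π', T', v1, v2, -, rfl, v3, v5, v6⟩ := chart hF h𝓜 hM isOpen_univ (subset_univ _)
  obtain ⟨w, hw⟩ := id qL
  obtain ⟨w', hw'⟩ := id qM
  have s1 : ContMDiffOn (𝓡 4) 𝓘(ℝ, P2 × P2) ∞ (fun z => (π z, π' z)) (U ∩ U') :=
    (u3.mono inter_subset_left).prodMk_space (v3.mono inter_subset_right)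
  have d3 := ((s1.contMDiffAt ((u1.inter v1).mem_nhds ⟨u2 qL, v2 qM⟩)).mdifferentiableAt
    (by simp)).hasMFDerivAt
  have i1 : Injective (mfderiv (𝓡 4) 𝓘(ℝ, P2 × P2) (fun z => (π z, π' z)) q) := by
    refine (injective_iff_map_eq_zero _).2 fun v hv => ?_
    have e1 := congrArg (fun A : HS.E4 →L[ℝ] P2 => A v)
      ((ContinuousLinearMap.fst ℝ P2 P2).hasMFDerivAt.comp _ d3).mfderiv
    have e2 := congrArg (fun A : HS.E4 →L[ℝ] P2 => A v)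
      ((ContinuousLinearMap.snd ℝ P2 P2).hasMFDerivAt.comp _ d3).mfderiv
    obtain ⟨a, ha⟩ := u6 _ w hw v (e1.trans (congrArg Prod.fst hv))
    obtain ⟨b, hb⟩ := v6 _ w' hw' v (e2.trans (congrArg Prod.snd hv))
    obtain rfl := hT T T' rfl rfl w w' (hw.trans hw'.symm) a b (ha.symm.trans hb)
    exact ha.trans (map_zero _)
  obtain ⟨ε, e1, e2, e3, e4⟩ := locInv (u1.inter v1) s1 ⟨u2 qL, v2 qM⟩
    (bij _ i1)
  obtain ⟨A, B, o1, o2, o3, o4, o5⟩ := SeparatedNhds.of_isCompact_isCompact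
    ((Tor.cpt T).diff ε.open_source) (Tor.cpt T') (disjoint_left.2 fun z k1 k2 => k1.2 (by
      rw [show z = q from (hq.subset ⟨k1.1, k2⟩ :)]
      exact e1))
  have t1 : ε.target ∈ 𝓝 (π y, π' y') := by
    have := ε.map_source e1
    rw [e3, ((u5 _ hL y h1 (u2 h1) q).1 qL).2, ((v5 _ hM y' h2 (v2 h2) q).1 qM).2] at this
    exact ε.open_target.mem_nhds this
  have c1 : ContinuousAt (fun p : Z × Z => (π p.1, π' p.2)) (y, y') :=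
    ((u3.continuousOn.continuousAt (u1.mem_nhds (u2 h1))).comp continuousAt_fst).prodMk
      ((v3.continuousOn.continuousAt (v1.mem_nhds (v2 h2))).comp continuousAt_snd)
  filter_upwards [prod_mem_nhds (sat hF h𝓛 hL (o1.union ε.open_source) (fun z hz =>
      (em (z ∈ ε.source)).symm.imp (fun h => o3 ⟨hz, h⟩) id) h1) (sat hF h𝓜 hM o2 o4 h2),
    prod_mem_nhds (u1.mem_nhds (u2 h1)) (v1.mem_nhds (v2 h2)), c1.preimage_mem_nhds t1]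
    with p k1 k2 k3 L' M' hL' hM' k4 k5
  have m1 := u5 L' hL' _ k4 k2.1
  have m2 := v5 M' hM' _ k5 k2.2
  have m3 : ∀ x ∈ L' ∩ M', x ∈ ε.source := fun x hx =>
    (k1.1 L' hL' k4 hx.1).resolve_left fun h => disjoint_left.1 o5 h (k1.2 M' hM' k5 hx.2)
  refine ⟨⟨ε.symm (π p.1, π' p.2), eq_singleton_iff_unique_mem.2 ⟨?_, fun x hx => ?_⟩⟩, ?_⟩
  · have h4 := ε.right_inv k3
    rw [e3, Prod.mk.injEq] at h4
    have h5 := e2 (ε.map_target k3)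
    exact ⟨(m1 _).2 ⟨h5.1, h4.1⟩, (m2 _).2 ⟨h5.2, h4.2⟩⟩
  · rw [← ((m1 x).1 hx.1).2, ← ((m2 x).1 hx.2).2, ← e3, ε.left_inv (m3 x hx)]
  · rintro S S' rfl rfl z z' h a b hab
    have hx := m3 (S.u z) ⟨⟨z, rfl⟩, z', h.symm⟩
    have s2 : ContMDiffOn (𝓡 4) 𝓘(ℝ, P2 × P2) ∞ ε ε.source :=
      (s1.mono e2).congr fun x _ => e3 x
    have s3 := (s2.contMDiffAt (ε.open_source.mem_nhds hx)).mdifferentiableAt (by simp)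
    have r1 := der0 rfl s3 (Tor.mdiff S z) (ContinuousLinearMap.fst ℝ P2 P2) (k := π p.1)
      (fun w => by rw [e3]; exact ((m1 _).1 ⟨w, rfl⟩).2) a
    have r2 := der0 h.symm s3 (Tor.mdiff S' z') (ContinuousLinearMap.snd ℝ P2 P2) (k := π' p.2)
      (fun w => by rw [e3]; exact ((m2 _).1 ⟨w, rfl⟩).2) b
    rw [← hab] at r2
    exact Tor.dm_inj S hJ z (((mfderiv_bij ε s2 e4 hx).1
      ((Prod.ext r1 r2).trans (map_zero _).symm)).trans (map_zero _).symm)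

theorem all_one [ConnectedSpace Z] (hF : FOLB_statement) (hJ : ∀ x u, J x (J x u) = -u)
    (h𝓛 : Foli J 𝓛) (h𝓜 : Foli J 𝓜) {ι : Z → Z} (hc : Continuous ι) (hι : ∀ z, ι (ι z) = z)
    (hM : ∀ M, 𝓜 M → 𝓜 (ι '' M)) {z₀ : Z} (h0 : ι z₀ = z₀)
    (H : ∀ L M, 𝓛 L → 𝓜 M → (L ∩ M).Nonempty → (L ∩ ι '' M).Nonempty → OneT J L M) :
    ∀ L M, 𝓛 L → 𝓜 M → OneT J L M := by
  let W := {p : Z × Z | ∃ L M, 𝓛 L ∧ 𝓜 M ∧ p.1 ∈ L ∧ p.2 ∈ M ∧ (L ∩ M).Nonempty}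
  let O := {p : Z × Z | ∀ L M, 𝓛 L → 𝓜 M → p.1 ∈ L → p.2 ∈ M → OneT J L M}
  let j : Z × Z → Z × Z := fun p => (p.1, ι p.2)
  have hj : Continuous j := continuous_fst.prodMk (hc.comp continuous_snd)
  have h1 : O ⊆ W := fun p hp => by
    obtain ⟨L, k1, k2⟩ := h𝓛.cov p.1
    obtain ⟨M, k3, k4⟩ := h𝓜.cov p.2
    obtain ⟨q, hq⟩ := (hp L M k1 k3 k2 k4).1
    exact ⟨L, M, k1, k3, k2, k4, hq ▸ singleton_nonempty q⟩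
  have h2 : ∀ p ∈ W, j p ∈ W → p ∈ O := by
    rintro p ⟨L₁, M₁, a1, a2, a3, a4, a5⟩ ⟨L₂, M₂, b1, b2, b3, b4, b5⟩ L M k1 k2 k3 k4
    rw [h𝓛.uniq _ _ a1 k1 ⟨_, a3, k3⟩, h𝓜.uniq _ _ a2 k2 ⟨_, a4, k4⟩] at a5
    rw [h𝓛.uniq _ _ b1 k1 ⟨_, b3, k3⟩, h𝓜.uniq _ _ b2 (hM _ k2) ⟨_, b4, _, k4, rfl⟩] at b5
    exact H L M k1 k2 a5 b5
  have h3 : W ∩ j ⁻¹' W = O ∩ j ⁻¹' O :=
    subset_antisymm (fun p hp => ⟨h2 p hp.1 hp.2, h2 _ hp.2 (by simpa only [j, hι] using hp.1)⟩)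
      (inter_subset_inter h1 (preimage_mono h1))
  have h4 : IsClopen (O ∩ j ⁻¹' O) :=
    ⟨h3 ▸ (closed_meet hF h𝓛 h𝓜).inter ((closed_meet hF h𝓛 h𝓜).preimage hj),
      (open_one hF hJ h𝓛 h𝓜).inter ((open_one hF hJ h𝓛 h𝓜).preimage hj)⟩
  have h5 : (z₀, z₀) ∈ W := by
    obtain ⟨L, k1, k2⟩ := h𝓛.cov z₀
    obtain ⟨M, k3, k4⟩ := h𝓜.cov z₀
    exact ⟨L, M, k1, k3, k2, k4, _, k2, k4⟩
  have h6 := h4.eq_univ ⟨(z₀, z₀), h3 ▸ ⟨h5, by simpa only [mem_preimage, j, h0] using h5⟩⟩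
  intro L M k1 k2
  obtain ⟨y, hy⟩ := (leaf_cpt hF h𝓛 k1).2
  obtain ⟨y', hy'⟩ := (leaf_cpt hF h𝓜 k2).2
  exact (h6.ge (mem_univ (y, y'))).1 L M k1 k2 hy hy'

end Vale.Agent.P247Y.MeH
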