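import Vale.Agent.P247Y.Ator

/-!
# P247, block Y: assembly with the tori over the spheres already proved
-/

set_option linter.all false

open scoped Manifold ContDiff Topology
open Set

noncomputable section

namespace Vale.Agent.P247Y

open Vale.Agent.P247X

theorem asmy2 (pre : Pre) (cov : COV_statement) (dcx : DCX_statement) (yconn : YCONN_statement)
    (prt : PRT_statement) (near : NEAR_statement) (openg : OPENG_statement)
    (closed : CLOSED_statement) (foli : FOLI_statement) (meet : MEET_statement)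
    (prod : PROD_statement) (kpfin : KPFIN_statement) : KUM_statement := by
  intro X _ μ top M K w hw rep St disj clsd C D clsC clsD
  let c : Ctx X := ⟨μ, top, M, K, w, hw, rep, St, disj, clsd, C, D, clsC, clsD⟩
  obtain ⟨⟨Z, hZ⟩, hcov⟩ := cov pre.bb X c
  obtain ⟨Y⟩ := dcx pre.stdb X c Z hZ
  have g1 := pre.geom pre.bb pre.stdb X c
  have g2 := pre.geom pre.bb pre.stdb X c.t
  have hA : ∀ i, ∃ T : Tor Y.P.J, OddTor Y (c.C i) (fun _ => i) id T := fun i =>
    ator Y (C i) (fun _ => i) id disj (fun a b h => (Prod.mk.inj h).2) (fun k => g1.Cd i k)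
      (fun a b h => g1.Cd' i a b fun h' => h b (by rw [h']; rfl))
  have hB : ∀ j, ∃ T : Tor Y.P.J, OddTor Y (c.D j) id (fun _ => j) T := fun j =>
    ator Y (D j) id (fun _ => j) disj (fun a b h => (Prod.mk.inj h).1) (fun k => g2.Cd j k)
      (fun a b h => g2.Cd' j b a fun h' => h a (by rw [h']; rfl))
  choose A hA using hA
  choose B hB using hB
  obtain ⟨γ₁, Z₁, h₁⟩ := hcov false
  obtain ⟨γ₂, Z₂, h₂⟩ := hcov true
  let f : FCtx c Y := ⟨false, γ₁, Z₁, h₁, A, B, hA, hB⟩
  let g : FCtx c Y := ⟨true, γ₂, Z₂, h₂, A, B, hA, hB⟩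
  obtain ⟨f1, f2⟩ := foli pre prt yconn near openg closed X c Y f
  obtain ⟨f3, f4⟩ := foli pre prt yconn near openg closed X c Y g
  exact kpfin pre prod X c Y f g rfl rfl f1 f3 f2 f4
    (meet pre prt yconn X c Y f g rfl rfl f1 f3 f4)

end Vale.Agent.P247Y
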