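import Vale.Agent.P247Y.Dcx1
import Vale.Agent.P247S.A0

/-!
# P247, block Y: the smooth structure, the forms and the almost complex structure of `Y`
-/

set_option linter.unusedSectionVars false

open scoped Manifold ContDiff Topology
open Set Filter Metric Function

noncomputable section

namespace Vale.Agent.P247Y

open Vale.Agent.P247.SCY
open Vale.Agent.P247.SCY.HS
open Vale.Agent.P247X

namespace DcH

open YcH StdbH

section chain

variable {E F G : Type} [NormedAddCommGroup E] [NormedSpace ℝ E] [NormedAddCommGroup F]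
  [NormedSpace ℝ F] [NormedAddCommGroup G] [NormedSpace ℝ G]
  {M N P : Type} [TopologicalSpace M] [ChartedSpace E M] [TopologicalSpace N] [ChartedSpace F N]
  [TopologicalSpace P] [ChartedSpace G P]

variable (E F) in
/-- the differential, as a map of the model spaces -/
def D (f : M → N) (x : M) : E →L[ℝ] F := mfderiv 𝓘(ℝ, E) 𝓘(ℝ, F) f x

/-- the chain rule -/
theorem chain {f : M → N} {g : N → P} {h : M → P} {x : M} {y : N} (hy : f x = y)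
    (hg : ContMDiffAt 𝓘(ℝ, F) 𝓘(ℝ, G) ∞ g y) (hf : ContMDiffAt 𝓘(ℝ, E) 𝓘(ℝ, F) ∞ f x)
    (e : ∀ᶠ z in 𝓝 x, h z = g (f z)) (v : E) : D E G h x v = D F G g y (D E F f x v) := by
  subst hy
  have h1 := mfderiv_comp x (hg.mdifferentiableAt (by simp)) (hf.mdifferentiableAt (by simp))
  have h2 : D E G h x = D E G (g ∘ f) x := EventuallyEq.mfderiv_eq e
  rw [h2]
  exact congrArg (fun B : E →L[ℝ] G => B v) h1

theorem D_lin (A : E →L[ℝ] F) (x v : E) : D E F A x v = A v :=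
  congrArg (fun B : E →L[ℝ] F => B v) (A.mfderiv_eq (x := x))

end chain

/-- the standard forms -/
def Ω (l : ℂ →L[ℝ] ℝ) : P247S.Al2 (ℂ × ℂ) :=
  P247S.a2 (((ContinuousLinearMap.compL ℝ ℂ ℂ ℝ l).comp (ContinuousLinearMap.mul ℝ ℂ)).bilinearComp
    (ContinuousLinearMap.fst ℝ ℂ ℂ) (ContinuousLinearMap.snd ℝ ℂ ℂ))

theorem Ω_apply (l : ℂ →L[ℝ] ℝ) (a b : ℂ × ℂ) : Ω l ![a, b] = 2 * l (om0 a b) := by
  rw [Ω, P247S.a2_apply]
  change l (a.1 * b.2) - l (b.1 * a.2) = _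
  rw [← map_sub, ← smul_eq_mul (2 : ℝ), ← map_smul]
  congr 1
  simp only [om0, Complex.real_smul]
  push_cast
  ring

/-- real and imaginary part -/
def ri (s : ℝ) : Fin 2 → ℂ →L[ℝ] ℝ := ![Complex.reCLM, s • Complex.imCLM]

/-- multiplication by `i` -/
def mI : (ℂ × ℂ) →L[ℝ] (ℂ × ℂ) := (Complex.I • ContinuousLinearMap.id ℂ (ℂ × ℂ)).restrictScalars ℝ

theorem om0_I (a b : ℂ × ℂ) : om0 (Complex.I • a) (Complex.I • b) = -om0 a b := by
  simp only [om0, Prod.smul_fst, Prod.smul_snd, smul_eq_mul]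
  linear_combination (a.1 * b.2 - a.2 * b.1) / 2 * Complex.I_mul_I

variable {X : Type} [TopologicalSpace X] [ChartedSpace HS.E4 X] {w : Tri X}

theorem ind_of {μ : Form X 4} (hw : Hypersymplectic μ w) (x : X) (a b : ℝ)
    (h : ∀ u v : HS.E4, a * w 0 x ![u, v] + b * w 1 x ![u, v] = 0) : a = 0 ∧ b = 0 := by
  by_contra hn
  have h1 := tri_of_posDef hw.posDef x a b 0 (by tauto)
  have h2 : ∀ i j, a * w 0 x ![tbas x i, tbas x j] + b * w 1 x ![tbas x i, tbas x j] = 0 :=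
    fun i j => h _ _
  refine h1.ne' ?_
  simp only [quot, wedge]
  linear_combination (2 * ((a * w 0 x ![tbas x 2, tbas x 3] + b * w 1 x ![tbas x 2, tbas x 3]) *
    h2 0 1 - (a * w 0 x ![tbas x 1, tbas x 3] + b * w 1 x ![tbas x 1, tbas x 3]) * h2 0 2 +
    (a * w 0 x ![tbas x 1, tbas x 2] + b * w 1 x ![tbas x 1, tbas x 2]) * h2 0 3)) / μ x (tbas x)

namespace In

variable {St : Fin 4 → Fin 4 → Std w} (I : In St) [IsManifold (𝓡 4) ∞ X] [T2Space X]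

theorem opn : IsOpen (range I.emb) := I.emb_open.isOpen_range

variable {I}

theorem atl_at {M : Type} [TopologicalSpace M] [ChartedSpace HS.E4 M] [IsManifold (𝓡 4) ∞ M]
    {c : OpenPartialHomeomorph M HS.E4} (h : c ∈ atlas HS.E4 M) {x} (hx : x ∈ c.source) :
    ContMDiffAt (𝓡 4) (𝓡 4) ∞ c x := (atl_sm h).contMDiffAt (c.open_source.mem_nhds hx)

theorem atl_symm_at {M : Type} [TopologicalSpace M] [ChartedSpace HS.E4 M] [IsManifold (𝓡 4) ∞ M]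
    {c : OpenPartialHomeomorph M HS.E4} (h : c ∈ atlas HS.E4 M) {x} (hx : x ∈ c.target) :
    ContMDiffAt (𝓡 4) (𝓡 4) ∞ c.symm x := (atl_symm_sm h).contMDiffAt (c.open_target.mem_nhds hx)

theorem pr_loc {y : I.Y} (hy : y ∈ range I.emb) :
    ContMDiffAt (𝓡 4) (𝓡 4) ∞ I.pr y ∧ Bijective (D HS.E4 HS.E4 I.pr y) := by
  have he := chart_mem_atlas HS.E4 y
  have hs := mem_chart_source HS.E4 y
  set e := chartAt HS.E4 y
  obtain ⟨h1, h2⟩ := pr_symm he (a := e y) ⟨e.map_source hs, by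
    rw [mem_preimage, e.left_inv hs]; exact hy⟩
  have h3 : ∀ᶠ z in 𝓝 y, I.pr z = (I.pr ∘ e.symm) (e z) :=
    (e.eventually_left_inverse hs).mono fun z hz => by rw [comp_apply, hz]
  refine ⟨(h1.comp y (atl_at he hs)).congr_of_eventuallyEq h3, ?_⟩
  rw [show ⇑(D HS.E4 HS.E4 I.pr y) = _ from funext (chain rfl h1 (atl_at he hs) h3)]
  exact h2.comp (mfderiv_bij e (atl_sm he) (atl_symm_sm he) hs)

theorem TB.mem {k e} (h : I.TB k e) {z} (hz : z ∈ B2 (St k.1 k.2).r) :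
    I.ch k z ∈ e.source ∧ T z ∈ e.target ∧ e.symm (T z) = I.ch k z := by
  have h1 : I.ch k z ∈ e.source := h.1 ▸ mem_image_of_mem _ hz
  rw [← h.2 z hz]
  exact ⟨h1, e.map_source h1, e.left_inv h1⟩

theorem T_sm (z) : ContMDiffAt 𝓘(ℝ, ℂ × ℂ) (𝓡 4) ∞ T z := T.contDiff.contMDiff.contMDiffAt

theorem T_symm_sm (z) : ContMDiffAt (𝓡 4) 𝓘(ℝ, ℂ × ℂ) ∞ T.symm z :=
  T.symm.contDiff.contMDiff.contMDiffAt

theorem D_T (z v) : D (ℂ × ℂ) HS.E4 T z v = T v := D_lin (T : (ℂ × ℂ) →L[ℝ] HS.E4) z v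

theorem D_T_symm (z v) : D HS.E4 (ℂ × ℂ) T.symm z v = T.symm v :=
  D_lin (T.symm : HS.E4 →L[ℝ] (ℂ × ℂ)) z v

theorem ch_loc {k z} (hz : z ∈ B2 (St k.1 k.2).r) :
    ContMDiffAt 𝓘(ℝ, ℂ × ℂ) (𝓡 4) ∞ (I.ch k) z ∧ Bijective (D (ℂ × ℂ) HS.E4 (I.ch k) z) := by
  obtain ⟨e, h⟩ := I.ex_TB k
  have he : e ∈ atlas HS.E4 I.Y := Or.inr ⟨k, h⟩
  have h1 := atl_symm_at he (h.mem hz).2.1
  have h3 : ∀ᶠ y in 𝓝 z, I.ch k y = e.symm (T y) :=
    eventually_of_mem ((isOpen_B2 _).mem_nhds hz) fun y hy => (h.mem hy).2.2.symm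
  refine ⟨(h1.comp z (T_sm z)).congr_of_eventuallyEq h3, ?_⟩
  rw [show ⇑(D (ℂ × ℂ) HS.E4 (I.ch k) z) = _ from
    funext fun v => (chain rfl h1 (T_sm z) h3 v).trans (congrArg _ (D_T z v))]
  exact (mfderiv_bij e.symm (atl_symm_sm he) (atl_sm he) (h.mem hz).2.1).comp T.bijective

theorem ch_mem {k z} (hz : z ∈ B0 (St k.1 k.2).r) : I.ch k z ∈ range I.emb :=
  ⟨_, (I.ch_ne k hz.2).symm⟩

theorem D_pr_ch {k z} (hz : z ∈ B0 (St k.1 k.2).r) (v) :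
    D HS.E4 HS.E4 I.pr (I.ch k z) (D (ℂ × ℂ) HS.E4 (I.ch k) z v) =
      D (ℂ × ℂ) HS.E4 (sq (St k.1 k.2)) z v :=
  (chain rfl (pr_loc (ch_mem hz)).1 (ch_loc hz.1).1
    (eventually_of_mem ((isOpen_B0 _).mem_nhds hz) fun _ hy => (I.pr_ch k hy).symm) v).symm

theorem pr_ι (y : I.Y) : I.pr (I.ι y) = I.pr y := by
  rcases I.cases y with ⟨z, rfl⟩ | ⟨k, rfl⟩
  · exact I.Z.π_act 1 z
  · rfl

theorem ι_mem {y : I.Y} (h : y ∈ range I.emb) : I.ι y ∈ range I.emb := by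
  obtain ⟨z, rfl⟩ := h
  exact ⟨I.Z.act 1 z, rfl⟩

theorem neg_sm (z) : ContMDiffAt 𝓘(ℝ, ℂ × ℂ) 𝓘(ℝ, ℂ × ℂ) ∞ (fun z : ℂ × ℂ => -z) z :=
  contDiff_neg.contMDiff.contMDiffAt

theorem ι_sm : ContMDiff (𝓡 4) (𝓡 4) ∞ I.ι := by
  intro y
  rcases I.cases y with ⟨z, rfl⟩ | ⟨k, rfl⟩
  · refine lift_sm I.opn (fun y hy => (pr_loc hy).1.contMDiffWithinAt) (ι_mem ⟨z, rfl⟩)
      (pr_loc (ι_mem ⟨z, rfl⟩)).2.1 ?_ ?_
    · exact I.emb_open.continuousAt_iff.1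
        (I.emb_open.continuous.comp (I.Z.act_cont 1)).continuousAt
    · simp only [pr_ι]
      exact (pr_loc ⟨z, rfl⟩).1
  · obtain ⟨e, h⟩ := I.ex_TB k
    have he : e ∈ atlas HS.E4 I.Y := Or.inr ⟨k, h⟩
    have h0 := zero_mem_B2 (St k.1 k.2).r_pos
    have h1 : I.pt k ∈ e.source := I.ch_zero k ▸ (h.mem h0).1
    have h2 : -T.symm (e (I.pt k)) ∈ B2 (St k.1 k.2).r := neg_mem_B2 (h.symm (e.map_source h1)).1
    refine ((ch_loc h2).1.comp (f := fun y => -T.symm (e y)) _ ((neg_sm _).comp _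
      ((T_symm_sm _).comp _ (atl_at he h1)))).congr_of_eventuallyEq ?_
    filter_upwards [e.open_source.mem_nhds h1] with y hy
    rw [comp_apply, I.ch_neg k (h.symm (e.map_source hy)).1, ← (h.symm (e.map_source hy)).2,
      e.left_inv hy]

variable (I)

/-- the differential of the projection -/
def dpr (z : I.Z.Z) : HS.E4 ≃L[ℝ] HS.E4 := eqv _ (pr_loc (I := I) ⟨z, rfl⟩).2

/-- the differential of the chart at a fixed point -/
def dch (k : Fin 4 × Fin 4) : (ℂ × ℂ) ≃L[ℝ] HS.E4 :=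
  eqv _ (ch_loc (I := I) (zero_mem_B2 (St k.1 k.2).r_pos)).2

/-- the two forms -/
def η (j : Fin 2) : I.Y → P247S.Al2 HS.E4 :=
  Sum.elim (fun z => (w j.castSucc (I.Z.π z)).compContinuousLinearMap (I.dpr z : HS.E4 →L[ℝ] HS.E4))
    fun k => (Ω (ri (St k.1 k.2).s j)).compContinuousLinearMap
      ((I.dch k).symm : HS.E4 →L[ℝ] (ℂ × ℂ))

/-- the almost complex structure -/
def J : I.Y → HS.E4 →L[ℝ] HS.E4 :=
  Sum.elim (fun z => ((I.dpr z).symm : HS.E4 →L[ℝ] HS.E4).comp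
      ((P204.Mfd.Jat (Jw w) (I.Z.π z)).comp (I.dpr z : HS.E4 →L[ℝ] HS.E4)))
    fun k => (I.dch k : (ℂ × ℂ) →L[ℝ] HS.E4).comp (mI.comp ((I.dch k).symm : HS.E4 →L[ℝ] (ℂ × ℂ)))

variable {I}

theorem η_pr (j) {y} (hy : y ∈ range I.emb) (u v : HS.E4) : I.η j y ![u, v] =
    w j.castSucc (I.pr y) ![D HS.E4 HS.E4 I.pr y u, D HS.E4 HS.E4 I.pr y v] := by
  obtain ⟨z, rfl⟩ := hy
  exact P247S.comp2_apply (V := HS.E4) (W := HS.E4) _ _ u v

theorem J_pr {y} (hy : y ∈ range I.emb) (u : HS.E4) :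
    D HS.E4 HS.E4 I.pr y (I.J y u) = P204.Mfd.Jat (Jw w) (I.pr y) (D HS.E4 HS.E4 I.pr y u) := by
  obtain ⟨z, rfl⟩ := hy
  exact (I.dpr z).apply_symm_apply _

theorem η_ch (j) {k z} (hz : z ∈ B2 (St k.1 k.2).r) (a b) :
    I.η j (I.ch k z) ![D (ℂ × ℂ) HS.E4 (I.ch k) z a, D (ℂ × ℂ) HS.E4 (I.ch k) z b] =
      Ω (ri (St k.1 k.2).s j) ![a, b] := by
  by_cases h0 : z = 0
  · subst h0
    rw [ch_zero]
    refine (P247S.comp2_apply _ _ (I.dch k a) (I.dch k b)).trans ?_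
    simp
  · rw [η_pr j (ch_mem ⟨hz, h0⟩), D_pr_ch ⟨hz, h0⟩, D_pr_ch ⟨hz, h0⟩, Ω_apply]
    have h := (loc_sq _ ⟨hz, h0⟩).2.2 a b
    refine (form_congr _ (I.pr_ch k ⟨hz, h0⟩) rfl rfl).trans ?_
    fin_cases j
    · exact h.1
    · exact h.2.1.trans (mul_assoc _ _ _)

theorem J_ch {k z} (hz : z ∈ B2 (St k.1 k.2).r) (a) :
    D (ℂ × ℂ) HS.E4 (I.ch k) z (Complex.I • a) =
      I.J (I.ch k z) (D (ℂ × ℂ) HS.E4 (I.ch k) z a) := by
  by_cases h0 : z = 0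
  · subst h0
    rw [ch_zero]
    change I.dch k _ = I.dch k (mI ((I.dch k).symm (I.dch k a)))
    rw [ContinuousLinearEquiv.symm_apply_apply]
    rfl
  · refine (pr_loc (I := I) (ch_mem ⟨hz, h0⟩)).2.1 ?_
    rw [J_pr (ch_mem ⟨hz, h0⟩), D_pr_ch ⟨hz, h0⟩, D_pr_ch ⟨hz, h0⟩, I.pr_ch k ⟨hz, h0⟩]
    exact ((loc_sq _ ⟨hz, h0⟩).2.2 a a).2.2

theorem at_pt (k) (u : HS.E4) : ∃ a, u = D (ℂ × ℂ) HS.E4 (I.ch k) 0 a :=
  ((ch_loc (zero_mem_B2 (St k.1 k.2).r_pos)).2.2 u).imp fun _ h => h.symm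

theorem J_ι (y : I.Y) (u : HS.E4) :
    D HS.E4 HS.E4 I.ι y (I.J y u) = I.J (I.ι y) (D HS.E4 HS.E4 I.ι y u) := by
  rcases I.cases y with ⟨z, rfl⟩ | ⟨k, rfl⟩
  · have h1 : I.emb z ∈ range I.emb := ⟨z, rfl⟩
    have h2 := chain rfl (pr_loc (ι_mem h1)).1 (ι_sm (I.emb z))
      (Eventually.of_forall fun y => (pr_ι y).symm)
    refine (pr_loc (ι_mem h1)).2.1 ?_
    rw [J_pr (ι_mem h1), ← h2, ← h2, J_pr h1, pr_ι]
  · have h0 := zero_mem_B2 (St k.1 k.2).r_pos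
    have key : ∀ v, D HS.E4 HS.E4 I.ι (I.pt k) v = -v := fun v => by
      obtain ⟨a, rfl⟩ := at_pt (I := I) k v
      rw [← chain (h := fun z => I.ch k (-z)) (I.ch_zero k) (ι_sm _) (ch_loc h0).1
        (eventually_of_mem ((isOpen_B2 _).mem_nhds h0) fun z hz => I.ch_neg k hz),
        chain neg_zero (ch_loc h0).1 (neg_sm 0) (Eventually.of_forall fun _ => rfl), ← map_neg]
      exact congrArg _ (D_lin (-ContinuousLinearMap.id ℝ (ℂ × ℂ)) 0 a)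
    rw [key, key, map_neg]
    rfl

theorem TA.D_symm {c e} (h : I.TA c e) {a} (ha : a ∈ e.target) (u) :
    D HS.E4 HS.E4 I.pr (e.symm a) (D HS.E4 HS.E4 e.symm a u) = D HS.E4 HS.E4 c.symm a u :=
  (chain rfl (pr_loc (h.2 _ (e.map_target ha)).1).1 (atl_symm_at (Or.inl ⟨c, h⟩) ha)
    (eventually_of_mem (e.open_target.mem_nhds ha) fun _ hb => (h.symm hb).2.symm) u).symm

theorem TB.D_symm {k e} (h : I.TB k e) {a} (ha : a ∈ e.target) (u) :
    D HS.E4 HS.E4 e.symm a u = D (ℂ × ℂ) HS.E4 (I.ch k) (T.symm a) (T.symm u) :=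
  (chain rfl (ch_loc (h.symm ha).1).1 (T_symm_sm a)
    (eventually_of_mem (e.open_target.mem_nhds ha) fun _ hb => (h.symm hb).2) u).trans
    (congrArg _ (D_T_symm a u))

theorem TA.loc_eq {c e} (h : I.TA c e) (j) : EqOn (loc e (I.η j)) (loc c (w j.castSucc)) e.target :=
  fun a ha => P247S.alt2_ext fun u v => by
    refine (P247S.comp2_apply (V := HS.E4) (W := HS.E4) _ _ u v).trans
      ((η_pr j (h.2 _ (e.map_target ha)).1 _ _).trans
        (Eq.trans ?_ (P247S.comp2_apply (V := HS.E4) (W := HS.E4) _ _ u v).symm))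
    exact form_congr _ (h.symm ha).2 (h.D_symm ha u) (h.D_symm ha v)

theorem TB.loc_eq {k e} (h : I.TB k e) (j) : EqOn (loc e (I.η j))
    (fun _ => (Ω (ri (St k.1 k.2).s j)).compContinuousLinearMap
      (T.symm : HS.E4 →L[ℝ] (ℂ × ℂ))) e.target :=
  fun a ha => P247S.alt2_ext fun u v => by
    refine (P247S.comp2_apply (V := HS.E4) (W := HS.E4) _ _ u v).trans
      (Eq.trans ?_ ((η_ch (I := I) j (h.symm ha).1 _ _).trans (P247S.comp2_apply _ _ u v).symm))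
    exact form_congr (X := I.Y) (I.η j) (h.symm ha).2 (h.D_symm ha u) (h.D_symm ha v)

theorem η_sc (hw : ∀ i, SC (w i)) (j) : SC (X := I.Y) (I.η j) := by
  refine ⟨?_, ?_⟩
  · rintro e (⟨c, h⟩ | ⟨k, h⟩)
    · exact (((hw _).1 c h.1).mono fun a ha => (h.symm ha).1).congr (h.loc_eq j)
    · exact contDiffOn_const.congr (h.loc_eq j)
  · rintro e (⟨c, h⟩ | ⟨k, h⟩) a ha
    · rw [((h.loc_eq j).eventuallyEq_of_mem (e.open_target.mem_nhds ha)).extDeriv_eq]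
      exact (hw _).2 c h.1 a (h.symm ha).1
    · rw [((h.loc_eq j).eventuallyEq_of_mem (e.open_target.mem_nhds ha)).extDeriv_eq]
      rw [extDeriv, fderiv_fun_const]
      exact map_zero (ContinuousAlternatingMap.alternatizeUncurryFinCLM ℝ HS.E4 ℝ (n := 2))

theorem J_smooth (hJ : P204.Mfd.SmoothEnd (Jw w)) : P204.Mfd.SmoothEnd (X := I.Y) I.J := by
  rintro e (⟨c, h⟩ | ⟨k, h⟩)
  · refine ((hJ c h.1).mono fun a ha => (h.symm ha).1).congr fun a ha => ?_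
    refine ContinuousLinearMap.ext fun u => ?_
    obtain ⟨h1, h2, -⟩ := h.2 _ (e.map_target ha)
    change D HS.E4 HS.E4 e (e.symm a) (I.J (e.symm a) (D HS.E4 HS.E4 e.symm a u)) =
      D HS.E4 HS.E4 c (c.symm a) (P204.Mfd.Jat (Jw w) (c.symm a) (D HS.E4 HS.E4 c.symm a u))
    rw [chain rfl (atl_at h.1 h2) (pr_loc h1).1 (eventually_of_mem
      (e.open_source.mem_nhds (e.map_target ha)) fun y hy => (h.2 y hy).2.2), J_pr h1,
      h.D_symm ha, (h.symm ha).2]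
  · refine (contDiffOn_const (c := (T : (ℂ × ℂ) →L[ℝ] HS.E4).comp
      (mI.comp (T.symm : HS.E4 →L[ℝ] (ℂ × ℂ))))).congr fun a ha => ?_
    refine ContinuousLinearMap.ext fun u => ?_
    obtain ⟨h1, h2⟩ := h.symm ha
    change D HS.E4 HS.E4 e (e.symm a) (I.J (e.symm a) (D HS.E4 HS.E4 e.symm a u)) =
      T (Complex.I • T.symm u)
    rw [h.D_symm ha, h2, ← J_ch h1, ← chain (h := T) rfl (atl_at (Or.inr ⟨k, h⟩) (h.mem h1).1)
      (ch_loc h1).1 (eventually_of_mem ((isOpen_B2 _).mem_nhds h1) fun z hz => (h.2 z hz).symm),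
      D_T]

end In

end DcH

open DcH DcH.In YcH in
theorem dcx : DCX_statement := by
  intro _ X _ c Z hZ
  choose ℓ h1 h2 h3 using hZ
  let I : In c.St := ⟨Z, c.disj, fun k => ℓ k.1 k.2, fun k => h1 k.1 k.2, fun k => h2 k.1 k.2,
    fun k => h3 k.1 k.2⟩
  have hd := defAt c.hw
  have hJ := Jf_almostComplex hd (c.hw.smooth 2) (c.hw.smooth 0) (c.hw.smooth 1)
  have h0 := fun k : Fin 4 × Fin 4 => zero_mem_B2 (c.St k.1 k.2).r_pos
  have hp : ∀ k a, I.J (I.pt k) (D (ℂ × ℂ) HS.E4 (I.ch k) 0 a) =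
      D (ℂ × ℂ) HS.E4 (I.ch k) 0 (Complex.I • a) := fun k a => by
    rw [J_ch (h0 k), I.ch_zero]
  have hη : ∀ j k a b, I.η j (I.pt k) ![D (ℂ × ℂ) HS.E4 (I.ch k) 0 a,
      D (ℂ × ℂ) HS.E4 (I.ch k) 0 b] = 2 * ri (c.St k.1 k.2).s j (om0 a b) := fun j k a b => by
    rw [← Ω_apply, ← η_ch j (h0 k), I.ch_zero]
  let P : PairJ I.Y :=
    { η := I.η
      sc := η_sc (hyp_sc c.hw)
      J := I.J
      ac := ⟨J_smooth hJ.smooth, fun y (v : HS.E4) => by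
        change I.J y (I.J y v) = -v
        rcases I.cases y with ⟨z, rfl⟩ | ⟨k, rfl⟩
        · refine (pr_loc (I := I) ⟨z, rfl⟩).2.1 ?_
          rw [J_pr ⟨z, rfl⟩, J_pr ⟨z, rfl⟩, map_neg]
          exact Jf_sq hd _ _
        · obtain ⟨a, rfl⟩ := at_pt (I := I) k v
          rw [hp, hp, smul_smul, Complex.I_mul_I, neg_one_smul, map_neg]⟩
      anti := fun j y (u v : HS.E4) => by
        change I.η j y ![I.J y u, I.J y v] = -I.η j y ![u, v]
        rcases I.cases y with ⟨z, rfl⟩ | ⟨k, rfl⟩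
        · rw [η_pr j ⟨z, rfl⟩, η_pr j ⟨z, rfl⟩, J_pr ⟨z, rfl⟩, J_pr ⟨z, rfl⟩]
          fin_cases j
          · exact Jf_anti_B hd _ _ _
          · exact Jf_anti_C hd _ _ _
        · obtain ⟨a, rfl⟩ := at_pt (I := I) k u
          obtain ⟨b, rfl⟩ := at_pt (I := I) k v
          rw [hp, hp, hη, hη, om0_I, map_neg, mul_neg]
      ind := fun y a b h => by
        change ∀ u v : HS.E4, a * I.η 0 y ![u, v] + b * I.η 1 y ![u, v] = 0 at h
        rcases I.cases y with ⟨z, rfl⟩ | ⟨k, rfl⟩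
        · refine ind_of c.hw (I.pr (I.emb z)) a b fun u v => ?_
          obtain ⟨u, rfl⟩ := (pr_loc (I := I) ⟨z, rfl⟩).2.2 u
          obtain ⟨v, rfl⟩ := (pr_loc (I := I) ⟨z, rfl⟩).2.2 v
          have := h u v
          rwa [η_pr 0 ⟨z, rfl⟩, η_pr 1 ⟨z, rfl⟩] at this
        · have e1 := h (D (ℂ × ℂ) HS.E4 (I.ch k) 0 (1, 0)) (D (ℂ × ℂ) HS.E4 (I.ch k) 0 (0, 1))
          have e2 := h (D (ℂ × ℂ) HS.E4 (I.ch k) 0 (Complex.I, 0))
            (D (ℂ × ℂ) HS.E4 (I.ch k) 0 (0, 1))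
          rw [hη, hη] at e1 e2
          have hs : (c.St k.1 k.2).s ≠ 0 := fun h => by simpa [h] using (c.St k.1 k.2).s_sq
          simp [ri, om0, hs] at e1 e2
          exact ⟨e1, e2⟩ }
  exact ⟨{
    Y := I.Y
    top := inferInstance
    chart := inferInstance
    mfd := inferInstance
    t2 := inferInstance
    cov := Z
    emb := I.emb
    emb_open := I.emb_open
    pt := fun i j => I.pt (i, j)
    pt_inj := fun i j i' j' h => Prod.mk.inj (I.pt_inj h)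
    range_emb := Set.ext fun y => ⟨by rintro ⟨z, rfl⟩ i j; exact I.emb_ne _ _, fun h => by
      rcases I.cases y with ⟨z, rfl⟩ | ⟨k, rfl⟩
      · exact ⟨z, rfl⟩
      · exact (h k.1 k.2 rfl).elim⟩
    pr := I.pr
    pr_emb := fun _ => rfl
    pr_smooth := fun y hy => (pr_loc hy).1.contMDiffWithinAt
    pr_bij := fun y hy => (pr_loc hy).2
    ι := I.ι
    ι_smooth := ι_sm
    ι_emb := fun _ => rfl
    ι_pt := fun _ _ => rfl
    ch := fun i j => I.ch (i, j)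
    ch_smooth := fun i j z hz => (ch_loc (k := (i, j)) hz).1.contMDiffWithinAt
    ch_bij := fun i j z hz => (ch_loc (k := (i, j)) hz).2
    ch_inj := fun i j => I.ch_inj (i, j)
    ch_zero := fun i j => I.ch_zero (i, j)
    ch_neg := fun i j z hz => I.ch_neg (i, j) hz
    ch_mem := fun i j z hz => ch_mem (k := (i, j)) hz
    pr_ch := fun i j z hz => I.pr_ch (i, j) hz
    P := P
    η_pr := fun j y hy u v => η_pr j hy u v
    J_pr := fun y hy u => J_pr hy u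
    J_ch := fun i j z hz a => J_ch (k := (i, j)) hz a
    J_ι := J_ι }⟩

end Vale.Agent.P247Y
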