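import Vale.Agent.P247Y.Cv

/-!
# P247, block Y: row LIMK
-/

set_option linter.all false

open scoped Manifold ContDiff Topology
open Set MeasureTheory Filter Metric

noncomputable section

namespace Vale.Agent.P247Y

open Vale.Agent.P247.SCY
open Vale.Agent.P247.SCY.HS
open Vale.Agent.P247X
open Vale.Agent.P290.H726
open Vale.Agent.P290Z.Lat (cs)

theorem Tor.preconn {X : Type} [TopologicalSpace X] [ChartedSpace HS.E4 X] {J : EndF X}
    (T : Tor J) : IsPreconnected T.set := isPreconnected_range T.smooth.continuous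

theorem limk : LIMK_statement := by
  classical
  intro pre X _ c ι 𝒰 K hK x hx hxC hacc
  have bb := pre.bb
  have hμ := c.hμ
  obtain ⟨m, S, a, h1, h2, h3⟩ := bb.siub X c.μ hμ c.w c.hw ι 𝒰 K
    (pair c.μ (c.cl c.K.F₁) (c.w 2)) fun n => ((hK n).2 _ (hyp_sc c.hw 2)).le
  choose m' E k hk hs hT using fun i => bb.dec X c.μ hμ c.w c.hw (S i) (h1 i).2.toPCur
    (bb.lsx X c.μ hμ c.w c.hw (S i) (h1 i).2)
  choose v hv hv0 hv1 hv2 using fun i l => cls bb X c (E i l)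
  have cu : ∀ i l, Cu c (E i l).K (v i l) := fun i l => ⟨E i l, rfl, hv i l⟩
  obtain ⟨n₀⟩ : Nonempty ι := (𝒰 : Filter ι).nonempty_of_neBot
  have cK : ∀ n, Cu c (K n).set c.K.F₁ := fun n => (cv_tor bb (K n) (hK n)).1
  have nn : ∀ i l, 0 ≤ c.ip (v i l) c.K.F₁ := by
    intro i l
    by_cases e : (E i l).K = (K n₀).set
    · rw [(cu i l).uniq bb (e ▸ cK n₀), c.F1_F1]
    · exact (cu i l).nonneg bb (cK n₀) e
  have zero : ∀ i l, c.ip (v i l) c.K.F₁ = 0 := by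
    have k1 := h2 _ (c.cl_sc c.K.F₁).cont
    have k2 : (fun n => (K n).int (c.cl c.K.F₁)) = fun _ => 0 := funext fun n => by
      rw [IsCls.ip c (hK n), c.F1_F1, Int.cast_zero]
    rw [k2] at k1
    have k3 := (tendsto_nhds_unique tendsto_const_nhds k1).symm
    have k4 : ∀ i, S i (c.cl c.K.F₁) = ∑ l, (k i l : ℝ) * (c.ip (v i l) c.K.F₁ : ℝ) := fun i => by
      rw [hT i _ (c.cl_sc c.K.F₁).cont]
      exact Finset.sum_congr rfl fun l _ => by rw [IsCls.ip c (hv i l)]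
    have k5 : ∀ i l, 0 ≤ (k i l : ℝ) * (c.ip (v i l) c.K.F₁ : ℝ) := fun i l =>
      mul_nonneg (Nat.cast_nonneg _) (by exact_mod_cast nn i l)
    intro i l
    have k6 := (Finset.sum_eq_zero_iff_of_nonneg fun i _ => mul_nonneg (h1 i).1.le
      (by rw [k4]; exact Finset.sum_nonneg fun l _ => k5 i l)).1 k3 i (Finset.mem_univ _)
    rw [mul_eq_zero, k4] at k6
    have k7 := (Finset.sum_eq_zero_iff_of_nonneg fun l _ => k5 i l).1
      (k6.resolve_left (h1 i).1.ne') l (Finset.mem_univ _)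
    have k8 : (k i l : ℝ) ≠ 0 := by
      have := hk i l
      exact_mod_cast (by omega : k i l ≠ 0)
    exact_mod_cast (mul_eq_zero.1 k7).resolve_left k8
  have hC := cv_C c bb
  have hd := cv_d c bb pre.stdb
  have key : ∀ i l, (∀ p q, (E i l).K ≠ (c.St p q).set) → (∀ p, (E i l).K ≠ (c.C p).set) →
      (∀ p q, c.ip (v i l) (c.K.d p q) = 0) ∧ (∀ p, c.ip (v i l) (c.K.C p) = 0) := by
    intro i l e1 e2
    have k1 := fun p q => (cu i l).nonneg bb (hd p q).1 (e1 p q)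
    have k2 := fun p => (cu i l).nonneg bb (hC p).1 (e2 p)
    have k3 : ∀ p, 2 * c.ip (v i l) (c.K.C p) + ∑ q, c.ip (v i l) (c.K.d p q) = 0 := fun p => by
      have := c.F1_ip p (v i l)
      rw [c.ip_comm, zero] at this
      simp only [c.ip_comm _ (v i l)] at this
      exact this.symm
    have k4 : ∀ p, 0 ≤ ∑ q, c.ip (v i l) (c.K.d p q) := fun p =>
      Finset.sum_nonneg fun q _ => k1 p q
    refine ⟨fun p q => (Finset.sum_eq_zero_iff_of_nonneg fun q _ => k1 p q).1 ?_ q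
      (Finset.mem_univ _), fun p => ?_⟩
    · have := k3 p
      have := k2 p
      have := k4 p
      omega
    · have := k3 p
      have := k2 p
      have := k4 p
      omega
  obtain ⟨i₀, hi₀⟩ := h3 x hacc
  rw [hs i₀] at hi₀
  obtain ⟨l₀, hl₀⟩ := mem_iUnion.1 hi₀
  have e1 : ∀ p q, (E i₀ l₀).K ≠ (c.St p q).set := fun p q e => hx p q (e ▸ hl₀)
  have e2 : ∀ p, (E i₀ l₀).K ≠ (c.C p).set := fun p e => hxC p (e ▸ hl₀)
  obtain ⟨z1, z2⟩ := key i₀ l₀ e1 e2
  have hF := c.eq_F1 (hv0 i₀ l₀) (hv1 i₀ l₀) z1 z2 0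
  have hall : ∀ i l, c.ip (v i₀ l₀) (v i l) = 0 := fun i l => by
    rw [hF, Ctx.ip, bil_smul_left]
    have := zero i l
    rw [c.ip_comm] at this
    simp only [Ctx.ip] at this
    rw [this, mul_zero]
  refine ⟨(E i₀ l₀).K, hl₀, fun y hy p q hy' => ?_, (E i₀ l₀).cpt, ?_, fun O hO hLO => ?_⟩
  · exact disjoint_left.1 ((cu i₀ l₀).disj bb (hd p q).1 (e1 p q) (z1 p q).le) hy hy'
  · refine (bb.adj X c.μ hμ c.w c.hw (E i₀ l₀) _ (hv i₀ l₀)).2.2 ?_
    rw [IsCls.ip c (hv i₀ l₀), hall, Int.cast_zero]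
  let R : Set X := ⋃ p : (Σ i, Fin (m' i)),
    if (E p.1 p.2).K = (E i₀ l₀).K then ∅ else (E p.1 p.2).K
  have hR : IsCompact R := isCompact_iUnion fun p => by
    split_ifs
    · exact isCompact_empty
    · exact (E p.1 p.2).cpt
  have hLR : Disjoint (E i₀ l₀).K R := disjoint_iUnion_right.2 fun p => by
    split_ifs with e
    · exact disjoint_empty _
    · exact (cu i₀ l₀).disj bb (cu p.1 p.2) (Ne.symm e) (hall _ _).le
  obtain ⟨O₁, O₂, o1, o2, o3, o4, o5⟩ :=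
    SeparatedNhds.of_isCompact_isCompact (E i₀ l₀).cpt hR hLR
  have hsub : ∀ᶠ n in (𝒰 : Filter ι), (K n).set ⊆ (O₁ ∩ O) ∪ O₂ := by
    by_contra hno
    rw [← Ultrafilter.eventually_not] at hno
    have hex : ∀ n, ∃ y, ¬ (K n).set ⊆ (O₁ ∩ O) ∪ O₂ → y ∈ (K n).set ∧ y ∉ (O₁ ∩ O) ∪ O₂ := by
      intro n
      by_cases h : (K n).set ⊆ (O₁ ∩ O) ∪ O₂
      · exact ⟨x, fun h' => (h' h).elim⟩
      · obtain ⟨y, hy⟩ := not_subset.1 h
        exact ⟨y, fun _ => hy⟩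
    choose y hy using hex
    have hcl : IsCompact ((O₁ ∩ O) ∪ O₂)ᶜ := ((o1.inter hO).union o2).isClosed_compl.isCompact
    obtain ⟨x', hx', hle⟩ := hcl.ultrafilter_le_nhds (𝒰.map y) (by
      rw [Ultrafilter.coe_map, le_principal_iff, mem_map]
      filter_upwards [hno] with n hn
      exact (hy n hn).2)
    obtain ⟨i, hi⟩ := h3 x' fun U hU => by
      have k1 : ∀ᶠ n in (𝒰 : Filter ι), y n ∈ U := hle hU
      filter_upwards [hno, k1] with n hn hn'
      exact ⟨y n, hn', (hy n hn).1⟩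
    rw [hs i] at hi
    obtain ⟨l, hl⟩ := mem_iUnion.1 hi
    by_cases e : (E i l).K = (E i₀ l₀).K
    · exact hx' (Or.inl ⟨o3 (e ▸ hl), hLO (e ▸ hl)⟩)
    · refine hx' (Or.inr (o4 (mem_iUnion.2 ⟨⟨i, l⟩, ?_⟩)))
      rwa [if_neg e]
  filter_upwards [hsub, hacc (O₁ ∩ O) ((o1.inter hO).mem_nhds ⟨o3 hl₀, hLO hl₀⟩)] with n k1 k2
  refine ((Tor.preconn (K n)).subset_left_of_subset_union (o1.inter hO) o2
    (o5.mono_left inter_subset_left) k1 ?_).trans inter_subset_right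
  rwa [inter_comm]

end Vale.Agent.P247Y
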