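import Vale.Agent.P247Y.Foli
import Vale.Agent.P247Y.Meet1

/-!
# P247, block Y: row MEET
-/

set_option linter.all false

open scoped Manifold ContDiff Topology
open Set Filter Metric Function

noncomputable section

namespace Vale.Agent.P247Y

open Vale.Agent.P247.SCY hiding dm
open Vale.Agent.P247.SCY.HS
open Vale.Agent.P247X
open Vale.Agent.P247.H74 (P2)

namespace MeH

variable {X : Type} [Cl4 X] {c : Ctx X} {Y : DC c.St}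

theorem line_pr (S : Tor Y.P.J) {w : ℂ} {q : Y.Y} (h : S.u w = q) (h0 : q ∈ Y.Yo) (a : ℂ) :
    MDifferentiableAt 𝓘(ℝ, ℝ) (𝓡 4) (fun t : ℝ => Y.pr (S.u (w + t • a))) 0 ∧
    (mfderiv 𝓘(ℝ, ℝ) (𝓡 4) (fun t : ℝ => Y.pr (S.u (w + t • a))) 0 (1 : ℝ) : HS.E4) =
      (mfderiv (𝓡 4) (𝓡 4) Y.pr q (dm S.u w a : HS.E4) : HS.E4) ∧
    ∀ᶠ t in 𝓝 (0 : ℝ), S.u (w + t • a) ∈ Y.Yo := by
  subst h
  have h1 := ((Y.pr_at h0).mdifferentiableAt (by simp)).hasMFDerivAt.comp w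
    (Tor.mdiff S w).hasMFDerivAt
  obtain ⟨h2, h3⟩ := line_der h1.mdifferentiableAt a
  refine ⟨h2, h3.trans (DFunLike.congr_fun h1.mfderiv a),
    (line_der (Tor.mdiff S w) a).1.continuousAt.eventually (Y.Yo_open.mem_nhds ?_)⟩
  simpa using h0

/-- pull-back of transversality -/
theorem one_pr {L M : Set Y.Y} {K K' : Set X} (hL : ∀ y ∈ L, y ∈ Y.Yo → Y.pr y ∈ K)
    (hM : ∀ y ∈ M, y ∈ Y.Yo → Y.pr y ∈ K') {q : Y.Y} (hq : L ∩ M = {q}) (h0 : q ∈ Y.Yo)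
    (ht : TransAt K K' (Y.pr q)) : OneT Y.P.J L M := by
  refine ⟨⟨q, hq⟩, ?_⟩
  rintro T T' rfl rfl z z' h a b hab
  have e : T.u z = q := hq.subset ⟨⟨z, rfl⟩, z', h.symm⟩
  obtain ⟨a1, a2, a3⟩ := line_pr T e h0 a
  obtain ⟨b1, b2, b3⟩ := line_pr T' (h.symm.trans e) h0 b
  have h1 := ht _ _ (by simp [e]) (by simp [← h, e]) a1 b1
    (a3.mono fun t k => hL _ ⟨_, rfl⟩ k) (b3.mono fun t k => hM _ ⟨_, rfl⟩ k)
    (by rw [a2, b2, hab])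
  rw [a2] at h1
  exact Tor.dm_inj T Y.P.ac.sq z (((Y.pr_bij q h0).1 (h1.trans (map_zero _).symm)).trans
    (map_zero _).symm)

theorem dirPt_smul (S : Std c.w) {t : ℂ} (ht : t ≠ 0) (a : ℂ × ℂ) :
    dirPt S (t • a) = dirPt S a := by
  unfold dirPt
  by_cases h : a.1 = 0
  · simp [h]
  · simp [h, ht, mul_div_mul_left]

theorem odd_tan (pre : Pre) {S : Sph (Jw c.w)} {i j : Fin 4 → Fin 4} {A : Tor Y.P.J}
    (h : OddTor Y S i j A) (k : Fin 4) : ∃ α : ℂ × ℂ, dirPt (c.St (i k) (j k)) α ∈ S.set ∧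
      ∀ T : Tor Y.P.J, T.set = A.set → ∀ z, T.u z = Y.pt (i k) (j k) → ∀ a, ∃ t : ℂ,
        (dm T.u z a : HS.E4) = (dm2 (Y.ch (i k) (j k)) 0 (t • α) : HS.E4) := by
  obtain ⟨σ, hσ⟩ := h.half
  obtain ⟨b, rfl⟩ := σ.surjective k
  obtain ⟨h1, α, -, h2, h3⟩ := hσ b
  refine ⟨α, h2, fun T e z hz a => ?_⟩
  obtain ⟨k1, k2⟩ := line_der (Tor.mdiff T z) a
  obtain ⟨t, ht⟩ := (pre.tang Y.Y Y.P.J Y.P.ac.sq _ k1).1 A (hp A.τ b)
    (Eventually.of_forall fun t => e ▸ ⟨_, rfl⟩) (by simp [hz, h1])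
  exact ⟨t, k2.symm.trans (ht.trans (h3 t))⟩

theorem one_ss (pre : Pre) {i j : Fin 4} {A B : Tor Y.P.J}
    (hA : OddTor Y (c.C i) (fun _ => i) id A) (hB : OddTor Y (c.D j) id (fun _ => j) B) :
    OneT Y.P.J A.set B.set := by
  have hd := disjoint_left.1 ((pre.geom pre.bb pre.stdb X c).CD i j)
  have e : A.set ∩ B.set = {Y.pt i j} := by
    rw [hA.set, hB.set]
    refine eq_singleton_iff_unique_mem.2 ⟨⟨Or.inr ⟨j, rfl⟩, Or.inr ⟨i, rfl⟩⟩, ?_⟩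
    rintro y ⟨⟨k1, k2⟩ | ⟨k, rfl⟩, ⟨k3, k4⟩ | ⟨k', e⟩⟩
    · exact (hd k2 k4).elim
    · exact (Y.pt_not _ _ (e ▸ k1)).elim
    · exact (Y.pt_not _ _ k3).elim
    · rw [← (Y.pt_inj _ _ _ _ e).2]
  refine ⟨⟨_, e⟩, fun T T' e1 e2 z z' h a b hab => ?_⟩
  have e3 : T.u z = Y.pt i j := e.subset ⟨e1 ▸ ⟨z, rfl⟩, e2 ▸ ⟨z', h.symm⟩⟩
  obtain ⟨α, a1, a2⟩ := odd_tan pre hA j
  obtain ⟨β, b1, b2⟩ := odd_tan pre hB i
  obtain ⟨s, hs⟩ := a2 T e1 z e3 a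
  obtain ⟨t, ht⟩ := b2 T' e2 z' (h.symm.trans e3) b
  have h1 : s • α = t • β :=
    (Y.ch_bij i j 0 (b2_zero (c.St i j).r_pos)).1 (hs.symm.trans (hab.trans ht))
  have h2 : s • α = 0 := by
    by_contra h2
    have h3 : s ≠ 0 := fun k => h2 (by rw [k, zero_smul])
    have h4 : t ≠ 0 := fun k => h2 (by rw [h1, k, zero_smul])
    refine hd a1 ?_
    rw [← dirPt_smul _ h3, h1, dirPt_smul _ h4]
    exact b1
  rw [h2] at hs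
  exact Tor.dm_inj T Y.P.ac.sq z ((hs.trans (map_zero _)).trans (map_zero _).symm)

theorem one_gg (pre : Pre) (prt : PRT_statement) {f g : FCtx c Y} (hf : f.F = c.K.F₁)
    (hg : g.F = c.K.F₂) {T T' : Tor Y.P.J} (h : GLeaf f T) (h' : GLeaf g T')
    (h1 : (T.set ∩ T'.set).Nonempty) (h2 : (T.set ∩ Y.ι '' T'.set).Nonempty) :
    OneT Y.P.J T.set T'.set := by
  have k := (hf ▸ h.cv pre prt).1
  have k' := (hg ▸ h'.cv pre prt).1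
  obtain ⟨p1, p2, p3, -⟩ := k.pos pre.bb k' (k.ne pre.bb k' c.K.F₂ (by
    rw [c.F1_F2, c.F2_F2]; decide))
  rw [c.F1_F2] at p2 p3
  obtain ⟨a, a1, a2⟩ := h1
  obtain ⟨b, b1, b2⟩ := h2
  have hab : ∀ y ∈ T'.set, y ≠ b := fun y hy e => disjoint_left.1 h'.disj hy (e ▸ b2)
  have s1 : ({Y.pr a, Y.pr b} : Set X) ⊆ Y.pr '' T.set ∩ Y.pr '' T'.set := by
    rintro _ (rfl | rfl)
    · exact ⟨⟨a, a1, rfl⟩, a, a2, rfl⟩
    · obtain ⟨b', b3, rfl⟩ := b2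
      exact ⟨⟨_, b1, rfl⟩, b', b3, (Y.pr_ι b').symm⟩
  have s2 := ncard_pair fun e => hab a a2 (h.inj a1 b1 e)
  have s3 := eq_of_subset_of_ncard_le s1 (by omega) p1
  refine one_pr (fun y hy _ => mem_image_of_mem _ hy) (fun y hy _ => mem_image_of_mem _ hy)
    (q := a) (eq_singleton_iff_unique_mem.2 ⟨⟨a1, a2⟩, fun y hy => ?_⟩) (h.sub a1)
    (p3 (by rw [← s3, s2]; rfl) _ (s1 (Or.inl rfl)))
  rcases s3.ge ⟨mem_image_of_mem _ hy.1, mem_image_of_mem _ hy.2⟩ with e | e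
  · exact h.inj hy.1 a1 e
  · exact (hab y hy.2 (h.inj hy.1 b1 e)).elim

/-- intersection number one -/
theorem one_mix (pre : Pre) {L M : Set Y.Y} {K K' : Set X} {v v' : Fin 22 → ℤ} (k : Cv c K v)
    (k' : Cv c K' v') (hne : K ≠ K') (h1 : c.ip v v' = 1) (hL : ∀ y ∈ L, y ∈ Y.Yo → Y.pr y ∈ K)
    (hM : ∀ y ∈ M, y ∈ Y.Yo → Y.pr y ∈ K') (hs : L ∩ M ⊆ Y.Yo) (hi : InjOn Y.pr (L ∩ M))
    (hn : (L ∩ M).Nonempty) : OneT Y.P.J L M := by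
  obtain ⟨x, h2, h3⟩ := k.one pre.bb k' hne h1
  obtain ⟨q, hq⟩ := hn
  have h4 : ∀ y ∈ L ∩ M, Y.pr y = x := fun y hy =>
    h2.subset ⟨hL y hy.1 (hs hy), hM y hy.2 (hs hy)⟩
  exact one_pr hL hM (eq_singleton_iff_unique_mem.2
    ⟨hq, fun y hy => hi hy hq ((h4 y hy).trans (h4 q hq).symm)⟩) (hs hq) (h4 q hq ▸ h3)

end MeH

open MeH in
theorem meet : MEET_statement := by
  intro pre prt yc X _ c Y f g hf hg h1 h2 h3
  haveI := yc pre.stdb X c Y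
  have f1 : f.F = c.K.F₁ := by simp [FCtx.F, hf]
  have g1 : g.F = c.K.F₂ := by simp [FCtx.F, hg]
  have f2 : ∀ i, f.Sp i = f.A i := fun i => by simp [FCtx.Sp, hf]
  have g2 : ∀ i, g.Sp i = g.B i := fun i => by simp [FCtx.Sp, hg]
  have f3 : ∀ i, f.Sph i = c.C i := fun i => by simp [FCtx.Sph, hf]
  have g3 : ∀ i, g.Sph i = c.D i := fun i => by simp [FCtx.Sph, hg]
  refine all_one pre.folb Y.P.ac.sq h1 h2 Y.ι_cont Y.ι_ι h3 (Y.ι_pt 0 0) ?_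
  rintro _ _ (⟨i, rfl⟩ | ⟨T, hT, rfl⟩) (⟨j, rfl⟩ | ⟨T', hT', rfl⟩) k1 k2
  · rw [f2, g2]
    exact one_ss pre (f.hA i) (g.hB j)
  · have a1 := cv_C c pre.bb i
    have a2 := g1 ▸ hT'.cv pre prt
    exact one_mix pre a1 a2 (a1.1.ne pre.bb a2.1 c.K.F₂ (by
      rw [c.ip_comm, c.F2_C, c.F2_F2]; decide)) (by rw [c.ip_comm, c.F2_C])
      (fun y hy hy' => f3 i ▸ (f.mem_Sp i hy').1 hy) (fun y hy _ => mem_image_of_mem _ hy)
      (fun y hy => hT'.sub hy.2) (hT'.inj.mono inter_subset_right) k1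
  · have a1 := f1 ▸ hT.cv pre prt
    have a2 := cv_D c pre.bb j
    exact one_mix pre a1 a2 (a1.1.ne pre.bb a2.1 c.K.F₁ (by
      rw [c.F1_F1, c.ip_comm, c.F1_D]; decide)) (c.F1_D j)
      (fun y hy _ => mem_image_of_mem _ hy) (fun y hy hy' => g3 j ▸ (g.mem_Sp j hy').1 hy)
      (fun y hy => hT.sub hy.1) (hT.inj.mono inter_subset_left) k1
  · exact one_gg pre prt f1 g1 hT hT' k1 k2

end Vale.Agent.P247Y
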