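import Vale.Agent.P247Y.Near1

/-!
# P247, block Y: row NEAR
-/

set_option linter.all false

open scoped Manifold ContDiff Topology
open Set Filter Metric Function

noncomputable section

namespace Vale.Agent.P247Y

open Vale.Agent.P247.SCY hiding dm
open Vale.Agent.P247.SCY.HS
open Vale.Agent.P247X
open Vale.Agent.P247.H74 (P2)
open Vale.Agent.P290.H726 (bil)
open Vale.Agent.P290Z.Lat (cs)

namespace NeH

open MeH

variable {X : Type} [Cl4 X] {c : Ctx X} {Y : DC c.St}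

/-- the indices of the fixed points -/
def fI (f : FCtx c Y) (i k : Fin 4) : Fin 4 := if f.b then k else i
def fJ (f : FCtx c Y) (i k : Fin 4) : Fin 4 := if f.b then i else k
/-- the other family -/
def Ot (f : FCtx c Y) (k : Fin 4) : Tor Y.P.J := if f.b then f.A k else f.B k
def Oph (f : FCtx c Y) (k : Fin 4) : Sph (Jw c.w) := if f.b then c.C k else c.D k

theorem pt_eq (f : FCtx c Y) (i k : Fin 4) : f.pt i k = Y.pt (fI f i k) (fJ f i k) := by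
  unfold FCtx.pt fI fJ
  split_ifs <;> rfl

theorem hSp (f : FCtx c Y) (i : Fin 4) : OddTor Y (f.Sph i) (fI f i) (fJ f i) (f.Sp i) := by
  unfold FCtx.Sp FCtx.Sph fI fJ
  split_ifs
  · exact f.hB i
  · exact f.hA i

theorem hOt (f : FCtx c Y) (k : Fin 4) :
    OddTor Y (Oph f k) (fun l => fI f l k) (fun l => fJ f l k) (Ot f k) := by
  unfold Ot Oph fI fJ
  split_ifs
  · exact f.hA k
  · exact f.hB k

theorem model (f : FCtx c Y) (i k : Fin 4) : Model f.Z (c.St (fI f i k) (fJ f i k)) (f.γ k) := by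
  have h := f.model (fI f i k) (fJ f i k)
  unfold fI fJ at h ⊢
  split_ifs at h ⊢ <;> exact h

theorem disjO (pre : Pre) (f : FCtx c Y) (i k : Fin 4) :
    Disjoint (f.Sph i).set (Oph f k).set := by
  unfold FCtx.Sph Oph
  split_ifs
  · exact ((pre.geom pre.bb pre.stdb X c).CD k i).symm
  · exact (pre.geom pre.bb pre.stdb X c).CD i k

/-- the class from the intersection numbers -/
theorem cls_eq (pre : Pre) (f : FCtx c Y) (K : Tor (Jw c.w)) (h1 : K.set ⊆ Xo c.St)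
    (h2 : ∀ i, Disjoint K.set (f.Sph i).set) (k : Fin 4) {x : X}
    (h3 : K.set ∩ (Oph f k).set = {x}) (h4 : TransAt K.set (Oph f k).set x) :
    IsCls c.μ K.int (c.cl f.F) := by
  have bb := pre.bb
  obtain ⟨v, v1, v2, v3⟩ := tor_cls bb K
  have hK := cv_tor bb K v1
  have hd : ∀ i j, c.ip v (c.K.d i j) = 0 := fun i j =>
    hK.1.zero bb (cv_d c bb pre.stdb i j).1 (disjoint_left.2 fun y hy => h1 hy i j)
  have hne : ∀ {A : Set X} {u : Fin 22 → ℤ}, Cu c A u → ∀ i j, c.ip u (c.K.d i j) = 1 →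
      K.set ≠ A := fun h i j e => hK.1.ne bb h (c.K.d i j) (by rw [hd, e]; decide)
  have e : v = f.F := by
    unfold FCtx.Sph at h2
    unfold Oph at h3 h4
    unfold FCtx.F
    split_ifs at h2 h3 h4 ⊢
    · have k1 := hK.count bb (cv_C c bb k) (hne (cv_C c bb k).1 k 0 (by simp [Ctx.ip, c.K.Cd]))
        (fun y hy => by rw [h3] at hy; exact hy ▸ h4)
      rw [h3, ncard_singleton] at k1
      have k2 := c.t.eq_F1 v2 v3 (fun i j => hd j i)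
        (fun i => hK.1.zero bb (cv_D c bb i).1 (h2 i)) k
      have k3 : c.t.ip v (c.t.K.D k) = 1 := k1.symm
      rw [k3, one_smul] at k2
      exact k2
    · have k1 := hK.count bb (cv_D c bb k) (hne (cv_D c bb k).1 0 k (by simp [Ctx.ip, c.K.Dd]))
        (fun y hy => by rw [h3] at hy; exact hy ▸ h4)
      rw [h3, ncard_singleton] at k1
      have k2 := c.eq_F1 v2 v3 hd (fun i => hK.1.zero bb (cv_C c bb i).1 (h2 i)) k
      rw [← k1] at k2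
      simpa using k2
  exact e ▸ v1

/-- reflections of the central leaf -/
def rf (m n : ℤ) (p : P2) : P2 × P2 := (0, ((m : ℝ) - p.1, (n : ℝ) - p.2))

theorem rf_cont (m n : ℤ) : Continuous (rf m n) := by
  unfold rf
  fun_prop

theorem sh_rf (m n : ℤ) (p : P2) : sh m n (rf 0 0 p) = rf m n p := by
  simp only [sh, rf]
  congr 2 <;> simp [neg_add_eq_sub]

theorem tend_ne {A B : Type} [TopologicalSpace A] [TopologicalSpace B] {r : A → B}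
    (h : Continuous r) (hi : Injective r) {a : A} {b : B} (e : r a = b) :
    Tendsto r (𝓝[≠] a) (𝓝[≠] b) := by
  subst e
  exact tendsto_nhdsWithin_iff.2 ⟨(h.tendsto a).mono_left nhdsWithin_le_nhds,
    eventually_nhdsWithin_of_forall fun x hx k => hx (hi k)⟩

theorem hl_countable (τ : ℂ) : (HL τ).Countable :=
  (countable_range fun a : ℤ × ℤ => ((a.1 : ℂ) + a.2 * τ) / 2).mono (by
    rintro _ ⟨m, n, h⟩
    exact ⟨(m, n), h.symm⟩)

/-- the monodromy is onto -/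
theorem conn_near (pre : Pre) (f : FCtx c Y) (i : Fin 4) {F : Fol Y.P.J}
    (h0 : ∀ p : P2, F.Ψ (0, p) = (f.Sp i).u (p.1 + p.2 * (f.Sp i).τ))
    (hs : ∀ y ∈ ball (0 : P2) F.ε, y ≠ 0 → F.leaf y ⊆ Y.Yo) {y : P2}
    (hy : y ∈ ball (0 : P2) F.ε) (hy0 : y ≠ 0) :
    IsPreconnected (f.Z.π ⁻¹' (Y.pr '' F.leaf y)) := by
  have hA := hSp f i
  let S : Set (P2 × P2) := {q | q ∈ Dom F.ε ∧ F.Ψ q ∉ Y.Yo}
  have hS : ∀ q ∈ S, q.1 = 0 := fun q hq => by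
    by_contra k
    exact hq.2 (hs q.1 hq.1.1 k ⟨q.2, rfl⟩)
  have hS' : ∀ q, q ∈ Dom F.ε \ S ↔ q ∈ Dom F.ε ∧ F.Ψ q ∈ Y.Yo := fun q =>
    ⟨fun h => ⟨h.1, by_contra fun k => h.2 ⟨h.1, k⟩⟩, fun h => ⟨h.1, fun k => k.2 h.2⟩⟩
  choose e e1 e2 e3 using Y.chE
  choose ℓ l1 l2 l3 using model f i
  have hκ : ∀ s ∈ S, ∃ k, F.Ψ s = f.pt i k := by
    rintro ⟨a, p⟩ hq
    obtain rfl : a = 0 := hS _ hq
    have k : F.Ψ (0, p) ∈ (f.Sp i).set := ⟨_, (h0 p).symm⟩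
    rw [f.Sp_set] at k
    exact k.resolve_left fun k => hq.2 k.1
  choose! κ hκ using hκ
  let E := fun k => e (fI f i k) (fJ f i k)
  let N : P2 × P2 → Set (P2 × P2) := fun s => {q | q ∈ Dom F.ε ∧ F.Ψ q ∈ (E (κ s)).target ∧
    (q ≠ s → (E (κ s)).symm (F.Ψ q) ∈ B0 (c.St (fI f i (κ s)) (fJ f i (κ s))).r)}
  have hN : ∀ s ∈ S, N s ∈ 𝓝 s := by
    intro s h
    obtain ⟨t, t1, t2⟩ := injOn_nhds_bij (dom_open _) F.smooth h.1 (F.bij s h.1)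
    have k0 : (0 : ℂ × ℂ) ∈ (E (κ s)).source := by
      rw [e1]
      exact b2_zero (c.St _ _).r_pos
    have k1 : E (κ s) 0 = F.Ψ s := by rw [e2, Y.ch_zero, hκ s h, pt_eq]
    filter_upwards [t1, (dom_open _).mem_nhds h.1, (F.at h.1).continuousAt.eventually
      ((E (κ s)).open_target.mem_nhds (k1 ▸ (E (κ s)).map_source k0))] with q q1 q2 q3
    refine ⟨q2, q3, fun q4 => ⟨e1 _ _ ▸ (E (κ s)).map_target q3, fun q5 => q4 ?_⟩⟩
    refine t2 q1 (mem_of_mem_nhds t1) ?_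
    rw [← (E (κ s)).right_inv q3, mem_singleton_iff.1 q5, k1]
  have hch : ∀ s, ∀ q ∈ N s, Y.ch _ _ ((E (κ s)).symm (F.Ψ q)) = F.Ψ q := fun s q hq => by
    rw [← e2]
    exact (E (κ s)).right_inv hq.2.1
  have hYo : ∀ s, ∀ q ∈ N s, q ≠ s → F.Ψ q ∈ Y.Yo := fun s q hq k =>
    hch s q hq ▸ Y.ch_mem _ _ _ (hq.2.2 k)
  obtain ⟨g, g1, g2, g3⟩ := (pre.lift X _ _ f.Z).2 (P2 × P2) (Dom F.ε) S (dom_open _)
    (dom_convex _) (fun x hx => by
      by_cases h : x ∈ S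
      · filter_upwards [nhdsWithin_le_nhds (hN x h), self_mem_nhdsWithin] with q q1 q2 q3
        exact q3.2 (hYo x q q1 q2)
      · filter_upwards [nhdsWithin_le_nhds ((F.at hx).continuousAt.eventually
          (Y.Yo_open.mem_nhds ((hS' x).1 ⟨hx, h⟩).2))] with q q1 q2
        exact q2.2 q1)
    (fun q => Y.pr (F.Ψ q)) (Y.pr_cont.comp (F.smooth.continuousOn.mono diff_subset)
      fun q hq => ((hS' q).1 hq).2) (fun q hq => Y.pr_mem ((hS' q).1 hq).2)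
    (fun s q => ℓ (κ s) ((E (κ s)).symm (F.Ψ q))) fun s h => ⟨N s, hN s h.2,
      (l1 _).comp ((E (κ s)).continuousOn_symm.comp (F.smooth.continuousOn.mono fun q hq => hq.1.1)
        fun q hq => hq.1.2.1) fun q hq => hq.1.2.2 hq.2,
      fun q hq => by rw [l2 _ _ (hq.1.2.2 hq.2), ← Y.pr_ch _ _ _ (hq.1.2.2 hq.2), hch s q hq.1]⟩
  have hper : ∀ q m n, F.Ψ (sh m n q) = F.Ψ q := fun q m n => F.per q.1 q.2 m n
  have hper' : ∀ q ∈ Dom F.ε \ S, ∀ m n, sh m n q ∈ Dom F.ε \ S := fun q hq m n =>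
    (hS' _).2 ⟨sh_dom hq.1 m n, hper q m n ▸ ((hS' q).1 hq).2⟩
  have hyp : ∀ p, (y, p) ∈ Dom F.ε \ S := fun p =>
    (hS' _).2 ⟨mem_dom.2 hy, hs y hy hy0 ⟨p, rfl⟩⟩
  obtain ⟨μ, m1, m2⟩ := mono_hom f.Z pre.lift (conn_dom_diff F.ε_pos hS) ⟨_, hyp 0⟩ hper' g1
    fun q hq m n => by rw [g2 _ (hper' q hq m n), g2 q hq, hper]
  have odd : ∀ m n p, F.Ψ (rf m n p) = Y.ι (F.Ψ (0, p)) := fun m n p => by
    rw [rf, h0, h0, ← hA.odd]
    exact (congrArg (f.Sp i).u (cz_sub _ p m n)).trans ((f.Sp i).per m n _)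
  have hrf : ∀ m n p, ((0 : P2), p) ∈ Dom F.ε \ S → rf m n p ∈ Dom F.ε \ S := fun m n p h =>
    (hS' _).2 ⟨F.zero_mem _, odd m n p ▸ Y.ι_mem ((hS' _).1 h).2⟩
  have hP : IsPreconnected {p : P2 | ((0 : P2), p) ∈ Dom F.ε \ S} := by
    have k : {p : P2 | ((0 : P2), p) ∈ Dom F.ε \ S}ᶜ.Countable :=
      ((hl_countable (f.Sp i).τ).preimage (cz_inj (f.Sp i).τ_pos)).mono fun p hp => by
        by_contra k
        exact hp ((hS' _).2 ⟨F.zero_mem _, h0 p ▸ hA.off _ k⟩)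
    simpa using (k.isConnected_compl_of_one_lt_rank rank_P2).isPreconnected
  obtain ⟨a₀, ha₀⟩ := f.Z.uniq hP (f := fun p => g (0, p)) (g := fun p => g (rf 0 0 p))
    (g1.comp (Continuous.prodMk_right _).continuousOn fun p hp => hp)
    (g1.comp (rf_cont 0 0).continuousOn fun p hp => hrf 0 0 p hp)
    fun p hp => by rw [g2 _ hp, g2 _ (hrf 0 0 p hp), odd, Y.pr_ι]
  obtain ⟨σ, hσ⟩ := hA.half
  have key : ∀ b : Fin 2 × Fin 2, μ (b.1 : ℕ) (b.2 : ℕ) + a₀ = f.γ (σ b) := by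
    intro b
    let h : P2 := (((b.1 : ℕ) : ℝ) / 2, ((b.2 : ℕ) : ℝ) / 2)
    have k1 : F.Ψ (0, h) = f.pt i (σ b) := by
      rw [h0, pt_eq, ← (hσ b).1]
      congr 1
      simp only [h, hp]
      push_cast
      ring
    have k2 : ((0 : P2), h) ∈ S := ⟨F.zero_mem _, k1 ▸ f.pt_not _ _⟩
    have k3 : κ (0, h) = σ b := (f.pt_inj ((hκ _ k2).symm.trans k1)).2
    obtain ⟨a, k4⟩ := g3 _ ⟨k2.1, k2⟩
    have t1 : Tendsto (fun p : P2 => ((0 : P2), p)) (𝓝[≠] h) (𝓝[≠] (0, h)) :=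
      tend_ne (Continuous.prodMk_right _) (Prod.mk_right_injective _) rfl
    have t2 : Tendsto (rf (b.1 : ℕ) (b.2 : ℕ)) (𝓝[≠] h) (𝓝[≠] (0, h)) :=
      tend_ne (rf_cont _ _) (fun p p' k => by
        simp only [rf, Prod.mk.injEq, sub_right_inj, true_and] at k
        exact Prod.ext k.1 k.2) (by
        simp only [rf, h, Int.cast_natCast]
        congr 2 <;> ring)
    obtain ⟨p, p1, p2, p3, p4⟩ := ((t1.eventually k4).and ((t2.eventually k4).and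
      ((t1.eventually (nhdsWithin_le_nhds (hN _ k2))).and
        (t1.eventually self_mem_nhdsWithin)))).exists
    have p5 := p3.2.2 p4
    have p6 : ((0 : P2), p) ∈ Dom F.ε \ S := (hS' _).2 ⟨F.zero_mem _, hYo _ _ p3 p4⟩
    have p7 : (E (κ (0, h))).symm (F.Ψ (rf (b.1 : ℕ) (b.2 : ℕ) p)) =
        -(E (κ (0, h))).symm (F.Ψ (0, p)) := by
      rw [odd]
      conv_lhs => rw [← hch _ _ p3, ← Y.ch_neg _ _ _ p5.1, ← e2]
      exact (E (κ (0, h))).left_inv (by rw [e1]; exact b2_neg p5.1)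
    rw [p7, l3 _ _ p5, f.Z.act_comm, ← p1, ← sh_rf, m2 _ (hrf 0 0 p p6), ha₀ p p6,
      ← f.Z.act_add, k3] at p2
    exact f.Z.act_cancel p2
  rw [image_leaf, show (fun p => Y.pr (F.Ψ (y, p))) = fun p => f.Z.π (g (y, p)) from
    funext fun p => (g2 _ (hyp p)).symm]
  refine conn_of_onto f.Z (cont_slice g1 hyp) (μ := μ) (fun p m n => m2 (y, p) (hyp p) m n)
    fun a => ?_
  obtain ⟨k, hk⟩ := f.γ.surjective (a + a₀)
  obtain ⟨b, rfl⟩ := σ.surjective k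
  exact ⟨_, _, add_right_cancel ((key b).trans hk)⟩

end NeH

open NeH MeH in
theorem near : NEAR_statement := by
  intro pre prt X _ c Y f i
  have hA := hSp f i
  have hB := hOt f 0
  obtain ⟨F, hO, h0⟩ := pre.fol Y.Y Y.P (f.Sp i) (⋃ j : {j // j ≠ i}, (f.Sp j.1).set)ᶜ
    (isClosed_iUnion_of_finite fun j => (Tor.cpt _).isClosed).isOpen_compl fun y hy hy' => by
      obtain ⟨j, hj⟩ := mem_iUnion.1 hy'
      exact disjoint_left.1 (f.Sp_disj pre j.2) hj hy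
  have e0 : (f.Sp i).set = F.leaf 0 := leaf_eq fun p => (h0 p).symm
  have hz : (0 : P2) ∈ ball (0 : P2) F.ε := mem_ball_self F.ε_pos
  obtain ⟨π, hπ⟩ := exists_prj pre.folb F
  have hsp : ∀ y ∈ ball (0 : P2) F.ε, y ≠ 0 → ∀ x ∈ F.leaf y, ∀ j, x ∉ (f.Sp j).set := by
    intro y hy hy0 x hx j hj
    by_cases e : j = i
    · exact hy0 (F.leaf_disj hy hz hx (e0 ▸ e ▸ hj))
    · exact hO (F.leaf_sub hy hx) (mem_iUnion.2 ⟨⟨j, e⟩, hj⟩)
  have hs : ∀ y ∈ ball (0 : P2) F.ε, y ≠ 0 → F.leaf y ⊆ Y.Yo := fun y hy hy0 x hx =>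
    (f.cases x).resolve_right fun ⟨j, k, e⟩ => hsp y hy hy0 x hx j (e ▸ f.pt_mem j k)
  -- the fixed point
  obtain ⟨σ, hσ⟩ := hA.half
  obtain ⟨b, hb⟩ := σ.surjective 0
  obtain ⟨a1, α, -, a2, a3⟩ := hσ b
  obtain ⟨σ', hσ'⟩ := hB.half
  obtain ⟨b', hb'⟩ := σ'.surjective i
  have hσ'' := hσ' b'
  rw [hb'] at hσ''
  obtain ⟨b1, β, -, b2, b3⟩ := hσ''
  rw [hb] at a1 a2 a3
  obtain ⟨p₀, hp₀⟩ := cz_surj (f.Sp i).τ_pos (hp (f.Sp i).τ b)
  have q1 : F.Ψ (0, p₀) = Y.pt (fI f i 0) (fJ f i 0) := by rw [h0, ← a1, ← hp₀]; rfl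
  have hd := disjoint_left.1 (disjO pre f i 0)
  have m1 := hπ.move (ι := Y.ι) (p := p₀) ((Y.ι_smooth _).mdifferentiableAt (by simp))
    (by rw [q1, Y.ι_pt]) (by rw [q1]; exact Y.dι_pt _ _)
  have m2 := hπ.once pre.folb (Ot f 0) (z₀ := hp (Ot f 0).τ b') (by
    rw [b1, ← e0, hA.set, hB.set]
    refine eq_singleton_iff_unique_mem.2 ⟨⟨Or.inr ⟨i, rfl⟩, Or.inr ⟨0, rfl⟩⟩, ?_⟩
    rintro y ⟨⟨k1, k2⟩ | ⟨k, rfl⟩, ⟨k3, k4⟩ | ⟨k', e⟩⟩
    · exact (hd k4 k2).elim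
    · exact (Y.pt_not _ _ (e ▸ k1)).elim
    · exact (Y.pt_not _ _ k3).elim
    · rw [← pt_eq, ← pt_eq] at e
      rw [(f.pt_inj e).1]) (by
    intro t ht
    rw [b3, b1, ← q1] at ht
    obtain ⟨s, hs⟩ := hπ.ker h0 p₀ _ ht
    rw [hp₀, a3] at hs
    have h1 : t • β = s • α := (Y.ch_bij _ _ 0 (b2_zero (c.St _ _).r_pos)).1 hs
    by_contra h2
    have h3 : t • β ≠ 0 := by
      intro k
      have k' := b3 t
      rw [k] at k'
      exact h2 (Tor.dm_inj _ Y.P.ac.sq _ ((k'.trans (map_zero _)).trans (map_zero _).symm))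
    have h4 : s ≠ 0 := fun k => h3 (by rw [h1, k, zero_smul])
    refine hd a2 ?_
    rw [← dirPt_smul _ h4, ← h1, dirPt_smul _ h2]
    exact b2)
  obtain ⟨ε₁, n1, n2, n3⟩ := (pre.folb Y.Y _ F).2.2.2.1 _ (hπ.opn.preimage Y.ι_cont)
    fun x hx => F.leaf_sub hz (e0 ▸ f.Sp_ι i (e0 ▸ hx))
  obtain ⟨ε, r1, r2⟩ := Metric.eventually_nhds_iff_ball.1
    (m1.and (m2.and (ball_mem_nhds (0 : P2) n1)))
  obtain ⟨F', f1, f2, -⟩ := (pre.folb Y.Y _ F).2.2.2.2 (min ε F.ε) (lt_min r1 F.ε_pos)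
    (min_le_right _ _)
  have f3 : ∀ y, F'.leaf y = F.leaf y := fun y => by rw [Fol.leaf, Fol.leaf, f2]
  refine ⟨F', by rw [f3, e0], fun y hy' => ?_⟩
  rw [f3]
  rw [f1] at hy'
  have hy := ball_subset_ball (min_le_right _ _) hy'
  obtain ⟨y1, ⟨z, y2, y3⟩, y4⟩ := r2 y (ball_subset_ball (min_le_left _ _) hy')
  by_cases hy0 : y = 0
  · exact Or.inl ⟨i, by rw [hy0, e0]⟩
  have hι : ∀ x ∈ F.leaf y, Y.ι x ∉ F.leaf y := by
    intro x hx hx'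
    obtain ⟨T, -, k⟩ := (pre.folb Y.Y Y.P.J F).2.1 y hy
    obtain ⟨T', -, k'⟩ := (prt pre X c Y).2.1 T
    have e : T'.set = Y.ι '' F.leaf y := by
      rw [← leaf_eq k, Tor.set, Tor.set, k', ← range_comp]
      rfl
    obtain ⟨y', k1, k2⟩ := F.maxp T' (by
      rw [e]
      rintro _ ⟨_, ⟨p, rfl⟩, rfl⟩
      exact n3 ⟨(y, p), mem_dom.2 y4, rfl⟩)
    have k3 : Y.ι '' F.leaf y = F.leaf y' := e.symm.trans k2
    obtain rfl : y = y' := F.leaf_disj hy k1 hx' (k3 ▸ mem_image_of_mem _ hx)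
    exact hy0 (y1 (hπ.leaf hy (k3 ▸ mem_image_of_mem _ ⟨p₀, rfl⟩)))
  have hsub := hs y hy hy0
  have hinj := (Y.injOn_pr hsub).2 hι
  obtain ⟨T, K, t1, t2, -⟩ := fam_tor pre prt F hy hsub hinj
  have z1 : (Ot f 0).u z ∈ F.leaf y := (y2.ge rfl).2
  have hBs : ∀ x ∈ Y.Yo, Y.pr x ∈ (Oph f 0).set ↔ x ∈ (Ot f 0).set := fun x hx => by
    rw [hB.set]
    exact ⟨fun h => Or.inl ⟨hx, h⟩, fun h => h.elim (fun h => h.2)
      fun ⟨k, e⟩ => (Y.mem_Yo.1 hx _ _ e).elim⟩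
  refine Or.inr ⟨T, gleaf_of pre prt (t1 ▸ hsub) (t1 ▸ hinj) t2
    (cls_eq pre f K ?_ (fun j => ?_) 0 (x := Y.pr ((Ot f 0).u z)) ?_ ?_) ?_, t1.symm⟩ <;>
    rw [t2, t1]
  · rintro _ ⟨x, hx, rfl⟩
    exact Y.pr_mem (hsub hx)
  · rw [disjoint_left]
    rintro _ ⟨x, hx, rfl⟩ k
    exact hsp y hy hy0 x hx j ((f.mem_Sp j (hsub hx)).2 k)
  · refine eq_singleton_iff_unique_mem.2 ⟨⟨⟨_, z1, rfl⟩, (hBs _ (hsub z1)).2 ⟨z, rfl⟩⟩, ?_⟩
    rintro _ ⟨⟨x, hx, rfl⟩, k⟩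
    rw [show x = (Ot f 0).u z from y2.le ⟨(hBs x (hsub hx)).1 k, hx⟩]
  · exact trans_of pre (t1 ▸ (Tor.cpt T).isClosed) hsub (hsub z1) (hι _ z1)
      (fun x hx => (hBs x hx).1) (hπ.md (F.leaf_sub hy z1)) (fun x hx => hπ.leaf hy hx) y3
  · exact conn_near pre f i h0 hs hy hy0

end Vale.Agent.P247Y
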