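import Vale.Agent.P247Y.Stdb
import Vale.Agent.P247M.LBOps
import Vale.Agent.P247C.Defs

/-!
# P247, block Y, row THOM: the Thom line bundle of a family of standard spheres
-/

set_option linter.all false

open scoped Manifold ContDiff Topology
open Set Filter Metric Function MeasureTheory

noncomputable section

namespace Vale.Agent.P247Y

open Vale.Agent.P247.SCY Vale.Agent.P247.SCY.HS Vale.Agent.P247X Vale.Agent.P247C
open StdbH

namespace ThomP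

variable {X : Type} [Cl4 X] {w : Tri X}

theorem ex_inv {r : ℝ} {P : ℂ × ℂ → X} (hs : ContMDiffOn 𝓘(ℝ, ℂ × ℂ) (𝓡 4) ∞ P (Nr r))
    (hb : ∀ z ∈ Nr r, Bijective (dm2 P z)) (hi : InjOn P (Nr r)) :
    ∃ ψ : X → ℂ × ℂ, ContMDiffOn (𝓡 4) 𝓘(ℝ, ℂ × ℂ) ∞ ψ (P '' Nr r) ∧ ∀ z ∈ Nr r, ψ (P z) = z := by
  obtain ⟨e, h1, h2, h3, h4⟩ := globInv (isOpen_Nr r) hs hb hi
  refine ⟨e.symm, h2 ▸ h4, fun z hz => ?_⟩
  rw [← h3]
  exact e.left_inv (h1 ▸ hz)

theorem smul_inv {U : Set X} {f : X → ℂ} (h : ContMDiffOn (𝓡 4) 𝓘(ℝ, ℂ) ∞ f U)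
    (h0 : ∀ x ∈ U, f x ≠ 0) : ContMDiffOn (𝓡 4) 𝓘(ℝ, ℂ) ∞ (fun x => (f x)⁻¹) U := fun x hx =>
  ((contDiffAt_inv ℂ (h0 x hx)).restrict_scalars ℝ).comp_contMDiffWithinAt (h x hx)

/-- the differential of the first coordinate -/
theorem dfc_fst {r : ℝ} {P : ℂ × ℂ → X} {ψ : X → ℂ × ℂ} {z : ℂ × ℂ} (hz : z ∈ Nr r)
    (hP : ContMDiffAt 𝓘(ℝ, ℂ × ℂ) (𝓡 4) ∞ P z)
    (hψ : ContMDiffAt (𝓡 4) 𝓘(ℝ, ℂ × ℂ) ∞ ψ (P z)) (hl : ∀ z ∈ Nr r, ψ (P z) = z) (b : ℂ × ℂ) :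
    dfc (fun x => (ψ x).1) (P z) (dm2 P z b) = b.1 := by
  have h1 := mfderiv_left_inv (hP.mdifferentiableAt (by simp)) (hψ.mdifferentiableAt (by simp))
    (by filter_upwards [(isOpen_Nr r).mem_nhds hz] with y hy using hl y hy) b
  have h2 := mfderiv_comp (I' := 𝓘(ℝ, ℂ × ℂ)) (g := ContinuousLinearMap.fst ℝ ℂ ℂ) (P z)
    (ContinuousLinearMap.fst ℝ ℂ ℂ).mdifferentiableAt (hψ.mdifferentiableAt (by simp))
  rw [ContinuousLinearMap.mfderiv_eq] at h2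
  have h3 := congrArg (fun B : HS.E4 →L[ℝ] ℂ => B (dm2 P z b)) h2
  exact h3.trans (congrArg Prod.fst h1)

theorem cn_p (S : Std w) {ψ : X → ℂ × ℂ}
    (hψ : ContMDiffOn (𝓡 4) 𝓘(ℝ, ℂ × ℂ) ∞ ψ (S.p '' Nr S.r)) (hl : ∀ z ∈ Nr S.r, ψ (S.p z) = z)
    {x : X} (hx : x ∈ S.p '' Nr S.r) (a : TangentSpace (𝓡 4) x)
    (ha : dfc (fun x => (ψ x).1) x a = 0) : ∃ c, Cn (1 / 2) w (fun x => (ψ x).1) c x a := by
  have ho := isOpen_image_bij (isOpen_Nr _) S.p_smooth S.p_imm (isOpen_Nr _) Subset.rfl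
  have hat := hψ.contMDiffAt (ho.mem_nhds hx)
  obtain ⟨z, hz, rfl⟩ := hx
  obtain ⟨a, rfl⟩ := (S.p_imm z hz).2 a
  rw [dfc_fst hz (p_at S hz) hat hl] at ha
  refine ⟨-a.2 / 2, fun v => ?_⟩
  obtain ⟨b, rfl⟩ := (S.p_imm z hz).2 v
  have h1 : OmX w (S.p z) (dm2 S.p z a) (dm2 S.p z b) = -a.2 / 2 * b.1 := by
    unfold OmX
    rw [← S.p_hol z hz, S.p0 z hz, S.p0 z hz]
    have h2 : om0 a (Complex.I • b) = Complex.I * om0 a b := by
      simp only [om0, Prod.smul_fst, Prod.smul_snd, smul_eq_mul]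
      ring
    have h3 : om0 a b = -a.2 / 2 * b.1 := by
      simp only [om0, ha]
      ring
    rw [h2, ← h3]
    apply Complex.ext <;> simp
  rw [dfc_fst hz (p_at S hz) hat hl, h1, sub_self, norm_zero]
  positivity

/-- one sphere -/
theorem one (hLBC : LBC) (hSM : SMALL) (hPLX : PLX) (hTRA : TRA) (hEMB : EMB_statement)
    {μ : Form X 4} (hμ : Volume μ) (hw : Hypersymplectic μ w) (S : Std w) :
    ∃ (L : LB X) (o ip iq : Fin L.n), L.U o = S.setᶜ ∧ L.U ip = S.p '' Nr S.r ∧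
      L.U iq = S.q '' Nr S.r ∧
      (∀ z ∈ Nr S.r, z.1 ≠ 0 → L.g ip o (S.p z) = z.1 / (‖z.1‖ : ℂ)) ∧
      (∀ z ∈ Nr S.r, z.1 ≠ 0 → L.g iq o (S.q z) = z.1 / (‖z.1‖ : ℂ)) ∧
      ∀ φ, SC φ → pair μ L.F φ = ∫ z, pull2 φ (fun ζ => S.p (0, ζ)) z := by
  classical
  obtain ⟨ψ, sψ, lψ⟩ := ex_inv S.p_smooth S.p_imm S.p_inj
  obtain ⟨χ, sχ, lχ⟩ := ex_inv S.q_smooth S.q_imm S.q_inj
  have op := isOpen_image_bij (isOpen_Nr _) S.p_smooth S.p_imm (isOpen_Nr _) Subset.rfl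
  have oq := isOpen_image_bij (isOpen_Nr _) S.q_smooth S.q_imm (isOpen_Nr _) Subset.rfl
  have s1 : ContMDiffOn (𝓡 4) 𝓘(ℝ, ℂ) ∞ (fun x => (ψ x).1) (S.p '' Nr S.r) :=
    (ContinuousLinearMap.fst ℝ ℂ ℂ).contMDiff.comp_contMDiffOn sψ
  have s2 : ContMDiffOn (𝓡 4) 𝓘(ℝ, ℂ) ∞ (fun x => (ψ x).2 ^ 2) (S.p '' Nr S.r) :=
    ((contDiff_snd (𝕜 := ℝ) (E := ℂ) (F := ℂ)).pow 2).contMDiff.comp_contMDiffOn sψ
  have s3 : ContMDiffOn (𝓡 4) 𝓘(ℝ, ℂ) ∞ (fun x => (χ x).1) (S.q '' Nr S.r) :=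
    (ContinuousLinearMap.fst ℝ ℂ ℂ).contMDiff.comp_contMDiffOn sχ
  have zp : ∀ x ∈ S.p '' Nr S.r, (ψ x).1 = 0 ↔ x ∈ S.set := by
    rintro _ ⟨z, hz, rfl⟩
    rw [lψ z hz]
    refine ⟨fun h => Or.inr ⟨z.2, ?_⟩, fun h => by_contra fun h' => p_not S hz h' h⟩
    rw [← h]
  have zq : ∀ x ∈ S.q '' Nr S.r, (χ x).1 = 0 → x ∈ S.set := by
    rintro _ ⟨z, hz, rfl⟩ h
    rw [lχ z hz] at h
    have := q_zero S z.2
    rwa [← h] at this
  have pq : ∀ x ∈ S.p '' Nr S.r, x ∈ S.q '' Nr S.r →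
      (ψ x).2 ≠ 0 ∧ (χ x).1 = (ψ x).1 * (ψ x).2 ^ 2 := by
    rintro _ ⟨z, hz, rfl⟩ ⟨z', hz', h⟩
    obtain ⟨h1, h2⟩ := S.sep z hz z' hz' h.symm
    rw [lψ z hz, ← h, lχ z' hz', h2]
    exact ⟨h1, rfl⟩
  set U : Fin 3 → Set X := ![S.setᶜ, S.p '' Nr S.r, S.q '' Nr S.r] with hU
  set h : Fin 3 → X → ℂ := fun i x => if x ∈ S.set then
    ![1, 1, if x ∈ S.p '' Nr S.r then (ψ x).2 ^ 2 else 1] i else ![1, (ψ x).1, (χ x).1] i with hh
  have hne : ∀ i, ∀ x ∈ U i, h i x ≠ 0 := by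
    intro i x hx
    by_cases hs : x ∈ S.set
    · simp only [hh, if_pos hs]
      fin_cases i
      · exact one_ne_zero
      · exact one_ne_zero
      · show (if x ∈ S.p '' Nr S.r then (ψ x).2 ^ 2 else 1) ≠ 0
        split_ifs with h1
        · exact pow_ne_zero 2 (pq x h1 hx).1
        · exact one_ne_zero
    · simp only [hh, if_neg hs]
      fin_cases i
      · exact one_ne_zero
      · exact fun h0 => hs ((zp x hx).1 h0)
      · exact fun h0 => hs (zq x hx h0)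
  have g10 : ∀ x ∈ U 1 ∩ U 0, h 1 x / h 0 x = (ψ x).1 := fun x hx => by
    simp only [hh, if_neg (show x ∉ S.set from hx.2)]
    exact div_one _
  have g20 : ∀ x ∈ U 2 ∩ U 0, h 2 x / h 0 x = (χ x).1 := fun x hx => by
    simp only [hh, if_neg (show x ∉ S.set from hx.2)]
    exact div_one _
  have g21 : ∀ x ∈ U 2 ∩ U 1, h 2 x / h 1 x = (ψ x).2 ^ 2 := fun x hx => by
    by_cases hs : x ∈ S.set
    · simp only [hh, if_pos hs, if_pos (show x ∈ S.p '' Nr S.r from hx.2)]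
      exact div_one _
    · simp only [hh, if_neg hs]
      show (χ x).1 / (ψ x).1 = _
      rw [(pq x hx.2 hx.1).2, mul_div_cancel_left₀ _ fun h0 => hs ((zp x hx.2).1 h0)]
  have sw : ∀ i j, ContMDiffOn (𝓡 4) 𝓘(ℝ, ℂ) ∞ (fun x => h i x / h j x) (U i ∩ U j) →
      ContMDiffOn (𝓡 4) 𝓘(ℝ, ℂ) ∞ (fun x => h j x / h i x) (U j ∩ U i) := by
    intro i j H
    rw [inter_comm]
    exact (smul_inv H fun x hx => div_ne_zero (hne i x hx.1) (hne j x hx.2)).congr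
      fun x _ => (inv_div _ _).symm
  have sd : ∀ i, ContMDiffOn (𝓡 4) 𝓘(ℝ, ℂ) ∞ (fun x => h i x / h i x) (U i ∩ U i) := fun i =>
    (contMDiffOn_const (c := (1 : ℂ))).congr fun x hx => div_self (hne i x hx.1)
  have t10 := (s1.mono (inter_subset_left (t := U 0))).congr g10
  have t20 := (s3.mono (inter_subset_left (t := U 0))).congr g20
  have t21 := (s2.mono (inter_subset_right (s := U 2))).congr g21
  obtain ⟨L, ι, hLU, hLg⟩ := hLBC X (Fin 3) U (fun i j x => h i x / h j x)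
    (by
      intro i
      fin_cases i
      · exact (cpt_set S).isClosed.isOpen_compl
      · exact op
      · exact oq)
    (by
      intro x
      by_cases hs : x ∈ S.set
      · rcases set_sub S S.r_pos hs with h1 | h1
        · exact ⟨1, h1⟩
        · exact ⟨2, h1⟩
      · exact ⟨0, hs⟩)
    (by
      intro i j
      fin_cases i <;> fin_cases j
      exacts [sd 0, sw 1 0 t10, sw 2 0 t20, t10, sd 1, sw 2 1 t21, t20, t21, sd 2])
    (fun i j x hx => div_ne_zero (hne i x hx.1) (hne j x hx.2))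
    (fun i j k x hx => div_mul_div_cancel₀ (hne j x hx.1.2))
  obtain ⟨K, hK, hreg, hT⟩ := (hEMB X μ hμ w hw).1 (sph S)
  have hK' : K.K = S.set := hK
  obtain ⟨V, hV, -, hsm⟩ := hSM X {S.q (0, 0)}
  have hcls := hPLX X μ hμ w hw K L (ι 0) (ι 1) (fun x => (ψ x).1) {S.q (0, 0)}
    (hsm _ (by
      rintro _ rfl
      exact mem_biUnion (Finset.mem_singleton_self _) (hV _ (Finset.mem_singleton_self _)).2))
    (fun x _ hx => by rw [hLU]; rwa [hK'] at hx)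
    (fun x h0 hx => by
      rw [hLU]
      rw [hK'] at hx
      rcases hx with hx | ⟨ζ, rfl⟩
      · exact absurd hx h0
      · exact ⟨_, zero_mem S.r_pos ζ, rfl⟩)
    (by rw [hLU]; exact s1) (by rw [hLU, hK']; exact zp)
    (by
      rw [hLU, hLU]
      intro x hx
      rw [hLg 1 0 x hx, g10 x hx])
    (by
      rw [hLU]
      rintro x ⟨hxK, hx⟩
      obtain ⟨N, u, W, hB, hC⟩ := K.loc x hxK
      obtain ⟨rfl, him⟩ := (hTRA X μ hμ w hw).2 K.K x N u W hB (hreg x hxK)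
      have hx' : u 0 0 ∈ S.p '' Nr S.r := by rw [hB.zero]; exact hx
      have hb : ball (0 : ℂ) 2 ∈ 𝓝 (0 : ℂ) := ball_mem_nhds _ two_pos
      have hu := (hB.smooth 0).contMDiffAt hb
      have h0 : (fun x => (ψ x).1) ∘ u 0 =ᶠ[𝓝 0] fun _ => 0 := by
        filter_upwards [hb, hu.continuousAt.eventually_mem (op.mem_nhds hx')] with z hz hz'
        exact (zp _ hz').2 (hK' ▸ hB.mem 0 z hz)
      have h1 := mfderiv_comp 0 ((s1.contMDiffAt (op.mem_nhds hx')).mdifferentiableAt (by simp))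
        (hu.mdifferentiableAt (by simp))
      rw [h0.mfderiv_eq, mfderiv_const] at h1
      obtain ⟨c, hc⟩ := cn_p S sψ lψ hx' (dm (u 0) 0 1)
        (congrArg (fun B : ℂ →L[ℝ] ℂ => B 1) h1).symm
      exact ⟨u, W, c, 1, hB, hC, him 0, one_ne_zero, hc⟩)
  refine ⟨L, ι 0, ι 1, ι 2, hLU 0, hLU 1, hLU 2, fun z hz h0 => ?_, fun z hz h0 => ?_,
    fun φ hφ => ?_⟩
  · have hx : S.p z ∈ U 1 ∩ U 0 := ⟨⟨z, hz, rfl⟩, p_not S hz h0⟩
    rw [hLg 1 0 _ hx, g10 _ hx, lψ z hz]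
  · have hx : S.q z ∈ U 2 ∩ U 0 := ⟨⟨z, hz, rfl⟩, q_not S hz h0⟩
    rw [hLg 2 0 _ hx, g20 _ hx, lχ z hz]
  · rw [← hcls.2 φ hφ, hT φ hφ.cont]
    rfl

theorem g_self (L : LB X) {i : Fin L.n} {x : X} (hx : x ∈ L.U i) : L.g i i x = 1 := by
  have h1 := L.g_co i i i x ⟨⟨hx, hx⟩, hx⟩
  have h2 : L.g i i x ≠ 0 := fun h => by simpa [h] using L.g_norm i i x ⟨hx, hx⟩
  exact mul_left_cancel₀ h2 (h1.trans (mul_one _).symm)

theorem tensor_U (L L' : LB X) (i : Fin L.n) (j : Fin L'.n) :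
    (L.tensor L').U (finProdFinEquiv (i, j)) = L.U i ∩ L'.U j := by
  show L.U (finProdFinEquiv.symm (finProdFinEquiv (i, j))).1 ∩
    L'.U (finProdFinEquiv.symm (finProdFinEquiv (i, j))).2 = _
  rw [Equiv.symm_apply_apply]

theorem tensor_g (L L' : LB X) (i i' : Fin L.n) (j j' : Fin L'.n) (x : X) :
    (L.tensor L').g (finProdFinEquiv (i, j)) (finProdFinEquiv (i', j')) x =
      L.g i i' x * L'.g j j' x := by
  show L.g (finProdFinEquiv.symm (finProdFinEquiv (i, j))).1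
      (finProdFinEquiv.symm (finProdFinEquiv (i', j'))).1 x *
    L'.g (finProdFinEquiv.symm (finProdFinEquiv (i, j))).2
      (finProdFinEquiv.symm (finProdFinEquiv (i', j'))).2 x = _
  rw [Equiv.symm_apply_apply, Equiv.symm_apply_apply]

end ThomP

open ThomP in
theorem THOMX (hLBC : LBC) (hSM : SMALL) (hPLX : PLX) (hTRA : TRA) (hEMB : EMB_statement) :
    THOM_statement := by
  intro X _ μ hμ w hw n
  induction n with
  | zero =>
    intro St _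
    refine ⟨P247M.trivLB X, ⟨⟨(0 : Fin 1), Fin.elim0, Fin.elim0, ?_, fun a => a.elim0,
      fun a => a.elim0, fun a => a.elim0, fun a => a.elim0⟩⟩, fun φ _ => ?_⟩
    · exact (eq_univ_of_forall fun x a => a.elim0).symm
    · rw [P247M.trivLB_F, pair_zero_left]
      simp
  | succ n ih =>
    intro St hd
    obtain ⟨L', ⟨T⟩, hL'⟩ := ih (fun a => St a.succ) fun a b hab =>
      hd _ _ fun h => hab (Fin.succ_injective _ h)
    obtain ⟨L, o, ip, iq, ho, hp, hq, gp, gq, hL⟩ := one hLBC hSM hPLX hTRA hEMB hμ hw (St 0)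
    have d0 : ∀ x ∈ (St 0).nb, x ∈ L'.U T.out := by
      intro x hx
      rw [T.U_out]
      exact fun a ha => disjoint_left.1 (hd 0 a.succ (Fin.succ_ne_zero a).symm) hx
        (set_sub _ (St a.succ).r_pos ha)
    have d1 : ∀ a : Fin n, ∀ x ∈ (St a.succ).nb, x ∈ L.U o := by
      intro a x hx
      rw [ho]
      exact fun ha => disjoint_left.1 (hd 0 a.succ (Fin.succ_ne_zero a).symm)
        (set_sub _ (St 0).r_pos ha) hx
    refine ⟨L.tensor L', ⟨⟨finProdFinEquiv (o, T.out),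
      Fin.cases (finProdFinEquiv (ip, T.out)) fun a => finProdFinEquiv (o, T.ip a),
      Fin.cases (finProdFinEquiv (iq, T.out)) fun a => finProdFinEquiv (o, T.iq a),
      ?_, ?_, ?_, ?_, ?_⟩⟩, fun φ hφ => ?_⟩
    · rw [tensor_U, ho, T.U_out]
      ext x
      exact (Fin.forall_fin_succ (P := fun a => x ∉ (St a).set)).symm
    · refine Fin.cases ?_ fun a => ?_
      · refine (tensor_U L L' ip T.out).trans ?_
        rw [hp]
        exact inter_eq_left.2 fun x hx => d0 x (Or.inl hx)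
      · refine (tensor_U L L' o (T.ip a)).trans ?_
        rw [T.U_p]
        exact inter_eq_right.2 fun x hx => d1 a x (Or.inl hx)
    · refine Fin.cases ?_ fun a => ?_
      · refine (tensor_U L L' iq T.out).trans ?_
        rw [hq]
        exact inter_eq_left.2 fun x hx => d0 x (Or.inr hx)
      · refine (tensor_U L L' o (T.iq a)).trans ?_
        rw [T.U_q]
        exact inter_eq_right.2 fun x hx => d1 a x (Or.inr hx)
    · refine Fin.cases (fun z hz h0 => ?_) fun a z hz h0 => ?_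
      · refine (tensor_g L L' ip o T.out T.out _).trans ?_
        rw [gp z hz h0, g_self L' (d0 _ (Or.inl ⟨z, hz, rfl⟩)), mul_one]
      · refine (tensor_g L L' o o (T.ip a) T.out _).trans ?_
        rw [T.g_p a z hz h0,
          g_self L (d1 a _ (Or.inl ⟨z, hz, rfl⟩)), one_mul]
    · refine Fin.cases (fun z hz h0 => ?_) fun a z hz h0 => ?_
      · refine (tensor_g L L' iq o T.out T.out _).trans ?_
        rw [gq z hz h0, g_self L' (d0 _ (Or.inr ⟨z, hz, rfl⟩)), mul_one]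
      · refine (tensor_g L L' o o (T.iq a) T.out _).trans ?_
        rw [T.g_q a z hz h0,
          g_self L (d1 a _ (Or.inr ⟨z, hz, rfl⟩)), one_mul]
    · rw [P247M.tensor_F, pair_add hμ hw L.F_sc.1 L'.F_sc.1 hφ.1, hL φ hφ, hL' φ hφ,
        Fin.sum_univ_succ]

end Vale.Agent.P247Y
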