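import Vale.Agent.P247Y.Ator1
import Vale.Agent.P247Y.Cob

/-!
# P247, block Y: the tori over the spheres
-/

set_option linter.all false

open scoped Manifold ContDiff Topology
open Set Filter Metric Function

noncomputable section

namespace Vale.Agent.P247Y

open Vale.Agent.P247.SCY
open Vale.Agent.P247X
open WpH StdbH AtorH

theorem ator {X : Type} [Cl4 X] {w : Tri X} {St : Fin 4 → Fin 4 → Std w} (Y : DC St)
    (S : Sph (Jw w)) (i j : Fin 4 → Fin 4)
    (disj : ∀ a b a' b', (a, b) ≠ (a', b') → Disjoint (St a b).nb (St a' b').nb)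
    (hinj : Injective fun k => (i k, j k))
    (htr : ∀ k, ∃ x, S.set ∩ (St (i k) (j k)).set = {x} ∧ TransAt S.set (St (i k) (j k)).set x)
    (hoff : ∀ a b, (∀ k, (a, b) ≠ (i k, j k)) → Disjoint S.set (St a b).set) :
    ∃ T : Tor Y.P.J, OddTor Y S i j T := by
  classical
  choose x hx htx using htr
  have hxS : ∀ k, x k ∈ S.set ∩ (St (i k) (j k)).set := fun k => by rw [hx]; rfl
  have xinj : Injective x := fun k k' e => by
    by_contra h
    exact Set.disjoint_left.1 (disj (i k) (j k) (i k') (j k') fun h' => h (hinj h'))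
      (set_sub _ (St _ _).r_pos (hxS k).2) (e ▸ set_sub _ (St _ _).r_pos (hxS k').2)
  obtain ⟨τ, a, σ, hτ, asm, ahol, arange, aiff, aimm, ahalf⟩ :=
    wp (jw_sq Y) S x xinj fun k => (hxS k).1
  have aper : ∀ (m n : ℤ) z, a (z + m + n * τ) = a z := fun m n z =>
    ((aiff _ _).2 ⟨m, n, .inl rfl⟩).symm
  have arefl : ∀ s ∈ HL τ, ∀ z, a (2 * s - z) = a z := by
    rintro _ ⟨m, n, rfl⟩ z
    exact ((aiff _ _).2 ⟨m, n, .inr (by ring)⟩).symm
  have hK : ∀ s ∈ HL τ, ∃ (k : Fin 4) (c : ℂ → ℂ × ℂ), a s = x k ∧ AnalyticAt ℂ c s ∧ c s = 0 ∧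
      deriv c s ≠ 0 ∧ dirPt (St (i k) (j k)) (deriv c s) = x k ∧
      ∀ᶠ z in 𝓝[≠] s, c z ∈ B0 (St (i k) (j k)).r ∧ sq (St (i k) (j k)) (c z) = a z := by
    intro s hs
    obtain ⟨b, m, n, e⟩ := hl_dec hs
    obtain ⟨h1, φ, g, hφ, hg, g1, g2, hev⟩ := ahalf b
    obtain ⟨k1, k2, k3, k4⟩ := sph_chart S hφ
    have h0 : φ (g 0) = x (σ b) := by rw [← hev.self_of_nhds, add_zero, h1]
    obtain ⟨c, hc, c0, c1, c2, c3⟩ := loc_lift (St (i (σ b)) (j (σ b))) k1 k2 k3 k4 hg g1 g2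
      (by rw [h0]; exact (hxS _).2) (by rw [h0]; exact htx _)
    have hd : deriv (fun z => c (z - s)) s = deriv c 0 := by rw [deriv_comp_sub_const, sub_self]
    refine ⟨σ b, fun z => c (z - s), by rw [e, aper, h1],
      AnalyticAt.comp (g := c) (f := fun z => z - s) (by simpa using hc) (by fun_prop),
      by simp [c0], by rwa [hd], by rw [hd, c2, h0], ?_⟩
    have ht : Tendsto (fun z => z - s) (𝓝[≠] s) (𝓝[≠] 0) :=
      tendsto_nhdsWithin_iff.2 ⟨(Continuous.tendsto' (f := fun z => z - s) (by fun_prop) _ _ (sub_self s)).mono_left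
        nhdsWithin_le_nhds, eventually_mem_nhdsWithin.mono fun z hz => sub_ne_zero.2 hz⟩
    filter_upwards [ht.eventually c3, ht.eventually (nhdsWithin_le_nhds hev)] with z h2 h3
    refine ⟨h2.1, h2.2.trans ((h3 : a _ = _).symm.trans ?_)⟩
    rw [← aper m n, e]
    congr 1
    ring
  choose! K c hK1 hca hc0 hc1 hc2 hc3 using hK
  have hXo : ∀ z, z ∉ HL τ → a z ∈ Xo St := by
    intro z hz p q h
    have hS : a z ∈ S.set := arange ▸ ⟨z, rfl⟩
    by_cases h1 : ∃ k, (p, q) = (i k, j k)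
    · obtain ⟨k, e⟩ := h1
      obtain ⟨rfl, rfl⟩ := Prod.mk.inj e
      have h2 : a z = x k := by
        have : a z ∈ S.set ∩ (St (i k) (j k)).set := ⟨hS, h⟩
        rwa [hx] at this
      obtain ⟨b, rfl⟩ := σ.surjective k
      obtain ⟨m, n, e⟩ := (aiff _ _).1 ((ahalf b).1.trans h2.symm)
      obtain ⟨m', n', e'⟩ := hp_mem τ b
      rcases e with e | e
      · exact hz ⟨m' + 2 * m, n' + 2 * n, by rw [e, e']; push_cast; ring⟩
      · exact hz ⟨-m' + 2 * m, -n' + 2 * n, by rw [e, e']; push_cast; ring⟩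
    · exact Set.disjoint_left.1 (hoff p q fun k e => h1 ⟨k, e⟩) hS h
  have hne : Nonempty Y.cov.Z := by
    obtain ⟨z, hz⟩ := (hl_disc hτ 0).exists
    exact ⟨(Y.cov.exists_mem (hXo z hz)).choose⟩
  let ε := Y.emb_open.toOpenPartialHomeomorph Y.emb
  have hε : ∀ y ∈ range Y.emb, Y.emb (ε.symm y) = y := fun y hy => ε.right_inv (by simpa [ε])
  obtain ⟨G, hG, hπ, hGl⟩ := (LIFT X _ _ Y.cov).2 ℂ univ (HL τ) isOpen_univ convex_univ
    (fun z _ => hl_disc hτ z) a asm.continuous.continuousOn (fun z hz => hXo z hz.2)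
    (fun s z => ε.symm (Y.ch (i (K s)) (j (K s)) (c s z))) (by
      rintro s ⟨-, hs⟩
      refine ⟨_, inter_mem (eventually_nhdsWithin_iff.1 (hc3 s hs))
        (hca s hs).eventually_analyticAt, ?_, fun z hz => ?_⟩
      · refine ε.continuousOn_symm.comp ((Y.ch_smooth _ _).continuousOn.comp
          (fun z hz => hz.1.2.continuousAt.continuousWithinAt) fun z hz => (hz.1.1 hz.2).1.1)
          fun z hz => ?_
        simpa [ε] using Y.ch_mem _ _ _ (hz.1.1 hz.2).1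
      · rw [← Y.pr_emb, hε _ (Y.ch_mem _ _ _ (hz.1.1 hz.2).1), Y.pr_ch _ _ _ (hz.1.1 hz.2).1,
          (hz.1.1 hz.2).2])
  have two : ∀ t : ZMod 2, t = 0 ∨ t = 1 := by decide
  let U : ℂ → Y.Y := fun z => if z ∈ HL τ then Y.pt (i (K z)) (j (K z)) else Y.emb (G z)
  have U1 : ∀ z ∈ HL τ, U z = Y.pt (i (K z)) (j (K z)) := fun z hz => if_pos hz
  have U2 : ∀ z, z ∉ HL τ → U z = Y.emb (G z) := fun z hz => if_neg hz
  have hU : ∀ s ∈ HL τ, ∃ d : ℂ → ℂ × ℂ, AnalyticAt ℂ d s ∧ d s = 0 ∧ deriv d s ≠ 0 ∧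
      dirPt (St (i (K s)) (j (K s))) (deriv d s) = x (K s) ∧
      (∀ᶠ z in 𝓝 s, d z ∈ B2 (St (i (K s)) (j (K s))).r) ∧
      U =ᶠ[𝓝 s] fun z => Y.ch (i (K s)) (j (K s)) (d z) := by
    intro s hs
    obtain ⟨t, ht⟩ := hGl s ⟨trivial, hs⟩
    have hB : ∀ᶠ z in 𝓝 s, c s z ∈ B2 (St (i (K s)) (j (K s))).r :=
      (hca s hs).continuousAt.eventually ((StdbH.isOpen_B2 _).mem_nhds (by
        rw [hc0 s hs]; simpa [B2] using (St _ _).r_pos))
    have h0 := eventually_nhdsWithin_iff.1 ((ht.and (hc3 s hs)).and (hl_disc hτ s))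
    rcases two t with rfl | rfl
    · refine ⟨c s, hca s hs, hc0 s hs, hc1 s hs, hc2 s hs, hB, ?_⟩
      filter_upwards [h0] with z hz
      by_cases e : z = s
      · rw [e, U1 s hs, hc0 s hs, Y.ch_zero]
      · rw [U2 z (hz e).2, (hz e).1.1, Y.cov.act_zero, hε _ (Y.ch_mem _ _ _ (hz e).1.2.1)]
    · refine ⟨fun z => -c s z, (hca s hs).neg, by simp [hc0 s hs],
        by rw [deriv.fun_neg]; exact neg_ne_zero.2 (hc1 s hs),
        by rw [deriv.fun_neg, dirPt_neg, hc2 s hs], hB.mono fun z => neg_mem_B2, ?_⟩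
      filter_upwards [h0] with z hz
      by_cases e : z = s
      · rw [e, U1 s hs, hc0 s hs, neg_zero, Y.ch_zero]
      · rw [U2 z (hz e).2, (hz e).1.1, ← Y.ι_emb, hε _ (Y.ch_mem _ _ _ (hz e).1.2.1),
          Y.ch_neg _ _ _ (hz e).1.2.1.1]
  have hG' : ContinuousOn G (HL τ)ᶜ := hG.mono fun z hz => ⟨trivial, hz⟩
  have hπ' : ∀ z, z ∉ HL τ → Y.cov.π (G z) = a z := fun z hz => hπ z ⟨trivial, hz⟩
  have hR : ∀ s ∈ HL τ, ∀ z, U (2 * s - z) = Y.ι (U z) := by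
    intro s hs
    have hn : ∀ z, z ∉ HL τ → 2 * s - z ∉ HL τ := fun z hz h => hz (by simpa using hl_refl hs h)
    obtain ⟨t, ht⟩ := Y.cov.uniq (hl_conn τ) (g := fun z => G (2 * s - z)) hG'
      (hG'.comp (by fun_prop) hn) fun z hz => by rw [hπ' z hz, hπ' _ (hn z hz), arefl s hs]
    have hKr : ∀ z ∈ HL τ, K (2 * s - z) = K z := fun z hz =>
      xinj (by rw [← hK1 _ (hl_refl hs hz), ← hK1 z hz, arefl s hs])
    rcases two t with rfl | rfl
    · exfalso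
      obtain ⟨d, hd, -, d1, -, hB, hev⟩ := hU s hs
      have hT : Tendsto (fun z => 2 * s - z) (𝓝 s) (𝓝 s) :=
        Continuous.tendsto' (by fun_prop) _ _ (by ring)
      have h1 : (fun z => d (2 * s - z)) =ᶠ[𝓝 s] d := by
        filter_upwards [hB, hev, hT.eventually hB, hT.eventually hev] with z k1 k2 k3 k4
        refine Y.ch_inj _ _ k3 k1 (k4.symm.trans (Eq.trans ?_ k2))
        by_cases hz : z ∈ HL τ
        · rw [U1 _ (hl_refl hs hz), U1 z hz, hKr z hz]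
        · rw [U2 _ (hn z hz), U2 z hz, ht z hz, Y.cov.act_zero]
      have h2 := h1.deriv_eq
      rw [deriv_comp_const_sub, show 2 * s - s = s by ring] at h2
      exact d1 (self_eq_neg.1 h2.symm)
    · intro z
      by_cases hz : z ∈ HL τ
      · rw [U1 _ (hl_refl hs hz), U1 z hz, hKr z hz, Y.ι_pt]
      · rw [U2 _ (hn z hz), U2 z hz, ht z hz, Y.ι_emb]
  have hodd : ∀ z, U (-z) = Y.ι (U z) := fun z => by
    simpa using hR 0 ⟨0, 0, by simp⟩ z
  have hper : ∀ (m n : ℤ) z, U (z + m + n * τ) = U z := fun m n z => by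
    rw [show z + m + n * τ = 2 * ((m + n * τ) / 2) - -z by ring, hR _ ⟨m, n, rfl⟩, ← hodd, neg_neg]
  have hpr : ∀ z, z ∉ HL τ → Y.pr (U z) = a z := fun z hz => by
    rw [U2 z hz, Y.pr_emb, hπ' z hz]
  have hYo : ∀ z, z ∉ HL τ → U z ∈ range Y.emb := fun z hz => ⟨_, (U2 z hz).symm⟩
  have hnYo : ∀ p q, Y.pt p q ∉ range Y.emb := fun p q h => by
    rw [Y.range_emb] at h
    exact h p q rfl
  have hev : ∀ z, z ∉ HL τ → a =ᶠ[𝓝 z] fun y => Y.pr (U y) := fun z hz =>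
    (hl_open hτ hz).mono fun y hy => (hpr y hy).symm
  have ho : IsOpen (range Y.emb) := Y.emb_open.isOpen_range
  have hsm : ContMDiff 𝓘(ℝ, ℂ) (𝓡 4) ∞ U := by
    intro z
    by_cases hz : z ∈ HL τ
    · obtain ⟨d, hd, -, -, -, hB, hev⟩ := hU z hz
      exact (((Y.ch_smooth _ _).contMDiffAt ((StdbH.isOpen_B2 _).mem_nhds hB.self_of_nhds)).comp z
        ((hd.contDiffAt (n := ∞)).restrict_scalars ℝ).contMDiffAt).congr_of_eventuallyEq hev
    · refine lift_sm ho Y.pr_smooth (hYo z hz) (Y.pr_bij _ (hYo z hz)).1 ?_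
        ((asm z).congr_of_eventuallyEq (hev z hz).symm)
      refine (Y.emb_open.continuous.continuousAt.comp
        (hG'.continuousAt (hl_open hτ hz))).congr ?_
      exact (hl_open hτ hz).mono fun y hy => (U2 y hy).symm
  have hdm : ∀ z, z ∉ HL τ → ∀ t, (dm a z t : HS.E4) =
      mfderiv (𝓡 4) (𝓡 4) Y.pr (U z) (dm U z t) := by
    intro z hz t
    refine (dm_congr (hev z hz) t).trans ?_
    have := mfderiv_comp z ((Y.pr_smooth.contMDiffAt (ho.mem_nhds (hYo z hz))).mdifferentiableAt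
      (by simp)) ((hsm z).mdifferentiableAt (by simp))
    exact (congrArg (fun B : ℂ →L[ℝ] HS.E4 => B t) this :)
  have hdm' : ∀ s ∈ HL τ, ∃ v : ℂ × ℂ, v ≠ 0 ∧ dirPt (St (i (K s)) (j (K s))) v = x (K s) ∧
      ∀ t : ℂ, (dm U s t : HS.E4) = dm2 (Y.ch (i (K s)) (j (K s))) 0 (t • v) := by
    intro s hs
    obtain ⟨d, hd, d0, d1, d2, hB, hev⟩ := hU s hs
    refine ⟨_, d1, d2, fun t => ?_⟩
    rw [← d0]
    exact dm_comp3 (((Y.ch_smooth _ _).contMDiffAt
      ((StdbH.isOpen_B2 _).mem_nhds hB.self_of_nhds)).mdifferentiableAt (by simp))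
      hd.differentiableAt.hasDerivAt hev t
  have h0B : ∀ p q, (0 : ℂ × ℂ) ∈ B2 (St p q).r := fun p q => by simpa [B2] using (St p q).r_pos
  have hKb : ∀ b, K (hp τ b) = σ b := fun b => xinj (by rw [← hK1 _ (hp_mem τ b), (ahalf b).1])
  refine ⟨⟨U, τ, hτ, hsm, hper, fun z z' e => ?_, fun z e => ?_, fun z => ?_⟩, ?_, hodd, hYo,
    σ, fun b => ⟨?_, ?_⟩⟩
  · by_cases hz : z ∈ HL τ <;> by_cases hz' : z' ∈ HL τ
    · rw [U1 z hz, U1 z' hz'] at e
      have h1 : K z = K z' := hinj (Prod.ext (Y.pt_inj _ _ _ _ e).1 (Y.pt_inj _ _ _ _ e).2)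
      obtain ⟨m, n, h | h⟩ := (aiff z z').1 (by rw [hK1 z hz, hK1 z' hz', h1])
      · exact ⟨m, n, h⟩
      · obtain ⟨m', n', e'⟩ := hz
        exact ⟨m - m', n - n', by push_cast; linear_combination h - 2 * e'⟩
    · exact (hnYo _ _ (by rw [← U1 z hz, e]; exact hYo z' hz')).elim
    · exact (hnYo _ _ (by rw [← U1 z' hz', ← e]; exact hYo z hz)).elim
    · obtain ⟨m, n, h | h⟩ := (aiff z z').1 (by rw [← hpr z hz, ← hpr z' hz', e])
      · exact ⟨m, n, h⟩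
      · rw [h, hper, hodd, U2 z hz, Y.ι_emb] at e
        exact absurd (Y.cov.free 1 _ (Y.emb_open.injective e).symm) (by decide)
  · by_cases hz : z ∈ HL τ
    · obtain ⟨v, hv, -, h⟩ := hdm' z hz
      have h1 := (h 1).symm.trans e
      rw [one_smul] at h1
      exact hv ((Y.ch_bij _ _ 0 (h0B _ _)).1 (h1.trans (map_zero _).symm))
    · exact aimm z hz ((hdm z hz 1).trans (by rw [e]; exact map_zero _))
  · by_cases hz : z ∈ HL τ
    · obtain ⟨v, -, -, h⟩ := hdm' z hz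
      refine (h _).trans ((Y.J_ch _ _ 0 (h0B _ _) v).trans (end_congr _ ?_ ?_))
      · rw [Y.ch_zero, U1 z hz]
      · rw [h 1, one_smul]
    · refine (Y.pr_bij _ (hYo z hz)).1 ?_
      exact (hdm z hz _).symm.trans ((ahol z).trans
        ((end_congr _ (hpr z hz).symm (hdm z hz 1)).trans (Y.J_pr _ (hYo z hz) _).symm))
  · ext y
    constructor
    · rintro ⟨z, rfl⟩
      by_cases hz : z ∈ HL τ
      · exact .inr ⟨K z, U1 z hz⟩
      · exact .inl ⟨hYo z hz, by rw [← arange]; exact ⟨z, (hpr z hz).symm⟩⟩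
    · rintro (⟨⟨y, rfl⟩, h⟩ | ⟨k, rfl⟩)
      · rw [← arange, Y.pr_emb] at h
        obtain ⟨z, hz⟩ := h
        have hz' : z ∉ HL τ := fun h =>
          Y.cov.mem y (i (K z)) (j (K z)) (by rw [← hz, hK1 z h]; exact (hxS _).2)
        obtain ⟨t, rfl⟩ := Y.cov.trans (G z) y ((hπ' z hz').trans hz)
        rcases two t with rfl | rfl
        · exact ⟨z, by rw [Y.cov.act_zero]; exact U2 z hz'⟩
        · exact ⟨-z, (hodd z).trans (by rw [U2 z hz', Y.ι_emb])⟩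
      · obtain ⟨b, rfl⟩ := σ.surjective k
        exact ⟨hp τ b, (U1 _ (hp_mem τ b)).trans (by rw [hKb])⟩
  · exact (U1 _ (hp_mem τ b)).trans (by rw [hKb])
  · obtain ⟨v, hv, h1, h2⟩ := hdm' _ (hp_mem τ b)
    rw [hKb] at h1 h2
    exact ⟨v, hv, by rw [h1]; exact (hxS _).1, h2⟩

theorem ATOR : ATOR_statement := fun _ _ _ _ _ _ _ Y S i j h1 h2 h3 h4 => ator Y S i j h1 h2 h3 h4

end Vale.Agent.P247Y
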