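import Vale.Agent.P247Y.Sta
import Vale.Agent.P247Y.LocInv

/-!
# P247, block Y: basic properties of the standard neighbourhoods
-/

set_option linter.unusedSectionVars false

open scoped Manifold ContDiff Topology
open Set Filter Metric Function

noncomputable section

namespace Vale.Agent.P247Y

open Vale.Agent.P247.SCY
open Vale.Agent.P247.SCY.HS
open Vale.Agent.P247X

namespace StdbH

theorem isOpen_Nr (r : ℝ) : IsOpen (Nr r) := isOpen_lt (by fun_prop) continuous_const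

theorem isOpen_B2 (r : ℝ) : IsOpen (B2 r) := isOpen_lt (by fun_prop) continuous_const

theorem isOpen_B0 (r : ℝ) : IsOpen (B0 r) := (isOpen_B2 r).sdiff isClosed_singleton

theorem Nr_mono {ρ r : ℝ} (h : ρ ≤ r) : Nr ρ ⊆ Nr r := fun _ hz => lt_of_lt_of_le hz h

theorem zero_mem {r : ℝ} (h : 0 < r) (ζ : ℂ) : ((0 : ℂ), ζ) ∈ Nr r := by simpa [Nr] using h

/-- the blow-down coordinates -/
def φ (z : ℂ × ℂ) : ℂ × ℂ := (z.1 ^ 2, z.2 / z.1)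

theorem φ_norm {z : ℂ × ℂ} (h : z.1 ≠ 0) :
    ‖(φ z).1‖ * (1 + ‖(φ z).2‖ ^ 2) = ‖z.1‖ ^ 2 + ‖z.2‖ ^ 2 := by
  have : ‖z.1‖ ≠ 0 := norm_ne_zero_iff.2 h
  simp only [φ, norm_pow, norm_div]
  field_simp

theorem φ_mem {z : ℂ × ℂ} {r : ℝ} (h : z.1 ≠ 0) (hz : z ∈ B2 r) : φ z ∈ Nr r := by
  change _ < r
  rw [φ_norm h]
  exact hz

theorem swap_mem {z : ℂ × ℂ} {r : ℝ} (hz : z ∈ B2 r) : z.swap ∈ B2 r := by
  have : ‖z.1‖ ^ 2 + ‖z.2‖ ^ 2 < r := hz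
  change ‖z.2‖ ^ 2 + ‖z.1‖ ^ 2 < r
  linarith

/-- the derivative of `φ` -/
def L (z : ℂ × ℂ) : (ℂ × ℂ) →L[ℂ] (ℂ × ℂ) :=
  ((2 * z.1) • ContinuousLinearMap.fst ℂ ℂ ℂ).prod
    (z.1⁻¹ • ContinuousLinearMap.snd ℂ ℂ ℂ - (z.2 / z.1 ^ 2) • ContinuousLinearMap.fst ℂ ℂ ℂ)

theorem L_apply (z a : ℂ × ℂ) : L z a = (2 * z.1 * a.1, z.1⁻¹ * a.2 - z.2 / z.1 ^ 2 * a.1) := rfl

theorem φ_der {z : ℂ × ℂ} (h : z.1 ≠ 0) : HasFDerivAt φ ((L z).restrictScalars ℝ) z := by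
  refine HasFDerivAt.restrictScalars ℝ ?_
  have h1 : HasFDerivAt (fun z : ℂ × ℂ => z.1) (ContinuousLinearMap.fst ℂ ℂ ℂ) z := hasFDerivAt_fst
  have h2 : HasFDerivAt (fun z : ℂ × ℂ => z.2) (ContinuousLinearMap.snd ℂ ℂ ℂ) z := hasFDerivAt_snd
  have h3 := (hasDerivAt_inv h).comp_hasFDerivAt z h1
  have h4 := (h1.pow 2).prodMk (h2.mul h3)
  refine (h4.congr_fderiv ?_).congr_of_eventuallyEq (Eventually.of_forall fun y => ?_)
  · ext <;> simp [L, div_eq_mul_inv]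
  · simp [φ, div_eq_mul_inv]

theorem φ_sm {z : ℂ × ℂ} (h : z.1 ≠ 0) : ContDiffAt ℝ ∞ φ z :=
  ContDiffAt.restrict_scalars ℝ (𝕜' := ℂ)
    ((contDiffAt_fst.pow 2).prodMk (contDiffAt_snd.div contDiffAt_fst h))

theorem L_bij {z : ℂ × ℂ} (h : z.1 ≠ 0) : Bijective (L z) := by
  refine ⟨fun a b hab => ?_, fun b => ⟨(b.1 / (2 * z.1), z.1 * b.2 + z.2 * b.1 / (2 * z.1 ^ 2)), ?_⟩⟩
  · rw [L_apply, L_apply, Prod.mk.injEq] at hab
    have h1 : a.1 = b.1 := mul_left_cancel₀ (mul_ne_zero two_ne_zero h) hab.1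
    have h2 := hab.2
    rw [h1, sub_left_inj] at h2
    exact Prod.ext h1 (mul_left_cancel₀ (inv_ne_zero h) h2)
  · rw [L_apply]
    ext <;> simp only <;> field_simp
    ring

theorem om0_L {z : ℂ × ℂ} (h : z.1 ≠ 0) (a b : ℂ × ℂ) : om0 (L z a) (L z b) = 2 * om0 a b := by
  simp only [L_apply, om0]
  field_simp
  ring

variable {X : Type} [TopologicalSpace X] [ChartedSpace HS.E4 X] [IsManifold (𝓡 4) ∞ X]

theorem dm2_comp {P g : ℂ × ℂ → X} {f : ℂ × ℂ → ℂ × ℂ} {z : ℂ × ℂ} {A : (ℂ × ℂ) →L[ℝ] (ℂ × ℂ)}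
    (hP : MDifferentiableAt 𝓘(ℝ, ℂ × ℂ) (𝓡 4) P (f z)) (hf : HasFDerivAt f A z)
    (hg : g =ᶠ[𝓝 z] P ∘ f) (a : ℂ × ℂ) : (dm2 g z a : HS.E4) = (dm2 P (f z) (A a) : HS.E4) := by
  have h1 := mfderiv_comp z hP hf.differentiableAt.mdifferentiableAt
  rw [mfderiv_eq_fderiv, hf.fderiv] at h1
  have h2 : (mfderiv 𝓘(ℝ, ℂ × ℂ) (𝓡 4) g z : (ℂ × ℂ) →L[ℝ] HS.E4) =
    mfderiv 𝓘(ℝ, ℂ × ℂ) (𝓡 4) (P ∘ f) z := hg.mfderiv_eq
  exact (congrArg (fun B : (ℂ × ℂ) →L[ℝ] HS.E4 => B a) (h2.trans h1) :)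

theorem form_congr (α : Form X 2) {x y : X} (h : x = y) {u v u' v' : HS.E4} (hu : u = u')
    (hv : v = v') : α x ![u, v] = α y ![u', v'] := by
  subst h hu hv
  rfl

theorem end_congr (J : EndF X) {x y : X} (h : x = y) {u u' : HS.E4} (hu : u = u') :
    (J x u : HS.E4) = (J y u' : HS.E4) := by
  subst h hu
  rfl

variable {w : Tri X}

/-- what is proved at every point of the punctured ball -/
def Loc (w : Tri X) (s : ℝ) (g : ℂ × ℂ → X) (z : ℂ × ℂ) : Prop :=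
  ContMDiffAt 𝓘(ℝ, ℂ × ℂ) (𝓡 4) ∞ g z ∧ Bijective (dm2 g z) ∧
    ∀ a b, w 0 (g z) ![dm2 g z a, dm2 g z b] = 2 * (om0 a b).re ∧
      w 1 (g z) ![dm2 g z a, dm2 g z b] = 2 * s * (om0 a b).im ∧
      dm2 g z (Complex.I • a) = Jw w (g z) (dm2 g z a)

theorem loc_of {P g : ℂ × ℂ → X} {f : ℂ × ℂ → ℂ × ℂ} {z : ℂ × ℂ} {A : (ℂ × ℂ) →L[ℂ] (ℂ × ℂ)}
    {s t : ℝ} (hP : ContMDiffAt 𝓘(ℝ, ℂ × ℂ) (𝓡 4) ∞ P (f z)) (hb : Bijective (dm2 P (f z)))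
    (h0 : ∀ a b, w 0 (P (f z)) ![dm2 P (f z) a, dm2 P (f z) b] = t * (om0 a b).re)
    (h1 : ∀ a b, w 1 (P (f z)) ![dm2 P (f z) a, dm2 P (f z) b] = t * (s * (om0 a b).im))
    (hJ : ∀ a, dm2 P (f z) (Complex.I • a) = Jw w (P (f z)) (dm2 P (f z) a))
    (hs : ContDiffAt ℝ ∞ f z) (hf : HasFDerivAt f (A.restrictScalars ℝ) z) (hA : Bijective A)
    (ho : ∀ a b, t * om0 (A a) (A b) = 2 * om0 a b) (hg : g =ᶠ[𝓝 z] P ∘ f) : Loc w s g z := by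
  have hd := dm2_comp (hP.mdifferentiableAt (by simp)) hf hg
  have he : g z = P (f z) := hg.self_of_nhds
  refine ⟨(hP.comp z hs.contMDiffAt).congr_of_eventuallyEq hg, ?_, fun a b => ⟨?_, ?_, ?_⟩⟩
  · have : (dm2 g z : ℂ × ℂ → HS.E4) = (dm2 P (f z) : ℂ × ℂ → HS.E4) ∘ A := funext hd
    exact (this ▸ hb.comp hA :)
  · refine (form_congr _ he (hd a) (hd b)).trans ((h0 _ _).trans ?_)
    simpa using congrArg Complex.re (ho a b)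
  · refine (form_congr _ he (hd a) (hd b)).trans ((h1 _ _).trans ?_)
    have := congrArg Complex.im (ho a b)
    simp only [Complex.mul_im, Complex.ofReal_re, Complex.ofReal_im, zero_mul, add_zero,
      Complex.re_ofNat, Complex.im_ofNat] at this
    change t * (s * (om0 (A a) (A b)).im) = _
    linear_combination s * this
  · refine (hd _).trans (Eq.trans ?_ (end_congr (Jw w) he (hd a)).symm)
    change (dm2 P (f z) (A (Complex.I • a)) : HS.E4) = _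
    rw [map_smul]
    exact hJ _

variable (S : Std w)

theorem sq_p {z : ℂ × ℂ} (h : z.1 ≠ 0) : sq S z = S.p (φ z) := if_pos h

theorem sq_q {z : ℂ × ℂ} (h : z.2 ≠ 0) (hz : z ∈ B2 S.r) : sq S z = S.q (φ z.swap) := by
  by_cases h1 : z.1 = 0
  · rw [sq, if_neg (not_not.2 h1)]
    simp [φ, h1]
  · rw [sq_p S h1, ← S.glue _ (φ_mem h1 hz) (div_ne_zero h h1)]
    congr 1
    ext
    · simp only [φ, Prod.fst_swap]
      field_simp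
    · simp [φ]

theorem ne_or {z : ℂ × ℂ} (h : z ≠ 0) : z.1 ≠ 0 ∨ z.2 ≠ 0 := by
  by_contra h'
  push Not at h'
  exact h (Prod.ext h'.1 h'.2)

theorem p_at {z : ℂ × ℂ} (hz : z ∈ Nr S.r) : ContMDiffAt 𝓘(ℝ, ℂ × ℂ) (𝓡 4) ∞ S.p z :=
  S.p_smooth.contMDiffAt ((isOpen_Nr _).mem_nhds hz)

theorem q_at {z : ℂ × ℂ} (hz : z ∈ Nr S.r) : ContMDiffAt 𝓘(ℝ, ℂ × ℂ) (𝓡 4) ∞ S.q z :=
  S.q_smooth.contMDiffAt ((isOpen_Nr _).mem_nhds hz)

/-- the swap -/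
def sw : (ℂ × ℂ) →L[ℂ] (ℂ × ℂ) := (ContinuousLinearEquiv.prodComm ℂ ℂ ℂ : (ℂ × ℂ) →L[ℂ] (ℂ × ℂ))

theorem loc_sq {z : ℂ × ℂ} (hz : z ∈ B0 S.r) : Loc w S.s (sq S) z := by
  rcases ne_or hz.2 with h | h
  · have hm := φ_mem h hz.1
    refine loc_of (t := 1) (p_at S hm) (S.p_imm _ hm) (fun a b => by rw [S.p0 _ hm, one_mul])
      (fun a b => by rw [S.p1 _ hm, one_mul]) (S.p_hol _ hm) (φ_sm h) (φ_der h) (L_bij h)
      (fun a b => by rw [om0_L h]; simp) ?_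
    filter_upwards [continuous_fst.continuousAt.eventually_ne h] with y hy
    exact sq_p S hy
  · have hm : φ z.swap ∈ Nr S.r := φ_mem h (swap_mem hz.1)
    refine loc_of (t := -1) (f := fun z => φ z.swap) (A := (L z.swap).comp sw) (q_at S hm)
      (S.q_imm _ hm) (fun a b => by rw [S.q0 _ hm, neg_one_mul])
      (fun a b => by rw [S.q1 _ hm, neg_one_mul]) (S.q_hol _ hm)
      ((φ_sm (z := z.swap) h).comp z (contDiffAt_snd.prodMk contDiffAt_fst))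
      ((φ_der (z := z.swap) h).comp z (sw.restrictScalars ℝ).hasFDerivAt)
      ((L_bij (z := z.swap) h).comp Prod.swap_bijective) (fun a b => ?_) ?_
    · change _ * om0 (L z.swap a.swap) (L z.swap b.swap) = _
      rw [om0_L (z := z.swap) h]
      simp only [om0, Prod.fst_swap, Prod.snd_swap]
      push_cast
      ring
    · filter_upwards [continuous_snd.continuousAt.eventually_ne h,
        (isOpen_B2 _).mem_nhds hz.1] with y hy hy'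
      exact sq_q S hy hy'

theorem q_zero (ζ : ℂ) : S.q (0, ζ) ∈ S.set := by
  by_cases h : ζ = 0
  · exact Or.inl (by rw [h])
  · refine Or.inr ⟨ζ⁻¹, ?_⟩
    have := S.glue (0, ζ⁻¹) (zero_mem S.r_pos _) (inv_ne_zero h)
    simpa using this.symm

theorem p_not {z : ℂ × ℂ} (hz : z ∈ Nr S.r) (h : z.1 ≠ 0) : S.p z ∉ S.set := by
  rintro (h1 | ⟨ζ, h1⟩)
  · obtain ⟨h2, h3⟩ := S.sep _ hz _ (zero_mem S.r_pos 0) h1
    exact inv_ne_zero h2 (congrArg Prod.snd h3).symm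
  · exact h (congrArg Prod.fst (S.p_inj (zero_mem S.r_pos ζ) hz h1)).symm

theorem q_not {z : ℂ × ℂ} (hz : z ∈ Nr S.r) (h : z.1 ≠ 0) : S.q z ∉ S.set := by
  rintro (h1 | ⟨ζ, h1⟩)
  · exact h (congrArg Prod.fst (S.q_inj hz (zero_mem S.r_pos 0) h1))
  · obtain ⟨-, h3⟩ := S.sep _ (zero_mem S.r_pos ζ) _ hz h1
    exact h (by simpa using congrArg Prod.fst h3)

theorem ex_φ {z : ℂ × ℂ} (h : z.1 ≠ 0) : ∃ y : ℂ × ℂ, y.1 ≠ 0 ∧ φ y = z := by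
  obtain ⟨u, hu⟩ := IsAlgClosed.exists_pow_nat_eq z.1 (n := 2) two_pos
  have hu0 : u ≠ 0 := fun h0 => h (by rw [← hu, h0]; simp)
  exact ⟨(u, u * z.2), hu0, Prod.ext hu (mul_div_cancel_left₀ _ hu0)⟩

/-- the description of saturated sets in the two charts -/
theorem sat (A : Set ℝ) (hA : ∀ t ∈ A, t < S.r) :
    S.set ∪ sq S '' {z | z ≠ 0 ∧ ‖z.1‖ ^ 2 + ‖z.2‖ ^ 2 ∈ A} = S.set ∪
      (S.p '' {z | ‖z.1‖ * (1 + ‖z.2‖ ^ 2) ∈ A} ∪ S.q '' {z | ‖z.1‖ * (1 + ‖z.2‖ ^ 2) ∈ A}) := by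
  refine Subset.antisymm (union_subset_union_right _ ?_) (union_subset subset_union_left ?_)
  · rintro _ ⟨z, ⟨h0, hz⟩, rfl⟩
    rcases ne_or h0 with h | h
    · exact Or.inl ⟨φ z, by rw [mem_ofPred_eq, φ_norm h]; exact hz, (sq_p S h).symm⟩
    · refine Or.inr ⟨φ z.swap, ?_, (sq_q S h (hA _ hz)).symm⟩
      rw [mem_ofPred_eq, φ_norm (z := z.swap) h, add_comm]
      exact hz
  · rintro _ (⟨z, hz, rfl⟩ | ⟨z, hz, rfl⟩) <;> by_cases h : z.1 = 0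
    · exact Or.inl (Or.inr ⟨z.2, by rw [← h]⟩)
    · obtain ⟨y, hy, rfl⟩ := ex_φ h
      rw [mem_ofPred_eq, φ_norm hy] at hz
      exact Or.inr ⟨y, ⟨fun h0 => hy (by rw [h0]; rfl), hz⟩, sq_p S hy⟩
    · have := q_zero S z.2
      rw [← h] at this
      exact Or.inl this
    · obtain ⟨y, hy, rfl⟩ := ex_φ h
      rw [mem_ofPred_eq, φ_norm hy, add_comm] at hz
      exact Or.inr ⟨y.swap, ⟨fun h0 => hy (congrArg Prod.snd h0), hz⟩, sq_q S hy (hA _ hz)⟩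

theorem set_sub {ρ : ℝ} (h : 0 < ρ) : S.set ⊆ S.p '' Nr ρ ∪ S.q '' Nr ρ := by
  rintro _ (rfl | ⟨ζ, rfl⟩)
  · exact Or.inr ⟨_, zero_mem h 0, rfl⟩
  · exact Or.inl ⟨_, zero_mem h ζ, rfl⟩

theorem sat_open {ρ : ℝ} (h : 0 < ρ) (h' : ρ ≤ S.r) :
    S.set ∪ sq S '' B0 ρ = S.p '' Nr ρ ∪ S.q '' Nr ρ := by
  have h1 := sat S (Iio ρ) fun t ht => lt_of_lt_of_le ht h'
  rw [show B0 ρ = {z | z ≠ 0 ∧ ‖z.1‖ ^ 2 + ‖z.2‖ ^ 2 ∈ Iio ρ} from Set.ext fun _ => and_comm, h1]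
  exact union_eq_right.2 (set_sub S h)

theorem open_nb {ρ : ℝ} (h' : ρ ≤ S.r) : IsOpen (S.p '' Nr ρ ∪ S.q '' Nr ρ) :=
  (isOpen_image_bij (isOpen_Nr _) S.p_smooth S.p_imm (isOpen_Nr _) (Nr_mono h')).union
    (isOpen_image_bij (isOpen_Nr _) S.q_smooth S.q_imm (isOpen_Nr _) (Nr_mono h'))

/-- compact pieces -/
def Kc (ρ : ℝ) : Set (ℂ × ℂ) := {z | ‖z.2‖ ≤ 1 ∧ ‖z.1‖ * (1 + ‖z.2‖ ^ 2) ≤ ρ}

theorem isCompact_Kc (ρ : ℝ) : IsCompact (Kc ρ) := by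
  have h1 : IsClosed {z : ℂ × ℂ | ‖z.2‖ ≤ 1} := isClosed_le (by fun_prop) continuous_const
  have h2 : IsClosed {z : ℂ × ℂ | ‖z.1‖ * (1 + ‖z.2‖ ^ 2) ≤ ρ} :=
    isClosed_le (by fun_prop) continuous_const
  refine ((isCompact_closedBall (0 : ℂ) ρ).prod (isCompact_closedBall (0 : ℂ) 1)).of_isClosed_subset
    (h1.inter h2) fun z hz => ⟨?_, ?_⟩
  · rw [mem_closedBall_zero_iff]
    nlinarith [hz.2, norm_nonneg z.1, sq_nonneg ‖z.2‖]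
  · exact mem_closedBall_zero_iff.2 hz.1

theorem glue_norm {z : ℂ × ℂ} (h : z.2 ≠ 0) :
    ‖z.1 * z.2 ^ 2‖ * (1 + ‖z.2⁻¹‖ ^ 2) = ‖z.1‖ * (1 + ‖z.2‖ ^ 2) := by
  have : ‖z.2‖ ≠ 0 := norm_ne_zero_iff.2 h
  simp only [norm_mul, norm_pow, norm_inv]
  field_simp
  ring

theorem cpt {ρ : ℝ} (h : ρ < S.r) : IsCompact
    (S.p '' {z | ‖z.1‖ * (1 + ‖z.2‖ ^ 2) ∈ Iic ρ} ∪ S.q '' {z | ‖z.1‖ * (1 + ‖z.2‖ ^ 2) ∈ Iic ρ}) := by
  have hs : Kc ρ ⊆ Nr S.r := fun z hz => lt_of_le_of_lt hz.2 h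
  have hk := ((isCompact_Kc ρ).image_of_continuousOn (S.p_smooth.continuousOn.mono hs)).union
    ((isCompact_Kc ρ).image_of_continuousOn (S.q_smooth.continuousOn.mono hs))
  have key : ∀ z : ℂ × ℂ, ‖z.1‖ * (1 + ‖z.2‖ ^ 2) ≤ ρ → ¬‖z.2‖ ≤ 1 →
      z.2 ≠ 0 ∧ (z.1 * z.2 ^ 2, z.2⁻¹) ∈ Kc ρ := fun z hz h1 => by
    have h2 : z.2 ≠ 0 := fun h0 => h1 (by simp [h0])
    refine ⟨h2, ?_, (glue_norm h2).trans_le hz⟩
    rw [norm_inv]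
    exact inv_le_one_of_one_le₀ (not_le.1 h1).le
  convert hk using 1
  refine Subset.antisymm ?_ (union_subset_union (image_mono fun z hz => hz.2)
    (image_mono fun z hz => hz.2))
  rintro _ (⟨z, hz, rfl⟩ | ⟨z, hz, rfl⟩) <;> by_cases h1 : ‖z.2‖ ≤ 1
  · exact Or.inl ⟨z, ⟨h1, hz⟩, rfl⟩
  · exact Or.inr ⟨_, (key z hz h1).2, S.glue z (lt_of_le_of_lt hz h) (key z hz h1).1⟩
  · exact Or.inr ⟨z, ⟨h1, hz⟩, rfl⟩
  · obtain ⟨h2, h3⟩ := key z hz h1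
    refine Or.inl ⟨_, h3, ?_⟩
    rw [← S.glue _ (hs h3) (inv_ne_zero h2)]
    congr 1
    ext
    · simp only
      field_simp
    · simp

theorem cpt_set : IsCompact S.set := by
  convert cpt S S.r_pos using 1
  refine Subset.antisymm ?_ ?_
  · rintro _ (rfl | ⟨ζ, rfl⟩)
    · exact Or.inr ⟨_, by simp, rfl⟩
    · exact Or.inl ⟨_, by simp, rfl⟩
  · have key : ∀ z : ℂ × ℂ, ‖z.1‖ * (1 + ‖z.2‖ ^ 2) ≤ 0 → z = (0, z.2) := fun z hz =>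
      Prod.ext (norm_le_zero_iff.1 (by nlinarith [norm_nonneg z.1, sq_nonneg ‖z.2‖])) rfl
    rintro _ (⟨z, hz, rfl⟩ | ⟨z, hz, rfl⟩) <;> rw [key z hz]
    · exact Or.inr ⟨_, rfl⟩
    · exact q_zero S _

theorem dm_inr {P : ℂ × ℂ → X} {z : ℂ} (hP : ContMDiffAt 𝓘(ℝ, ℂ × ℂ) (𝓡 4) ∞ P (0, z)) (a : ℂ) :
    (dm (fun ζ => P (0, ζ)) z a : HS.E4) = (dm2 P (0, z) (0, a) : HS.E4) := by
  have h1 := mfderiv_comp (I' := 𝓘(ℝ, ℂ × ℂ)) (f := ContinuousLinearMap.inr ℝ ℂ ℂ) z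
    (hP.mdifferentiableAt (by simp)) (ContinuousLinearMap.inr ℝ ℂ ℂ).mdifferentiableAt
  rw [ContinuousLinearMap.mfderiv_eq] at h1
  exact (congrArg (fun B : ℂ →L[ℝ] HS.E4 => B a) h1 :)

theorem imm_inr {P : ℂ × ℂ → X} {z : ℂ} (hP : ContMDiffAt 𝓘(ℝ, ℂ × ℂ) (𝓡 4) ∞ P (0, z))
    (hb : Bijective (dm2 P (0, z))) : dm (fun ζ => P (0, ζ)) z 1 ≠ 0 := fun h => by
  have h1 : dm2 P (0, z) (0, 1) = dm2 P (0, z) 0 :=
    ((dm_inr hP 1).symm.trans h).trans (map_zero _).symm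
  exact one_ne_zero (congrArg Prod.snd (hb.1 h1))

theorem hol_inr {P : ℂ × ℂ → X} {z : ℂ} (hP : ContMDiffAt 𝓘(ℝ, ℂ × ℂ) (𝓡 4) ∞ P (0, z))
    {J : EndF X} (hJ : ∀ a, dm2 P (0, z) (Complex.I • a) = J (P (0, z)) (dm2 P (0, z) a)) :
    JAt J (fun ζ => P (0, ζ)) z := by
  have h := hJ (0, 1)
  rw [show Complex.I • ((0 : ℂ), (1 : ℂ)) = (0, Complex.I) by simp] at h
  exact (dm_inr hP _).trans (h.trans (end_congr J rfl (dm_inr hP 1).symm))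

/-- the zero section as a sphere -/
def sph : Sph (Jw w) where
  u z := S.p (0, z)
  v z := S.q (0, z)
  u_smooth z := (p_at S (zero_mem S.r_pos z)).comp z
    (contDiffAt_const.prodMk contDiffAt_id).contMDiffAt
  v_smooth z := (q_at S (zero_mem S.r_pos z)).comp z
    (contDiffAt_const.prodMk contDiffAt_id).contMDiffAt
  glue z hz := by simpa using S.glue (0, z⁻¹) (zero_mem S.r_pos _) (inv_ne_zero hz)
  inj a b h := congrArg Prod.snd (S.p_inj (zero_mem S.r_pos a) (zero_mem S.r_pos b) h)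
  inf := by
    rintro ⟨ζ, h⟩
    obtain ⟨h2, h3⟩ := S.sep _ (zero_mem S.r_pos ζ) _ (zero_mem S.r_pos 0) h
    exact inv_ne_zero h2 (congrArg Prod.snd h3).symm
  u_imm z := imm_inr (p_at S (zero_mem S.r_pos z)) (S.p_imm _ (zero_mem S.r_pos z))
  v_imm z := imm_inr (q_at S (zero_mem S.r_pos z)) (S.q_imm _ (zero_mem S.r_pos z))
  u_hol z := hol_inr (p_at S (zero_mem S.r_pos z)) (S.p_hol _ (zero_mem S.r_pos z))
  v_hol z := hol_inr (q_at S (zero_mem S.r_pos z)) (S.q_hol _ (zero_mem S.r_pos z))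

theorem sq_not {z : ℂ × ℂ} (hz : z ∈ B0 S.r) : sq S z ∉ S.set := by
  rcases ne_or hz.2 with h | h
  · rw [sq_p S h]
    exact p_not S (φ_mem h hz.1) (pow_ne_zero 2 h)
  · rw [sq_q S h hz.1]
    exact q_not S (φ_mem h (swap_mem hz.1)) (pow_ne_zero 2 h)

theorem φ_inj {z z' : ℂ × ℂ} (h : z.1 ≠ 0) (h' : z'.1 ≠ 0) (e : φ z = φ z') : z' = z ∨ z' = -z := by
  have e1 : z.1 ^ 2 = z'.1 ^ 2 := congrArg Prod.fst e
  have e2 : z.2 / z.1 = z'.2 / z'.1 := congrArg Prod.snd e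
  rw [div_eq_div_iff h h'] at e2
  rcases sq_eq_sq_iff_eq_or_eq_neg.1 e1.symm with h1 | h1
  · rw [h1] at e2
    exact Or.inl (Prod.ext h1 (mul_right_cancel₀ h e2).symm)
  · rw [h1] at e2
    exact Or.inr (Prod.ext h1 (mul_right_cancel₀ h (by
      simp only [Prod.snd_neg]; linear_combination -e2)))

theorem sq_inj {z z' : ℂ × ℂ} (hz : z ∈ B0 S.r) (hz' : z' ∈ B0 S.r) :
    sq S z = sq S z' ↔ z' = z ∨ z' = -z := by
  have mix : ∀ y ∈ B0 S.r, ∀ y' ∈ B0 S.r, y.1 ≠ 0 → y'.1 = 0 → sq S y ≠ sq S y' := by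
    intro y hy y' hy' h h' e
    have h2 := (ne_or hy'.2).resolve_left (not_not.2 h')
    rw [sq_p S h, sq_q S h2 hy'.1] at e
    obtain ⟨h3, h4⟩ := S.sep _ (φ_mem h hy.1) _ (φ_mem h2 (swap_mem hy'.1)) e
    refine inv_ne_zero h3 ((congrArg Prod.snd h4).symm.trans ?_)
    simp [φ, h']
  refine ⟨fun e => ?_, ?_⟩
  · by_cases h : z.1 = 0 <;> by_cases h' : z'.1 = 0
    · have h2 := (ne_or hz.2).resolve_left (not_not.2 h)
      have h2' := (ne_or hz'.2).resolve_left (not_not.2 h')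
      rw [sq_q S h2 hz.1, sq_q S h2' hz'.1] at e
      rcases φ_inj (z := z.swap) (z' := z'.swap) h2 h2'
        (S.q_inj (φ_mem h2 (swap_mem hz.1)) (φ_mem h2' (swap_mem hz'.1)) e) with h3 | h3
      · exact Or.inl (Prod.swap_injective h3)
      · exact Or.inr (Prod.swap_injective h3)
    · exact (mix _ hz' _ hz h' h e.symm).elim
    · exact (mix _ hz _ hz' h h' e).elim
    · rw [sq_p S h, sq_p S h'] at e
      exact φ_inj h h' (S.p_inj (φ_mem h hz.1) (φ_mem h' hz'.1) e)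
  · rintro (rfl | rfl)
    · rfl
    · simp [sq, neg_div_neg_eq]

end StdbH

open StdbH in
theorem stdb : STDB_statement := by
  intro X _ _ _ _ w S
  refine ⟨open_nb S le_rfl, cpt_set S, set_sub S S.r_pos, ⟨sph S, fun _ => rfl, fun _ => rfl⟩,
    fun z hz => (loc_sq S hz).1.contMDiffWithinAt, fun z hz => (loc_sq S hz).2.1, ?_,
    fun z hz z' hz' => sq_inj S hz hz', fun u ζ hu h => ?_, fun z hz => (loc_sq S hz).2.2,
    fun ρ h h' => by rw [sat_open S h h']; exact open_nb S h', fun ρ h => ?_⟩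
  · rw [Std.nb, ← sat_open S S.r_pos le_rfl, union_sdiff_cancel_left]
    rintro _ ⟨h, z, hz, rfl⟩
    exact sq_not S hz h
  · rw [sq_q S hu h]
    simp [φ, mul_div_cancel_left₀ _ hu]
  · have := sat S (Iic ρ) fun t ht => lt_of_le_of_lt ht h
    rw [show {z : ℂ × ℂ | z ≠ 0 ∧ ‖z.1‖ ^ 2 + ‖z.2‖ ^ 2 ≤ ρ} =
      {z | z ≠ 0 ∧ ‖z.1‖ ^ 2 + ‖z.2‖ ^ 2 ∈ Iic ρ} from rfl, this]
    exact (cpt_set S).union (cpt S h)

end Vale.Agent.P247Y
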