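import Vale.Agent.P247Y.Wp
import Vale.Agent.P247Y.Stdb

/-!
# P247, block Y: local lifts near the branch points
-/

set_option linter.all false

open scoped Manifold ContDiff Topology
open Set Filter Metric Function

noncomputable section

namespace Vale.Agent.P247Y

open Vale.Agent.P247.SCY
open Vale.Agent.P247X

namespace AtorH

open WpH StdbH

theorem sqrt_two {f : ℂ → ℂ} (hf : AnalyticAt ℂ f 0) (h0 : f 0 = 0) (h1 : deriv f 0 = 0)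
    (h2 : deriv (deriv f) 0 ≠ 0) :
    ∃ ρ : ℂ → ℂ, AnalyticAt ℂ ρ 0 ∧ ρ 0 ≠ 0 ∧ ∀ᶠ z in 𝓝 (0 : ℂ), f z = (z * ρ z) ^ 2 := by
  have hord : ((2 : ℕ) : ℕ∞) ≤ analyticOrderAt f 0 := by
    rw [natCast_le_analyticOrderAt_iff_iteratedDeriv_eq_zero hf]
    intro i hi
    interval_cases i
    · simpa using h0
    · simpa using h1
  obtain ⟨k, hk, hfk⟩ := (natCast_le_analyticOrderAt hf).1 hord
  have hfk' : f =ᶠ[𝓝 0] fun z => (z - 0) ^ 2 * k z := hfk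
  have hk0 : k 0 ≠ 0 := fun e => h2 (by rw [hfk'.deriv.deriv_eq, (deriv_two hk).2, e, mul_zero])
  obtain ⟨s, hs⟩ := IsAlgClosed.exists_pow_nat_eq (k 0) (by norm_num : 0 < 2)
  refine ⟨fun z => s * (k z / k 0) ^ ((2 : ℕ) : ℂ)⁻¹, analyticAt_const.mul
    ((hk.div_const).cpow analyticAt_const (by simp [hk0])), ?_, ?_⟩
  · simp only [div_self hk0, Complex.one_cpow, mul_one]
    rintro rfl
    exact hk0 (by rw [← hs]; simp)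
  · filter_upwards [hfk'] with z hz
    rw [hz, mul_pow, mul_pow, Complex.cpow_nat_inv_pow _ two_ne_zero, hs, sub_zero]
    field_simp

variable {X : Type} [TopologicalSpace X] [ChartedSpace HS.E4 X] [IsManifold (𝓡 4) ∞ X]
  {J : EndF X}

theorem dm_comp2 {P : ℂ × ℂ → X} {ψ : ℂ → ℂ × ℂ} {φ : ℂ → X} {z : ℂ} {A : ℂ →L[ℝ] ℂ × ℂ}
    (hP : MDifferentiableAt 𝓘(ℝ, ℂ × ℂ) (𝓡 4) P (ψ z)) (hψ : HasFDerivAt ψ A z)
    (h : φ =ᶠ[𝓝 z] fun y => P (ψ y)) (c : ℂ) : (dm φ z c : HS.E4) = dm2 P (ψ z) (A c) := by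
  have h2 := (hP.hasMFDerivAt.comp z hψ.hasMFDerivAt).mfderiv
  refine (dm_congr h c).trans ?_
  unfold P247X.dm
  rw [show (fun y => P (ψ y)) = P ∘ ψ from rfl, h2]
  rfl

theorem dm_comp3 {P : ℂ × ℂ → X} {ψ : ℂ → ℂ × ℂ} {φ : ℂ → X} {z : ℂ} {a : ℂ × ℂ}
    (hP : MDifferentiableAt 𝓘(ℝ, ℂ × ℂ) (𝓡 4) P (ψ z)) (hψ : HasDerivAt ψ a z)
    (h : φ =ᶠ[𝓝 z] fun y => P (ψ y)) (c : ℂ) : (dm φ z c : HS.E4) = dm2 P (ψ z) (c • a) :=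
  dm_comp2 hP (hψ.hasFDerivAt.restrictScalars ℝ) h c

/-- holomorphic curves in a holomorphic chart -/
theorem hol_lift {P : ℂ × ℂ → X} {N : Set (ℂ × ℂ)} (hN : IsOpen N)
    (hP : ContMDiffOn 𝓘(ℝ, ℂ × ℂ) (𝓡 4) ∞ P N) (hb : ∀ z ∈ N, Bijective (dm2 P z))
    (hh : ∀ z ∈ N, ∀ a, dm2 P z (Complex.I • a) = J (P z) (dm2 P z a)) {φ : ℂ → X}
    (hφ : ContMDiff 𝓘(ℝ, ℂ) (𝓡 4) ∞ φ) (hJ : ∀ z, JAt J φ z) {w₀ : ℂ} {z₀ : ℂ × ℂ} (hz : z₀ ∈ N)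
    (e : P z₀ = φ w₀) :
    ∃ ψ : ℂ → ℂ × ℂ, AnalyticAt ℂ ψ w₀ ∧ ψ w₀ = z₀ ∧ ∀ᶠ w in 𝓝 w₀, φ w = P (ψ w) := by
  obtain ⟨ε, h1, h2, h3, h4⟩ := locInv hN hP hz (hb z₀ hz)
  have ht : ∀ᶠ w in 𝓝 w₀, φ w ∈ ε.target :=
    hφ.continuous.continuousAt.eventually (ε.open_target.mem_nhds (by
      rw [← e, ← h3]; exact ε.map_source h1))
  have hev : ∀ᶠ w in 𝓝 w₀, φ w = P (ε.symm (φ w)) := by
    filter_upwards [ht] with w hw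
    rw [← h3, ε.right_inv hw]
  refine ⟨fun w => ε.symm (φ w), ?_, by simp only [← e, ← h3, ε.left_inv h1], hev⟩
  rw [Complex.analyticAt_iff_eventually_differentiableAt]
  filter_upwards [ht, hev.eventually_nhds] with w hw hw'
  have hm := h2 (ε.map_target hw)
  have hd : DifferentiableAt ℝ (fun w => ε.symm (φ w)) w :=
    (((h4.contMDiffAt (ε.open_target.mem_nhds hw)).comp w (hφ w)).contDiffAt).differentiableAt
      (by simp)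
  have k := dm_comp2 ((hP.contMDiffAt (hN.mem_nhds hm)).mdifferentiableAt (by simp))
    hd.hasFDerivAt hw'
  refine differentiableAt_complex_iff_differentiableAt_real.2 ⟨hd, (hb _ hm).1 ?_⟩
  exact (k _).symm.trans ((hJ w).trans ((end_congr J hw'.self_of_nhds (k 1)).trans
    (hh _ hm _).symm))

theorem curve (φ : ℂ → X) (w₀ c : ℂ) (hφ : MDifferentiableAt 𝓘(ℝ, ℂ) (𝓡 4) φ w₀) :
    MDifferentiableAt 𝓘(ℝ, ℝ) (𝓡 4) (fun t : ℝ => φ (w₀ + t * c)) 0 ∧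
    (mfderiv 𝓘(ℝ, ℝ) (𝓡 4) (fun t : ℝ => φ (w₀ + t * c)) 0 (1 : ℝ) : HS.E4) = dm φ w₀ c := by
  have h1 : HasDerivAt (fun t : ℝ => w₀ + t * c) c 0 := by
    simpa using ((Complex.ofRealCLM.hasDerivAt (x := (0 : ℝ))).mul_const c).const_add w₀
  have h2 : HasMFDerivAt 𝓘(ℝ, ℂ) (𝓡 4) φ ((fun t : ℝ => w₀ + t * c) 0)
      (mfderiv 𝓘(ℝ, ℂ) (𝓡 4) φ w₀ : ℂ →L[ℝ] HS.E4) := by
    have e : (fun t : ℝ => w₀ + t * c) 0 = w₀ := by simp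
    rw [e]
    exact hφ.hasMFDerivAt
  have h3 := h2.comp 0 h1.hasFDerivAt.hasMFDerivAt
  refine ⟨h3.mdifferentiableAt, ?_⟩
  rw [show (fun t : ℝ => φ (w₀ + t * c)) = φ ∘ fun t : ℝ => w₀ + t * c from rfl, h3.mfderiv]
  exact congrArg (mfderiv 𝓘(ℝ, ℂ) (𝓡 4) φ w₀) (one_smul ℝ c)

variable {w : Tri X}

/-- the two charts of a standard neighbourhood -/
theorem std_chart (S : Std w) {x : X} (hx : x ∈ S.set) :
    ∃ (P : ℂ × ℂ → X) (ζ₀ : ℂ) (E : ℂ → ℂ × ℂ), ContMDiffOn 𝓘(ℝ, ℂ × ℂ) (𝓡 4) ∞ P (Nr S.r) ∧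
      (∀ z ∈ Nr S.r, Bijective (dm2 P z)) ∧
      (∀ z ∈ Nr S.r, ∀ a, dm2 P z (Complex.I • a) = Jw w (P z) (dm2 P z a)) ∧
      (∀ ζ, P (0, ζ) ∈ S.set) ∧ P (0, ζ₀) = x ∧ (∀ ζ, AnalyticAt ℂ E ζ) ∧ (∀ ζ, E ζ ≠ 0) ∧
      (∀ u ζ : ℂ, u ≠ 0 → u • E ζ ∈ B2 S.r → sq S (u • E ζ) = P (u ^ 2, ζ)) ∧
      ∀ ρ : ℂ, ρ ≠ 0 → dirPt S (ρ • E ζ₀) = x := by
  rcases hx with rfl | ⟨ζ₀, rfl⟩
  · refine ⟨S.q, 0, fun ζ => (ζ, 1), S.q_smooth, S.q_imm, S.q_hol, q_zero S, rfl,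
      fun ζ => analyticAt_id.prod analyticAt_const, fun ζ => by simp, fun u ζ hu h => ?_,
      fun ρ _ => by simp [dirPt]⟩
    rw [sq_q S (by simpa using hu) h]
    simp [StdbH.φ, hu]
  · refine ⟨S.p, ζ₀, fun ζ => (1, ζ), S.p_smooth, S.p_imm, S.p_hol, fun ζ => .inr ⟨ζ, rfl⟩, rfl,
      fun ζ => analyticAt_const.prod analyticAt_id, fun ζ => by simp, fun u ζ hu h => ?_,
      fun ρ h => by simp [dirPt, h]⟩
    rw [sq_p S (by simpa using hu)]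
    simp [StdbH.φ, hu]

theorem dirPt_neg (S : Std w) (a : ℂ × ℂ) : dirPt S (-a) = dirPt S a := by
  simp [dirPt, neg_div_neg_eq]

/-- the lift of a transverse curve composed with a map of order two -/
theorem loc_lift (S : Std w) {K : Set X} {φ : ℂ → X} (hφ : ContMDiff 𝓘(ℝ, ℂ) (𝓡 4) ∞ φ)
    (hJ : ∀ z, JAt (Jw w) φ z) (hi : ∀ z, dm φ z 1 ≠ 0) (hK : ∀ z, φ z ∈ K) {g : ℂ → ℂ}
    (hg : AnalyticAt ℂ g 0) (h1 : deriv g 0 = 0) (h2 : deriv (deriv g) 0 ≠ 0)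
    (hx : φ (g 0) ∈ S.set) (ht : TransAt K S.set (φ (g 0))) :
    ∃ c : ℂ → ℂ × ℂ, AnalyticAt ℂ c 0 ∧ c 0 = 0 ∧ deriv c 0 ≠ 0 ∧ dirPt S (deriv c 0) = φ (g 0) ∧
      ∀ᶠ z in 𝓝[≠] (0 : ℂ), c z ∈ B0 S.r ∧ sq S (c z) = φ (g z) := by
  obtain ⟨P, ζ₀, E, hP, hb, hh, hs, e, hE, hE0, hsq, hdir⟩ := std_chart S hx
  have hm := zero_mem S.r_pos ζ₀
  have hPa := hP.contMDiffAt ((isOpen_Nr _).mem_nhds hm)
  obtain ⟨ψ, hψ, hψ0, hev⟩ := hol_lift (isOpen_Nr _) hP hb hh hφ hJ hm e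
  have hv : AnalyticAt ℂ (fun z => (ψ z).1) (g 0) := analyticAt_fst.comp hψ
  have hζ : AnalyticAt ℂ (fun z => (ψ z).2) (g 0) := analyticAt_snd.comp hψ
  have hv' : deriv (fun z => (ψ z).1) (g 0) ≠ 0 := by
    intro e0
    have hd : HasDerivAt ψ (0, deriv (fun z => (ψ z).2) (g 0)) (g 0) := by
      have := hv.differentiableAt.hasDerivAt.prodMk hζ.differentiableAt.hasDerivAt
      rwa [e0] at this
    have k1 := dm_comp3 (P := P) (by rw [hψ0]; exact hPa.mdifferentiableAt (by simp)) hd hev 1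
    rw [hψ0, one_smul, ← dm_inr hPa] at k1
    obtain ⟨a1, a2⟩ := curve φ (g 0) 1 ((hφ _).mdifferentiableAt (by simp))
    obtain ⟨b1, b2⟩ := curve (fun ζ => P (0, ζ)) ζ₀ (deriv (fun z => (ψ z).2) (g 0))
      ((hPa.comp ζ₀ (contDiffAt_const.prodMk contDiffAt_id).contMDiffAt).mdifferentiableAt
        (by simp))
    refine hi (g 0) (a2.symm.trans (ht _ _ (by simp) (by simpa using e) a1 b1
      (.of_forall fun t => hK _) (.of_forall fun t => hs _) (a2.trans (k1.trans b2.symm))))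
  obtain ⟨ρ, hρ, hρ0, hρe⟩ := sqrt_two (f := fun z => (ψ (g z)).1) (hv.comp hg)
    (by rw [hψ0]) (by
      rw [show deriv (fun z => (ψ (g z)).1) 0 = deriv (fun z => (ψ z).1) (g 0) * deriv g 0 from
        (hv.differentiableAt.hasDerivAt.comp 0 hg.differentiableAt.hasDerivAt).deriv, h1, mul_zero])
    (by rw [deriv2_comp hv hg h1]; exact mul_ne_zero hv' h2)
  have hF : AnalyticAt ℂ (fun z => ρ z • E (ψ (g z)).2) 0 :=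
    hρ.smul ((hE _).comp (f := fun z => (ψ (g z)).2) (hζ.comp hg))
  have hc : AnalyticAt ℂ (fun z => z • ρ z • E (ψ (g z)).2) 0 := analyticAt_id.smul hF
  have hd : deriv (fun z => z • ρ z • E (ψ (g z)).2) 0 = ρ 0 • E ζ₀ := by
    rw [((hasDerivAt_id' (0 : ℂ)).fun_smul hF.differentiableAt.hasDerivAt).deriv, hψ0]
    simp
  refine ⟨_, hc, by simp, by rw [hd]; exact smul_ne_zero hρ0 (hE0 _), by rw [hd]; exact hdir _ hρ0,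
    ?_⟩
  have hB : ∀ᶠ z in 𝓝 (0 : ℂ), z • ρ z • E (ψ (g z)).2 ∈ B2 S.r :=
    hc.continuousAt.eventually ((StdbH.isOpen_B2 _).mem_nhds (by simpa [B2] using S.r_pos))
  filter_upwards [self_mem_nhdsWithin, nhdsWithin_le_nhds hB, nhdsWithin_le_nhds hρe,
    nhdsWithin_le_nhds (hρ.continuousAt.eventually_ne hρ0),
    nhdsWithin_le_nhds (hg.continuousAt.eventually hev)] with z (k1 : z ≠ 0) k2 k3 k4 k5
  have k6 := mul_ne_zero k1 k4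
  rw [smul_smul] at k2
  rw [smul_smul]
  refine ⟨⟨k2, smul_ne_zero k6 (hE0 _)⟩, ?_⟩
  rw [hsq _ _ k6 k2, k5, ← (k3 : (ψ (g z)).1 = _)]

theorem hl_dec {τ s : ℂ} (h : s ∈ HL τ) : ∃ (b : Fin 2 × Fin 2) (m n : ℤ), s = hp τ b + m + n * τ := by
  have key : ∀ m : ℤ, ∃ (b : Fin 2) (k : ℤ), m = (b : ℕ) + 2 * k := fun m => by
    rcases Int.emod_two_eq_zero_or_one m with h | h
    · exact ⟨0, m / 2, by simp; omega⟩
    · exact ⟨1, m / 2, by simp; omega⟩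
  obtain ⟨m, n, rfl⟩ := h
  obtain ⟨b, k, rfl⟩ := key m
  obtain ⟨c, l, rfl⟩ := key n
  exact ⟨(b, c), k, l, by simp only [hp]; push_cast; ring⟩

theorem hl_disc {τ : ℂ} (hτ : 0 < τ.im) (x : ℂ) : ∀ᶠ y in 𝓝[≠] x, y ∉ HL τ := by
  have h1 := (P014G.mkPP 1 one_ne_zero ⟨τ, hτ⟩).compl_lattice_sdiff_singleton_mem_nhds (2 * x)
  have h2 : ContinuousAt (fun y : ℂ => 2 * y) x := by fun_prop
  filter_upwards [self_mem_nhdsWithin, nhdsWithin_le_nhds (h2 h1)] with y (k1 : y ≠ x) k2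
  rintro ⟨m, n, e⟩
  refine k2 ⟨(mem_mk _ _).2 ⟨m, n, ?_⟩, fun e' => k1 (mul_left_cancel₀ two_ne_zero e')⟩
  change 2 * y = m + n * τ
  linear_combination 2 * e

theorem hl_open {τ : ℂ} (hτ : 0 < τ.im) {x : ℂ} (hx : x ∉ HL τ) : ∀ᶠ y in 𝓝 x, y ∉ HL τ := by
  filter_upwards [eventually_nhdsWithin_iff.1 (hl_disc hτ x)] with y hy
  by_cases e : y = x
  · rwa [e]
  · exact hy e

theorem hl_conn (τ : ℂ) : IsPreconnected (HL τ)ᶜ := by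
  refine (Set.Countable.isConnected_compl_of_one_lt_rank (by simp) ?_).isPreconnected
  refine (countable_range fun p : ℤ × ℤ => ((p.1 : ℂ) + p.2 * τ) / 2).mono ?_
  rintro _ ⟨m, n, rfl⟩
  exact ⟨(m, n), rfl⟩

theorem hl_refl {τ s z : ℂ} (hs : s ∈ HL τ) (hz : z ∈ HL τ) : 2 * s - z ∈ HL τ := by
  obtain ⟨m, n, rfl⟩ := hs
  obtain ⟨m', n', rfl⟩ := hz
  exact ⟨2 * m - m', 2 * n - n', by push_cast; ring⟩

theorem jw_sq {St : Fin 4 → Fin 4 → Std w} (Y : DC St) (x : X) (u : TangentSpace (𝓡 4) x) :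
    Jw w x (Jw w x u) = -u := by
  by_cases hx : x ∈ Xo St
  · obtain ⟨V, -, hV, -, σ, -, h, -⟩ := Y.cov.loc x hx
    obtain ⟨z, rfl⟩ : ∃ z, Y.pr (Y.emb z) = x := ⟨σ x, (Y.pr_emb _).trans (h x hV)⟩
    obtain ⟨u, rfl⟩ := (Y.pr_bij _ ⟨z, rfl⟩).2 u
    rw [← Y.J_pr _ ⟨z, rfl⟩, ← Y.J_pr _ ⟨z, rfl⟩, Y.P.ac.sq, map_neg]
  · simp only [Xo, mem_setOf_eq, not_forall, not_not] at hx
    obtain ⟨i, j, hx⟩ := hx
    obtain ⟨P, ζ₀, -, -, hb, hh, -, rfl, -⟩ := std_chart _ hx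
    have hm := zero_mem (St i j).r_pos ζ₀
    obtain ⟨a, rfl⟩ := (hb _ hm).2 u
    rw [← hh _ hm, ← hh _ hm, smul_smul, Complex.I_mul_I, neg_one_smul]
    exact map_neg (mfderiv 𝓘(ℝ, ℂ × ℂ) (𝓡 4) P (0, ζ₀)) a

end AtorH

end Vale.Agent.P247Y
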