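import Vale.Agent.P247Y.Yconn

/-!
# P247, block Y: the topological manifold `Y`
-/

set_option linter.unusedSectionVars false

open scoped Manifold ContDiff Topology
open Set Filter Metric Function

noncomputable section

namespace Vale.Agent.P247Y

open Vale.Agent.P247.SCY
open Vale.Agent.P247.SCY.HS
open Vale.Agent.P247X

namespace DcH

open YcH StdbH

/-- injective continuous open maps on open sets -/
theorem ex_ph {A B : Type} [TopologicalSpace A] [TopologicalSpace B] [Nonempty A] {f : A → B}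
    {s : Set A} (hs : IsOpen s) (hc : ContinuousOn f s) (hi : InjOn f s)
    (ho : ∀ t, IsOpen t → t ⊆ s → IsOpen (f '' t)) :
    ∃ e : OpenPartialHomeomorph A B, e.source = s ∧ ⇑e = f :=
  ⟨OpenPartialHomeomorph.ofContinuousOpenRestrict (hi.toPartialEquiv f s) hc (fun t ht => by
    have := ho (Subtype.val '' t) (hs.isOpenMap_subtype_val t ht) (Subtype.coe_image_subset _ _)
    rw [← image_comp] at this
    exact this) hs, rfl, rfl⟩

section cov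

variable {X : Type} [TopologicalSpace X] {W : Set X} {G : Type} [AddCommGroup G] (Z : GCov W G)

theorem act_neg (g : G) (z : Z.Z) : Z.act (-g) (Z.act g z) = z := by
  rw [← Z.act_add, neg_add_cancel, Z.act_zero]

theorem act_neg' (g : G) (z : Z.Z) : Z.act g (Z.act (-g) z) = z := by
  rw [← Z.act_add, add_neg_cancel, Z.act_zero]

/-- coverings are local homeomorphisms -/
theorem cov_loc : IsLocalHomeomorph Z.π := by
  intro z
  obtain ⟨V, h1, h2, -, σ, h3, h4, h5⟩ := Z.loc _ (Z.mem z)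
  obtain ⟨g, hg⟩ := Z.trans (σ (Z.π z)) z (h4 _ h2)
  refine ⟨{ toFun := Z.π
            invFun := fun x => Z.act g (σ x)
            source := Z.act (-g) ⁻¹' (σ '' V)
            target := V
            map_source' := ?_
            map_target' := fun x hx => ⟨x, hx, (act_neg Z g _).symm⟩
            left_inv' := ?_
            right_inv' := fun x hx => (Z.π_act _ _).trans (h4 x hx)
            open_source := h5.preimage (Z.act_cont _)
            open_target := h1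
            continuousOn_toFun := Z.π_cont.continuousOn
            continuousOn_invFun := (Z.act_cont g).comp_continuousOn h3 },
    ⟨_, h2, by rw [hg, act_neg, ← hg]⟩, rfl⟩
  · rintro y ⟨x, hx, e⟩
    rw [← Z.π_act (-g) y, ← e, h4 x hx]
    exact hx
  · rintro y ⟨x, hx, e⟩
    have : Z.π y = x := by rw [← Z.π_act (-g) y, ← e, h4 x hx]
    rw [this, e, act_neg']

theorem lift_nhds {B : Type} [TopologicalSpace B] {ℓ : B → Z.Z} {f : B → X} {b : B}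
    (hc : ContinuousAt ℓ b) (hf : ∀ᶠ y in 𝓝 b, Z.π (ℓ y) = f y) (ho : map f (𝓝 b) = 𝓝 (f b)) :
    map ℓ (𝓝 b) = 𝓝 (ℓ b) := by
  obtain ⟨e, h1, h2⟩ := cov_loc Z (ℓ b)
  have h3 : ℓ =ᶠ[𝓝 b] e.symm ∘ f := by
    filter_upwards [hc.preimage_mem_nhds (e.open_source.mem_nhds h1), hf] with y hy hy'
    rw [comp_apply, ← hy', h2, e.left_inv hy]
  rw [map_congr h3, ← map_map, ho, ← hf.self_of_nhds, h2, e.symm_map_nhds_eq h1]

end cov

variable {X : Type} [TopologicalSpace X] [ChartedSpace HS.E4 X] {w : Tri X}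

/-- the input of the construction -/
structure In (St : Fin 4 → Fin 4 → Std w) where
  Z : GCov (Xo St) (ZMod 2)
  disj : ∀ i j i' j', (i, j) ≠ (i', j') → Disjoint (St i j).nb (St i' j').nb
  ℓ : Fin 4 × Fin 4 → ℂ × ℂ → Z.Z
  cont : ∀ k, ContinuousOn (ℓ k) (B0 (St k.1 k.2).r)
  π_ℓ : ∀ k, ∀ z ∈ B0 (St k.1 k.2).r, Z.π (ℓ k z) = sq (St k.1 k.2) z
  neg : ∀ k, ∀ z ∈ B0 (St k.1 k.2).r, ℓ k (-z) = Z.act 1 (ℓ k z)

namespace In

variable {St : Fin 4 → Fin 4 → Std w} (I : In St)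

/-- the underlying set -/
def Y : Type := I.Z.Z ⊕ (Fin 4 × Fin 4)

/-- the covering inside `Y` -/
def emb (z : I.Z.Z) : I.Y := Sum.inl z

/-- the fixed points -/
def pt (k : Fin 4 × Fin 4) : I.Y := Sum.inr k

open Classical in
/-- the charts at the fixed points -/
def ch (k : Fin 4 × Fin 4) (z : ℂ × ℂ) : I.Y := if z = 0 then I.pt k else I.emb (I.ℓ k z)

/-- the projection -/
def pr : I.Y → X := Sum.elim I.Z.π fun k => (St k.1 k.2).q (0, 0)

/-- the involution -/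
def ι : I.Y → I.Y := Sum.map (I.Z.act 1) id

instance top : TopologicalSpace I.Y where
  IsOpen O := IsOpen (I.emb ⁻¹' O) ∧ ∀ k, IsOpen (B2 (St k.1 k.2).r ∩ I.ch k ⁻¹' O)
  isOpen_univ := ⟨isOpen_univ, fun k => by simpa using isOpen_B2 _⟩
  isOpen_inter s t hs ht := ⟨hs.1.inter ht.1, fun k => by
    rw [preimage_inter, inter_inter_distrib_left]
    exact (hs.2 k).inter (ht.2 k)⟩
  isOpen_sUnion S h := ⟨by
    rw [preimage_sUnion]
    exact isOpen_biUnion fun t ht => (h t ht).1, fun k => by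
    rw [preimage_sUnion, inter_iUnion₂]
    exact isOpen_biUnion fun t ht => (h t ht).2 k⟩

theorem isOpen_iff {O : Set I.Y} :
    IsOpen O ↔ IsOpen (I.emb ⁻¹' O) ∧ ∀ k, IsOpen (B2 (St k.1 k.2).r ∩ I.ch k ⁻¹' O) := Iff.rfl

theorem emb_inj : Injective I.emb := Sum.inl_injective

theorem pt_inj : Injective I.pt := Sum.inr_injective

theorem emb_ne (z k) : I.emb z ≠ I.pt k := Sum.inl_ne_inr

theorem cases (y : I.Y) : (∃ z, y = I.emb z) ∨ ∃ k, y = I.pt k := by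
  rcases y with z | k
  · exact Or.inl ⟨z, rfl⟩
  · exact Or.inr ⟨k, rfl⟩

theorem ch_zero (k) : I.ch k 0 = I.pt k := if_pos rfl

theorem ch_ne (k) {z : ℂ × ℂ} (h : z ≠ 0) : I.ch k z = I.emb (I.ℓ k z) := if_neg h

theorem ch_pt {k k' z} (h : I.ch k z = I.pt k') : z = 0 ∧ k = k' := by
  by_cases h0 : z = 0
  · rw [h0, ch_zero] at h
    exact ⟨h0, I.pt_inj h⟩
  · rw [I.ch_ne k h0] at h
    exact (I.emb_ne _ _ h).elim

theorem ch_emb {k z y} (h : I.ch k z = I.emb y) : z ≠ 0 ∧ I.ℓ k z = y := by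
  by_cases h0 : z = 0
  · rw [h0, ch_zero] at h
    exact (I.emb_ne _ _ h.symm).elim
  · rw [I.ch_ne k h0] at h
    exact ⟨h0, I.emb_inj h⟩

theorem pr_ch (k) {z} (h : z ∈ B0 (St k.1 k.2).r) : I.pr (I.ch k z) = sq (St k.1 k.2) z := by
  rw [I.ch_ne k h.2]
  exact I.π_ℓ k z h

theorem ch_neg (k) {z} (h : z ∈ B2 (St k.1 k.2).r) : I.ch k (-z) = I.ι (I.ch k z) := by
  by_cases h0 : z = 0
  · rw [h0, neg_zero, ch_zero]
    rfl
  · rw [I.ch_ne k h0, I.ch_ne k (neg_ne_zero.2 h0), I.neg k z ⟨h, h0⟩]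
    rfl

theorem cont_ch (k) : ContinuousOn (I.ch k) (B2 (St k.1 k.2).r) :=
  (continuousOn_open_iff (isOpen_B2 _)).2 fun _ h => h.2 k

theorem emb_open : Topology.IsOpenEmbedding I.emb := by
  refine Topology.IsOpenEmbedding.of_continuous_injective_isOpenMap ⟨fun _ h => h.1⟩ I.emb_inj
    fun U hU => ⟨by rwa [preimage_image_eq _ I.emb_inj], fun k => ?_⟩
  convert (I.cont k).isOpen_inter_preimage (isOpen_B0 _) hU using 1
  ext z
  constructor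
  · rintro ⟨h1, y, hy, e⟩
    obtain ⟨h2, rfl⟩ := I.ch_emb e.symm
    exact ⟨⟨h1, h2⟩, hy⟩
  · rintro ⟨h1, h2⟩
    exact ⟨h1.1, _, h2, (I.ch_ne k h1.2).symm⟩

variable [IsManifold (𝓡 4) ∞ X] [T2Space X]

theorem ch_eq {k k' z z'} (h : z ∈ B2 (St k.1 k.2).r) (h' : z' ∈ B2 (St k'.1 k'.2).r)
    (e : I.ch k z = I.ch k' z') : k = k' ∧ z = z' := by
  by_cases h0 : z' = 0
  · rw [h0, ch_zero] at e
    exact ⟨(I.ch_pt e).2, (I.ch_pt e).1.trans h0.symm⟩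
  rw [I.ch_ne k' h0] at e
  obtain ⟨h1, h2⟩ := I.ch_emb e
  have h3 : sq (St k.1 k.2) z = sq (St k'.1 k'.2) z' := by
    rw [← I.π_ℓ k z ⟨h, h1⟩, h2, I.π_ℓ k' z' ⟨h', h0⟩]
  have nb : ∀ (S : Std w), ∀ y ∈ B0 S.r, sq S y ∈ S.nb := fun S y hy =>
    ((stdb X w S).2.2.2.2.2.2.1 ▸ mem_image_of_mem _ hy : sq S y ∈ S.nb \ S.set).1
  obtain rfl : k = k' := by_contra fun hk =>
    (I.disj _ _ _ _ hk).ne_of_mem (nb _ _ ⟨h, h1⟩) (nb _ _ ⟨h', h0⟩) h3
  refine ⟨rfl, ?_⟩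
  rcases (sq_inj _ ⟨h, h1⟩ ⟨h', h0⟩).1 h3 with h4 | h4
  · exact h4.symm
  · rw [h4, I.neg k z ⟨h, h1⟩] at h2
    exact absurd (I.Z.free 1 _ h2.symm) (by decide)

theorem ch_inj (k) : InjOn (I.ch k) (B2 (St k.1 k.2).r) := fun _ h _ h' e => (I.ch_eq h h' e).2

theorem ch_open (k) (t : Set (ℂ × ℂ)) (ht : IsOpen t) (hs : t ⊆ B2 (St k.1 k.2).r) :
    IsOpen (I.ch k '' t) := by
  refine ⟨isOpen_iff_mem_nhds.2 ?_, fun k' => ?_⟩
  · rintro y ⟨z, hz, e⟩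
    obtain ⟨h1, rfl⟩ := I.ch_emb e
    have h2 : B0 (St k.1 k.2).r ∈ 𝓝 z := (isOpen_B0 _).mem_nhds ⟨hs hz, h1⟩
    rw [← lift_nhds I.Z ((I.cont k).continuousAt h2) (eventually_of_mem h2 (I.π_ℓ k))
      (map_nhds_bij (isOpen_B0 _) (stdb X w _).2.2.2.2.1 ⟨hs hz, h1⟩ (loc_sq _ ⟨hs hz, h1⟩).2.1),
      mem_map]
    filter_upwards [h2, ht.mem_nhds hz] with z' h3 h4
    exact ⟨z', h4, I.ch_ne k h3.2⟩
  · by_cases hk : k = k'
    · subst hk
      convert ht using 1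
      refine Subset.antisymm ?_ fun z hz => ⟨hs hz, z, hz, rfl⟩
      rintro z ⟨h1, z', h2, e⟩
      exact I.ch_inj k (hs h2) h1 e ▸ h2
    · convert isOpen_empty
      refine eq_empty_of_forall_notMem ?_
      rintro z ⟨h1, z', h2, e⟩
      exact hk (I.ch_eq (hs h2) h1 e).1

theorem sep (z k) : ∃ U V : Set I.Y, IsOpen U ∧ IsOpen V ∧ I.emb z ∈ U ∧ I.pt k ∈ V ∧
    Disjoint U V := by
  set S := St k.1 k.2 with hS
  obtain ⟨ρ, h0, h1, h2⟩ : ∃ ρ > 0, ρ < S.r ∧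
      I.Z.π z ∉ sq S '' {y | y ≠ 0 ∧ ‖y.1‖ ^ 2 + ‖y.2‖ ^ 2 ≤ ρ} := by
    by_cases h : ∃ y ∈ B0 S.r, sq S y = I.Z.π z
    · obtain ⟨y, hy, e⟩ := h
      have h3 : 0 < ‖y.1‖ ^ 2 + ‖y.2‖ ^ 2 := by
        rcases ne_or hy.2 with h | h <;> have := norm_pos_iff.2 h <;> positivity
      have h4 : ‖y.1‖ ^ 2 + ‖y.2‖ ^ 2 < S.r := hy.1
      refine ⟨(‖y.1‖ ^ 2 + ‖y.2‖ ^ 2) / 2, by positivity, by linarith, ?_⟩
      rintro ⟨y', ⟨h5, h6⟩, e'⟩
      rcases (sq_inj S hy ⟨lt_of_le_of_lt h6 (by linarith), h5⟩).1 (e.trans e'.symm) with rfl | rfl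
      · linarith
      · simp only [Prod.fst_neg, Prod.snd_neg, norm_neg] at h6
        linarith
    · refine ⟨S.r / 2, half_pos S.r_pos, half_lt_self S.r_pos, ?_⟩
      rintro ⟨y, ⟨h5, h6⟩, e⟩
      exact h ⟨y, ⟨lt_of_le_of_lt h6 (half_lt_self S.r_pos), h5⟩, e⟩
  have hK := ((stdb X w S).2.2.2.2.2.2.2.2.2.2.2 ρ h1).isClosed
  refine ⟨I.emb '' (I.Z.π ⁻¹' _ᶜ), I.ch k '' B2 ρ,
    I.emb_open.isOpenMap _ (hK.isOpen_compl.preimage I.Z.π_cont),
    I.ch_open k _ (isOpen_B2 _) (B2_mono h1.le),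
    ⟨z, fun h => h.elim (I.Z.mem z k.1 k.2) h2, rfl⟩, ⟨0, zero_mem_B2 h0, I.ch_zero k⟩,
    disjoint_left.2 ?_⟩
  rintro _ ⟨z', h3, rfl⟩ ⟨y, hy, e⟩
  obtain ⟨h4, rfl⟩ := I.ch_emb e
  exact h3 (Or.inr ⟨y, ⟨h4, le_of_lt hy⟩, (I.π_ℓ k y ⟨B2_mono h1.le hy, h4⟩).symm⟩)

instance t2 : T2Space I.Y where
  t2 y y' h := by
    rcases I.cases y with ⟨z, rfl⟩ | ⟨k, rfl⟩ <;> rcases I.cases y' with ⟨z', rfl⟩ | ⟨k', rfl⟩
    · exact separated_by_isOpenEmbedding I.emb_open fun e => h (congrArg _ e)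
    · exact I.sep z k'
    · obtain ⟨U, V, h1, h2, h3, h4, h5⟩ := I.sep z' k
      exact ⟨V, U, h2, h1, h4, h3, h5.symm⟩
    · refine ⟨_, _, I.ch_open k _ (isOpen_B2 _) Subset.rfl, I.ch_open k' _ (isOpen_B2 _) Subset.rfl,
        ⟨0, zero_mem_B2 (St _ _).r_pos, I.ch_zero k⟩, ⟨0, zero_mem_B2 (St _ _).r_pos, I.ch_zero k'⟩,
        disjoint_left.2 ?_⟩
      rintro _ ⟨z, h1, rfl⟩ ⟨z', h2, e⟩
      exact h (congrArg _ (I.ch_eq h2 h1 e).1.symm)

end In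

/-- coordinates on `ℂ²` -/
def T : (ℂ × ℂ) ≃L[ℝ] HS.E4 := ContinuousLinearEquiv.ofFinrankEq (by simp)

namespace In

variable {St : Fin 4 → Fin 4 → Std w} (I : In St) [IsManifold (𝓡 4) ∞ X] [T2Space X]

/-- charts pulled back from `X` -/
def TA (c : OpenPartialHomeomorph X HS.E4) (e : OpenPartialHomeomorph I.Y HS.E4) : Prop :=
  c ∈ atlas HS.E4 X ∧ ∀ y ∈ e.source, y ∈ range I.emb ∧ I.pr y ∈ c.source ∧ e y = c (I.pr y)

/-- charts at the fixed points -/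
def TB (k : Fin 4 × Fin 4) (e : OpenPartialHomeomorph I.Y HS.E4) : Prop :=
  e.source = I.ch k '' B2 (St k.1 k.2).r ∧ ∀ z ∈ B2 (St k.1 k.2).r, e (I.ch k z) = T z

theorem ex_TB (k) : ∃ e, I.TB k e := by
  obtain ⟨e, h1, h2⟩ := ex_ph (isOpen_B2 _) (I.cont_ch k) (I.ch_inj k) (I.ch_open k)
  refine ⟨e.symm.trans T.toHomeomorph.toOpenPartialHomeomorph, ?_, fun z hz => ?_⟩
  · rw [← h1, ← h2, e.image_source_eq_target]
    simp
  · change T (e.symm (I.ch k z)) = _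
    rw [← h2, e.left_inv (h1 ▸ hz)]

theorem ex_TA (z) : ∃ c e, I.TA c e ∧ I.emb z ∈ e.source := by
  have : Nonempty I.Z.Z := ⟨z⟩
  obtain ⟨e, h1, h2⟩ := ex_ph isOpen_univ I.emb_open.continuous.continuousOn I.emb_inj.injOn
    fun t ht _ => I.emb_open.isOpenMap t ht
  obtain ⟨p, h3, h4⟩ := cov_loc I.Z z
  have h5 : ∀ z, e.symm (I.emb z) = z := fun z => by rw [← h2, e.left_inv (h1 ▸ trivial)]
  refine ⟨chartAt HS.E4 (I.Z.π z), e.symm.trans (p.trans (chartAt HS.E4 (I.Z.π z))),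
    ⟨chart_mem_atlas _ _, fun y hy => ?_⟩, h2 ▸ e.map_source (h1 ▸ trivial), ?_⟩
  · obtain ⟨z', rfl⟩ : y ∈ range I.emb := ⟨_, h2 ▸ e.right_inv hy.1⟩
    have h6 : p (e.symm (I.emb z')) ∈ (chartAt HS.E4 (I.Z.π z)).source := hy.2.2
    rw [h5, ← h4] at h6
    refine ⟨⟨_, rfl⟩, h6, ?_⟩
    change chartAt HS.E4 (I.Z.π z) (p (e.symm (I.emb z'))) = _
    rw [h5, ← h4]
    rfl
  · change e.symm (I.emb z) ∈ p.source ∧ p (e.symm (I.emb z)) ∈ (chartAt HS.E4 (I.Z.π z)).source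
    rw [h5, ← h4]
    exact ⟨h3, mem_chart_source _ _⟩

theorem ex_chart (y : I.Y) :
    ∃ e, ((∃ c, I.TA c e) ∨ ∃ k, I.TB k e) ∧ y ∈ e.source := by
  rcases I.cases y with ⟨z, rfl⟩ | ⟨k, rfl⟩
  · obtain ⟨c, e, h1, h2⟩ := I.ex_TA z
    exact ⟨e, Or.inl ⟨c, h1⟩, h2⟩
  · obtain ⟨e, h⟩ := I.ex_TB k
    exact ⟨e, Or.inr ⟨k, h⟩, h.1 ▸ ⟨0, zero_mem_B2 (St _ _).r_pos, I.ch_zero k⟩⟩

instance chart : ChartedSpace HS.E4 I.Y where
  atlas := {e | (∃ c, I.TA c e) ∨ ∃ k, I.TB k e}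
  chartAt y := (I.ex_chart y).choose
  mem_chart_source y := (I.ex_chart y).choose_spec.2
  chart_mem_atlas y := (I.ex_chart y).choose_spec.1

variable {I}

theorem TA.symm {c e} (h : I.TA c e) {a} (ha : a ∈ e.target) :
    a ∈ c.target ∧ I.pr (e.symm a) = c.symm a := by
  obtain ⟨-, h1, h2⟩ := h.2 _ (e.map_target ha)
  rw [e.right_inv ha] at h2
  exact ⟨h2 ▸ c.map_source h1, by rw [← c.left_inv h1, ← h2]⟩

theorem TB.symm {k e} (h : I.TB k e) {a} (ha : a ∈ e.target) :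
    T.symm a ∈ B2 (St k.1 k.2).r ∧ e.symm a = I.ch k (T.symm a) := by
  obtain ⟨z, h1, h2⟩ := h.1 ▸ e.map_target ha
  have h3 := h.2 z h1
  rw [h2, e.right_inv ha] at h3
  rw [h3, T.symm_apply_apply, ← h3]
  exact ⟨h1, h2.symm⟩

theorem atl_sm {M : Type} [TopologicalSpace M] [ChartedSpace HS.E4 M] [IsManifold (𝓡 4) ∞ M]
    {c : OpenPartialHomeomorph M HS.E4} (h : c ∈ atlas HS.E4 M) :
    ContMDiffOn (𝓡 4) (𝓡 4) ∞ c c.source :=
  contMDiffOn_of_mem_maximalAtlas (IsManifold.subset_maximalAtlas h)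

theorem atl_symm_sm {M : Type} [TopologicalSpace M] [ChartedSpace HS.E4 M] [IsManifold (𝓡 4) ∞ M]
    {c : OpenPartialHomeomorph M HS.E4} (h : c ∈ atlas HS.E4 M) :
    ContMDiffOn (𝓡 4) (𝓡 4) ∞ c.symm c.target :=
  contMDiffOn_symm_of_mem_maximalAtlas (IsManifold.subset_maximalAtlas h)

theorem dom_open (e : OpenPartialHomeomorph I.Y HS.E4) :
    IsOpen (e.target ∩ e.symm ⁻¹' range I.emb) :=
  e.continuousOn_symm.isOpen_inter_preimage e.open_target I.emb_open.isOpen_range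

/-- the projection read in a chart is a local diffeomorphism -/
theorem pr_symm {e} (he : e ∈ atlas HS.E4 I.Y) {a} (ha : a ∈ e.target ∩ e.symm ⁻¹' range I.emb) :
    ContMDiffAt (𝓡 4) (𝓡 4) ∞ (I.pr ∘ e.symm) a ∧
      Bijective (mfderiv (𝓡 4) (𝓡 4) (I.pr ∘ e.symm) a) := by
  rcases he with ⟨c, h⟩ | ⟨k, h⟩
  · have h1 : I.pr ∘ e.symm =ᶠ[𝓝 a] c.symm :=
      eventually_of_mem (e.open_target.mem_nhds ha.1) fun b hb => (h.symm hb).2
    refine ⟨((atl_symm_sm h.1).contMDiffAt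
      (c.open_target.mem_nhds (h.symm ha.1).1)).congr_of_eventuallyEq h1, ?_⟩
    rw [h1.mfderiv_eq]
    exact mfderiv_bij c.symm (atl_symm_sm h.1) (atl_sm h.1) (h.symm ha.1).1
  · have h0 : ∀ b ∈ e.target ∩ e.symm ⁻¹' range I.emb, T.symm b ∈ B0 (St k.1 k.2).r :=
      fun b hb => ⟨(h.symm hb.1).1, by
        obtain ⟨z, hz⟩ := hb.2
        exact (I.ch_emb ((h.symm hb.1).2.symm.trans hz.symm)).1⟩
    have h1 : I.pr ∘ e.symm =ᶠ[𝓝 a] sq (St k.1 k.2) ∘ T.symm :=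
      eventually_of_mem ((dom_open e).mem_nhds ha) fun b hb => by
        rw [comp_apply, (h.symm hb.1).2, I.pr_ch k (h0 b hb)]; rfl
    obtain ⟨h2, h3, -⟩ := loc_sq _ (h0 a ha)
    refine ⟨(h2.comp a T.symm.contDiff.contMDiff.contMDiffAt).congr_of_eventuallyEq h1, ?_⟩
    rw [h1.mfderiv_eq, mfderiv_comp a (h2.mdifferentiableAt (by simp)) T.symm.mdifferentiableAt,
      ContinuousLinearEquiv.mfderiv_eq]
    exact h3.comp T.symm.bijective

instance mfd : IsManifold (𝓡 4) ∞ I.Y := by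
  refine isManifold_of_contDiffOn _ _ _ fun e e' he he' => ?_
  simp only [modelWithCornersSelf_coe, modelWithCornersSelf_coe_symm, preimage_id, range_id,
    inter_univ, CompTriple.comp_eq]
  intro a ha
  have ha1 : a ∈ e.target := ha.1
  have ha2 : e.symm a ∈ e'.source := ha.2
  have hn := (e.symm ≫ₕ e').open_source.mem_nhds ha
  refine ContDiffAt.contDiffWithinAt ?_
  rcases I.cases (e.symm a) with ⟨z, hz⟩ | ⟨k, hk⟩
  · have h1 : (e.symm ≫ₕ e') a ∈ e'.target ∩ e'.symm ⁻¹' range I.emb :=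
      ⟨e'.map_source ha2, z, hz.symm.trans (e'.left_inv ha2).symm⟩
    refine contMDiffAt_iff_contDiffAt.1 (lift_sm (dom_open e')
      (fun b hb => (pr_symm he' hb).1.contMDiffWithinAt) h1 (pr_symm he' h1).2.1
      ((e.symm ≫ₕ e').continuousAt ha)
      ((pr_symm he ⟨ha1, z, hz.symm⟩).1.congr_of_eventuallyEq ?_))
    filter_upwards [hn] with b hb
    exact congrArg I.pr (e'.left_inv hb.2)
  · have key : ∀ f ∈ atlas HS.E4 I.Y, I.pt k ∈ f.source → I.TB k f := by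
      rintro f (⟨c, h⟩ | ⟨k', h⟩) hf
      · obtain ⟨z, hz⟩ := (h.2 _ hf).1
        exact (I.emb_ne _ _ hz).elim
      · obtain ⟨z, -, hz⟩ := h.1 ▸ hf
        exact (I.ch_pt hz).2 ▸ h
    have h1 := key e he (hk ▸ e.map_target ha1)
    have h2 := key e' he' (hk ▸ ha2)
    refine contDiffAt_id.congr_of_eventuallyEq ?_
    filter_upwards [hn] with b hb
    change e' (e.symm b) = b
    rw [(h1.symm hb.1).2, h2.2 _ (h1.symm hb.1).1, T.apply_symm_apply]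

end In

end DcH

end Vale.Agent.P247Y
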