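import Vale.Agent.P247Y.Stdb

/-!
# P247, block Y: the double covering given by the square roots of a section of `L ⊗ L`
-/

set_option linter.all false

open scoped Manifold ContDiff Topology
open Set MeasureTheory Filter Metric Function

noncomputable section

namespace Vale.Agent.P247Y.DivH

open Vale.Agent.P247.SCY
open Vale.Agent.P247X

open Classical in
/-- the sign -/
def sg (u : ℂ) : ZMod 2 := if u = 1 then 0 else 1

/-- the character -/
def ch (a : ZMod 2) : ℂ := (-1) ^ a.val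

theorem z2 (g : ZMod 2) : g = 0 ∨ g = 1 := by revert g; decide

theorem ch_zero : ch 0 = 1 := pow_zero _

theorem ch_one : ch 1 = -1 := pow_one _

theorem ch_add (a b : ZMod 2) : ch (a + b) = ch a * ch b := by
  rcases z2 a with rfl | rfl
  · rw [zero_add, ch_zero, one_mul]
  rcases z2 b with rfl | rfl
  · rw [add_zero, ch_zero, mul_one]
  · rw [show (1 + 1 : ZMod 2) = 0 from rfl, ch_zero, ch_one]; ring

theorem ch_sub (a b : ZMod 2) : ch (a - b) = ch a * ch b := by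
  rw [← ch_add, sub_eq_add_neg, ZMod.neg_eq_self_mod_two]

theorem ch_sq (a : ZMod 2) : ch a ^ 2 = 1 := by
  rcases z2 a with rfl | rfl
  · rw [ch_zero]; ring
  · rw [ch_one]; ring

theorem ch_inj : Injective ch := by
  intro a b h
  rcases z2 a with rfl | rfl <;> rcases z2 b with rfl | rfl
  · rfl
  · rw [ch_zero, ch_one] at h; norm_num at h
  · rw [ch_zero, ch_one] at h; norm_num at h
  · rfl

theorem ch_sg {u : ℂ} (h : u ^ 2 = 1) : ch (sg u) = u := by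
  unfold sg
  split_ifs with k
  · rw [ch_zero, k]
  · rw [ch_one, (sq_eq_one_iff.1 h).resolve_left k]

section top

variable {B : Type} [TopologicalSpace B]

theorem lc_sq {f : B → ℂ} {s : Set B} (hs : IsOpen s) (hf : ContinuousOn f s)
    (h : ∀ x ∈ s, f x ^ 2 = 1) : LC f s := by
  intro x hx
  have h0 : f x + f x ≠ 0 := fun k => by
    have := h x hx
    rw [add_self_eq_zero.1 k] at this
    simp at this
  have h1 := ((hf.continuousAt (hs.mem_nhds hx)).add continuousAt_const).eventually_ne h0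
  filter_upwards [h1, hs.mem_nhds hx] with y k hy
  have h2 : (f y - f x) * (f y + f x) = 0 := by linear_combination h y hy - h x hx
  exact sub_eq_zero.1 ((mul_eq_zero.1 h2).resolve_right k)

theorem lc_sg {f : B → ℂ} {s : Set B} (hs : IsOpen s) (hf : ContinuousOn f s)
    (h : ∀ x ∈ s, f x ^ 2 = 1) : LC (fun x => sg (f x)) s :=
  fun x hx => (lc_sq hs hf h x hx).mono fun _ k => congrArg sg k

/-- a section `s` of the square of a line bundle over `W` -/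
structure RD (W : Set B) (n : Type) where
  U : n → Set B
  g : n → n → B → ℂ
  s : n → B → ℂ
  opn : ∀ a, IsOpen (U a)
  sub : ∀ a, U a ⊆ W
  cov : ∀ x ∈ W, ∃ a, x ∈ U a
  g_cont : ∀ a b, ContinuousOn (g a b) (U a ∩ U b)
  g_co : ∀ a b c, ∀ x ∈ U a, x ∈ U b → x ∈ U c → g a b x * g b c x = g a c x
  s_cont : ∀ a, ContinuousOn (s a) (U a)
  s_ne : ∀ a, ∀ x ∈ U a, s a x ≠ 0
  rel : ∀ a b, ∀ x ∈ U a, x ∈ U b → s a x = g a b x ^ 2 * s b x

variable {W : Set B} {n : Type} (R : RD W n)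

theorem RD.g_ne {a b : n} {x : B} (ha : x ∈ R.U a) (hb : x ∈ R.U b) : R.g a b x ≠ 0 := fun k =>
  R.s_ne a x ha (by rw [R.rel a b x ha hb, k]; simp)

/-- local square roots -/
structure LR where
  a : n
  V : Set B
  r : B → ℂ
  opn : IsOpen V
  sub : V ⊆ R.U a
  cont : ContinuousOn r V
  sq : ∀ x ∈ V, r x ^ 2 = R.s a x

variable {R} in
theorem LR.ne (α : LR R) {x : B} (hx : x ∈ α.V) : α.r x ≠ 0 := fun k =>
  R.s_ne _ x (α.sub hx) (by rw [← α.sq x hx, k]; simp)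

theorem exists_lr {x : B} (hx : x ∈ W) : ∃ α : LR R, x ∈ α.V := by
  obtain ⟨a, ha⟩ := R.cov x hx
  obtain ⟨u, hu⟩ := IsAlgClosed.exists_pow_nat_eq (R.s a x) (n := 2) two_pos
  have h0 := R.s_ne a x ha
  have hc : ContinuousOn (fun y => R.s a y / R.s a x) (R.U a) := (R.s_cont a).div_const _
  refine ⟨⟨a, R.U a ∩ (fun y => R.s a y / R.s a x) ⁻¹' Complex.slitPlane,
    fun y => u * Complex.exp (Complex.log (R.s a y / R.s a x) / 2),
    hc.isOpen_inter_preimage (R.opn a) Complex.isOpen_slitPlane, inter_subset_left,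
    continuousOn_const.mul (((hc.mono inter_subset_left).clog fun y hy => hy.2).div_const _).cexp,
    fun y hy => ?_⟩, ha, by simp [h0]⟩
  rw [mul_pow, hu, ← Complex.exp_nat_mul, Nat.cast_ofNat, mul_div_cancel₀ _ two_ne_zero,
    Complex.exp_log (div_ne_zero (R.s_ne a y hy.1) h0), mul_div_cancel₀ _ h0]

variable {R} in
/-- the quotient of two local roots -/
def LR.q (α β : LR R) (x : B) : ℂ := α.r x / (R.g α.a β.a x * β.r x)

variable {R} in
theorem LR.q_mul (α β : LR R) {x : B} (h : x ∈ α.V) (h' : x ∈ β.V) :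
    α.r x = α.q β x * (R.g α.a β.a x * β.r x) :=
  (div_mul_cancel₀ _ (mul_ne_zero (R.g_ne (α.sub h) (β.sub h')) (β.ne h'))).symm

variable {R} in
theorem LR.q_sq (α β : LR R) {x : B} (h : x ∈ α.V) (h' : x ∈ β.V) : α.q β x ^ 2 = 1 := by
  rw [LR.q, div_pow, mul_pow, α.sq x h, β.sq x h', ← R.rel _ _ x (α.sub h) (β.sub h'),
    div_self (R.s_ne _ x (α.sub h))]

/-- the cocycle of the square roots -/
def RD.coc : Coc W (ZMod 2) where
  ι := LR R
  V α := α.V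
  opn α := α.opn
  sub α := α.sub.trans (R.sub _)
  cov x hx := exists_lr R hx
  c α β x := sg (α.q β x)
  lc α β := lc_sg (α.opn.inter β.opn) ((α.cont.mono inter_subset_left).div
    (((R.g_cont _ _).mono (inter_subset_inter α.sub β.sub)).mul (β.cont.mono inter_subset_right))
    fun x hx => mul_ne_zero (R.g_ne (α.sub hx.1) (β.sub hx.2)) (β.ne hx.2))
    fun x hx => α.q_sq β hx.1 hx.2
  co α β δ x hx := by
    obtain ⟨⟨h1, h2⟩, h3⟩ := hx
    apply ch_inj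
    rw [ch_add, ch_sg (α.q_sq β h1 h2), ch_sg (β.q_sq δ h2 h3), ch_sg (α.q_sq δ h1 h3)]
    have k1 := R.g_ne (α.sub h1) (β.sub h2)
    have k2 := R.g_ne (β.sub h2) (δ.sub h3)
    have k3 := β.ne h2
    have k4 := δ.ne h3
    simp only [LR.q]
    rw [← R.g_co _ β.a _ x (α.sub h1) (β.sub h2) (δ.sub h3)]
    field_simp

/-- a square root of the pull-back of the section by `f` on `O` -/
structure RS {E : Type} [TopologicalSpace E] (f : E → B) (O : Set E) (t : n → E → ℂ) : Prop where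
  cont : ∀ a, ContinuousOn (t a) (O ∩ f ⁻¹' R.U a)
  rel : ∀ a b, ∀ z ∈ O, f z ∈ R.U a → f z ∈ R.U b → t a z = R.g a b (f z) * t b z
  sq : ∀ a, ∀ z ∈ O, f z ∈ R.U a → t a z ^ 2 = R.s a (f z)

variable {R}

section rs

variable {E : Type} [TopologicalSpace E] {f : E → B} {O : Set E} {t : n → E → ℂ}

theorem RS.ne (h : RS R f O t) {a : n} {z : E} (hz : z ∈ O) (ha : f z ∈ R.U a) : t a z ≠ 0 :=
  fun k => R.s_ne a _ ha (by rw [← h.sq a z hz ha, k]; simp)

theorem RS.comp (h : RS R f O t) {E' : Type} [TopologicalSpace E'] {k : E' → E} {O' : Set E'}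
    (hc : ContinuousOn k O') (hm : MapsTo k O' O) {f' : E' → B} (hf : ∀ z ∈ O', f' z = f (k z)) :
    RS R f' O' fun a z => t a (k z) where
  cont a := (h.cont a).comp (hc.mono inter_subset_left) fun z hz =>
    ⟨hm hz.1, by rw [mem_preimage, ← hf z hz.1]; exact hz.2⟩
  rel a b z hz ha hb := by
    rw [hf z hz] at ha hb ⊢
    exact h.rel a b _ (hm hz) ha hb
  sq a z hz ha := by
    rw [hf z hz] at ha ⊢
    exact h.sq a _ (hm hz) ha

theorem RS.glue {O' : Set E} {t' : n → E → ℂ} (h : RS R f O t) (h' : RS R f O' t')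
    (hO : IsOpen O) (hO' : IsOpen O') (hf : ContinuousOn f (O ∪ O')) (hm : MapsTo f (O ∩ O') W)
    (hc : IsPreconnected (O ∩ O')) : ∃ (κ : ℂ) (T : n → E → ℂ), RS R f (O ∪ O') T ∧
      (∀ a, ∀ z ∈ O, T a z = t a z) ∧ ∀ a, ∀ z ∈ O', f z ∈ R.U a → T a z = κ * t' a z := by
  classical
  choose! A hA using fun z (hz : z ∈ O ∩ O') => (show ∃ a : Option n, ∃ b, a = some b ∧ f z ∈ R.U b
    from (R.cov _ (hm hz)).elim fun b hb => ⟨some b, b, rfl, hb⟩)
  let φ : E → ℂ := fun z => (A z).elim 1 fun a => t a z / t' a z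
  have hφ : ∀ a, ∀ z ∈ O ∩ O', f z ∈ R.U a → φ z = t a z / t' a z := fun a z hz ha => by
    obtain ⟨b, e, hb⟩ := hA z hz
    simp only [φ, e, Option.elim]
    rw [h.rel a b z hz.1 ha hb, h'.rel a b z hz.2 ha hb, mul_div_mul_left _ _ (R.g_ne ha hb)]
  have hN : ∀ a, ∀ z ∈ O ∪ O', f z ∈ R.U a → f ⁻¹' R.U a ∈ 𝓝 z := fun a z hz ha =>
    (hf.continuousAt ((hO.union hO').mem_nhds hz)).preimage_mem_nhds ((R.opn a).mem_nhds ha)
  have hcont : ContinuousOn φ (O ∩ O') := fun z hz => by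
    obtain ⟨a, ha⟩ := R.cov _ (hm hz)
    have k := hN a z (Or.inl hz.1) ha
    refine ContinuousAt.continuousWithinAt (ContinuousAt.congr
      (((h.cont a).continuousAt (inter_mem (hO.mem_nhds hz.1) k)).div
        ((h'.cont a).continuousAt (inter_mem (hO'.mem_nhds hz.2) k)) (h'.ne hz.2 ha)) ?_)
    filter_upwards [k, (hO.inter hO').mem_nhds hz] with y k1 k2
    exact (hφ a y k2 k1).symm
  obtain ⟨κ, hκ, hk⟩ : ∃ κ : ℂ, κ ^ 2 = 1 ∧ ∀ z ∈ O ∩ O', φ z = κ := by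
    rcases hc.eq_one_or_eq_neg_one_of_sq_eq hcont (fun z hz => by
      obtain ⟨a, ha⟩ := R.cov _ (hm hz)
      rw [Pi.pow_apply, hφ a z hz ha, div_pow, h.sq a z hz.1 ha, h'.sq a z hz.2 ha,
        div_self (R.s_ne _ _ ha), Pi.one_apply]) with k | k
    · exact ⟨1, by ring, k⟩
    · exact ⟨-1, by ring, k⟩
  have e1 : ∀ a, ∀ z ∈ O, (if z ∈ O then t a z else κ * t' a z) = t a z := fun a z hz => if_pos hz
  have e2 : ∀ a, ∀ z ∈ O', f z ∈ R.U a → (if z ∈ O then t a z else κ * t' a z) = κ * t' a z :=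
    fun a z hz ha => by
      split_ifs with k
      · rw [← hk z ⟨k, hz⟩, hφ a z ⟨k, hz⟩ ha, div_mul_cancel₀ _ (h'.ne hz ha)]
      · rfl
  refine ⟨κ, fun a z => if z ∈ O then t a z else κ * t' a z, ⟨fun a z hz => ?_,
    fun a b z hz ha hb => ?_, fun a z hz ha => ?_⟩, e1, e2⟩
  · have k := hN a z hz.1 hz.2
    refine ContinuousAt.continuousWithinAt ?_
    rcases hz.1 with k1 | k1
    · refine ((h.cont a).continuousAt (inter_mem (hO.mem_nhds k1) k)).congr ?_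
      filter_upwards [hO.mem_nhds k1] with y hy
      exact (e1 a y hy).symm
    · refine ((continuousAt_const (y := κ)).mul
        ((h'.cont a).continuousAt (inter_mem (hO'.mem_nhds k1) k))).congr ?_
      filter_upwards [hO'.mem_nhds k1, k] with y hy hy'
      exact (e2 a y hy hy').symm
  · rcases hz with k | k
    · rw [e1 a z k, e1 b z k, h.rel a b z k ha hb]
    · rw [e2 a z k ha, e2 b z k hb, h'.rel a b z k ha hb]
      ring
  · rcases hz with k | k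
    · rw [e1 a z k, h.sq a z k ha]
    · rw [e2 a z k ha, mul_pow, hκ, one_mul, h'.sq a z k ha]

end rs

/-- square roots exist on convex sets -/
theorem exists_rs (cob : COB_statement) (R : RD W n) {E : Type} [NormedAddCommGroup E]
    [NormedSpace ℝ E] {D : Set E} (hD : IsOpen D) (hc : Convex ℝ D) {f : E → B}
    (hf : ContinuousOn f D) (hm : MapsTo f D W) : ∃ t, RS R f D t := by
  classical
  have ho : ∀ {s : Set B}, IsOpen s → IsOpen (D ∩ f ⁻¹' s) := fun hs =>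
    hf.isOpen_inter_preimage hD hs
  obtain ⟨ε, h1, h2⟩ := cob E D hD hc (ZMod 2) (LR R) (fun α => D ∩ f ⁻¹' α.V)
    (fun α => ho α.opn) (fun _ => inter_subset_left)
    (fun x hx => (exists_lr R (hm hx)).imp fun _ k => ⟨hx, k⟩) (fun α β z => R.coc.c α β (f z))
    (fun α β z hz => (hf.continuousAt (hD.mem_nhds hz.1.1)).eventually
      (R.coc.lc α β (f z) ⟨hz.1.2, hz.2.2⟩))
    (fun α β δ z hz => R.coc.co α β δ (f z) ⟨⟨hz.1.1.2, hz.1.2.2⟩, hz.2.2⟩)
  let T : LR R → n → E → ℂ := fun α a z => R.g a α.a (f z) * (ch (ε α z) * α.r (f z))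
  have hT : ∀ α β a, ∀ z ∈ D, f z ∈ α.V → f z ∈ β.V → f z ∈ R.U a → T α a z = T β a z :=
    fun α β a z hz k1 k2 ha => by
      have e1 := congrArg ch (h2 α β z ⟨⟨hz, k1⟩, hz, k2⟩)
      erw [ch_sg (α.q_sq β k1 k2)] at e1
      simp only [T]
      rw [α.q_mul β k1 k2, e1, ch_sub, ← R.g_co a α.a β.a _ ha (α.sub k1) (β.sub k2)]
      linear_combination (R.g a α.a (f z) * R.g α.a β.a (f z) * ch (ε β z) * β.r (f z)) *
        ch_sq (ε α z)
  have hA : ∀ z, ∃ u : n → ℂ, z ∈ D → ∃ α : LR R, f z ∈ α.V ∧ ∀ a, u a = T α a z := fun z => by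
    by_cases hz : z ∈ D
    · obtain ⟨α, hα⟩ := exists_lr R (hm hz)
      exact ⟨fun a => T α a z, fun _ => ⟨α, hα, fun _ => rfl⟩⟩
    · exact ⟨0, fun k => (hz k).elim⟩
  choose u hu using hA
  refine ⟨fun a z => u z a, fun a z hz => ?_, fun a b z hz ha hb => ?_, fun a z hz ha => ?_⟩
  · obtain ⟨α, hα, -⟩ := hu z hz.1
    have k0 := hf.continuousAt (hD.mem_nhds hz.1)
    have k1 : ContinuousAt (T α a) z := by
      refine (((R.g_cont a α.a).continuousAt (((R.opn _).inter (R.opn _)).mem_nhds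
        ⟨hz.2, α.sub hα⟩)).comp k0).mul (ContinuousAt.mul ?_
          ((α.cont.continuousAt (α.opn.mem_nhds hα)).comp k0))
      exact (continuousAt_const (y := ch (ε α z))).congr
        ((h1 α z ⟨hz.1, hα⟩).mono fun y k => (congrArg ch k).symm)
    refine (k1.congr ?_).continuousWithinAt
    filter_upwards [(ho α.opn).mem_nhds ⟨hz.1, hα⟩, (ho (R.opn a)).mem_nhds hz] with y k2 k3
    obtain ⟨β, hβ, k4⟩ := hu y k2.1
    rw [k4, hT α β a y k2.1 k2.2 hβ k3.2]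
  · obtain ⟨α, hα, k⟩ := hu z hz
    simp only [k, T]
    rw [← R.g_co a b α.a _ ha hb (α.sub hα)]
    ring
  · obtain ⟨α, hα, k⟩ := hu z hz
    simp only [k, T]
    rw [mul_pow, mul_pow, ch_sq, one_mul, α.sq _ hα, ← R.rel _ _ _ ha (α.sub hα)]

theorem hp (ζ : ℂ) : 0 < 1 + ‖ζ‖ ^ 2 := by positivity

theorem hp' (ζ : ℂ) : ((1 + ‖ζ‖ ^ 2 : ℝ) : ℂ) ≠ 0 := by exact_mod_cast (hp ζ).ne'

/-- the disc bundle is a product -/
def kk (y : ℂ × ℂ) : ℂ × ℂ := (y.1 / ((1 + ‖y.2‖ ^ 2 : ℝ) : ℂ), y.2)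

/-- the blow-down map in product coordinates -/
def ψ (z : ℂ × ℂ) : ℂ × ℂ := (z.1 ^ 2 * ((1 + ‖z.2 / z.1‖ ^ 2 : ℝ) : ℂ), z.2 / z.1)

theorem kk_cont : Continuous kk :=
  (continuous_fst.div (by fun_prop) fun y => hp' _).prodMk continuous_snd

theorem kk_map (r : ℝ) : MapsTo kk (ball 0 r ×ˢ univ) (Nr r) := fun y hy => by
  show ‖y.1 / ((1 + ‖y.2‖ ^ 2 : ℝ) : ℂ)‖ * (1 + ‖y.2‖ ^ 2) < r
  rw [norm_div, Complex.norm_real, Real.norm_of_nonneg (hp _).le, div_mul_cancel₀ _ (hp _).ne']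
  exact mem_ball_zero_iff.1 hy.1

theorem ψ_cont : ContinuousOn ψ {z | z.1 ≠ 0} := by
  have hd : ContinuousOn (fun z : ℂ × ℂ => z.2 / z.1) {z | z.1 ≠ 0} :=
    continuousOn_snd.div continuousOn_fst fun z hz => hz
  exact ((continuousOn_fst.pow 2).mul (Complex.continuous_ofReal.comp_continuousOn
    (continuousOn_const.add (hd.norm.pow 2)))).prodMk hd

theorem ψ_map (r : ℝ) : MapsTo ψ (B2 r ∩ {z | z.1 ≠ 0}) (ball 0 r ×ˢ univ) := fun z hz => by
  refine ⟨mem_ball_zero_iff.2 ?_, trivial⟩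
  show ‖z.1 ^ 2 * ((1 + ‖z.2 / z.1‖ ^ 2 : ℝ) : ℂ)‖ < r
  rw [norm_mul, Complex.norm_real, Real.norm_of_nonneg (hp _).le]
  exact StdbH.φ_mem hz.2 hz.1

theorem kk_ψ (z : ℂ × ℂ) : kk (ψ z) = StdbH.φ z :=
  Prod.ext (mul_div_cancel_right₀ _ (hp' _)) rfl

theorem ψ_neg (z : ℂ × ℂ) : ψ (-z) = ψ z := by simp [ψ]

/-- the root in one chart -/
theorem chart (cob : COB_statement) (R : RD W n) {W' : Set B} (R' : RD W' n) {φ : ℂ × ℂ → B}
    {r : ℝ} (hφ : ContinuousOn φ (Nr r)) (hm : MapsTo φ (Nr r) W') (γ : ZMod 2) (hg : R.g = R'.g)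
    (hs : ∀ a, ∀ y ∈ Nr r, y.1 ≠ 0 → φ y ∈ R.U a →
      φ y ∈ R'.U a ∧ R.s a (φ y) = (y.1 / (‖y.1‖ : ℂ)) ^ γ.val * R'.s a (φ y)) :
    ∃ t, RS R (fun z => φ (StdbH.φ z)) (B2 r ∩ {z | z.1 ≠ 0}) t ∧
      ∀ a z, t a (-z) = ch γ * t a z := by
  obtain ⟨T, hT⟩ := exists_rs cob R' (D := ball (0 : ℂ) r ×ˢ (univ : Set ℂ))
    (isOpen_ball.prod isOpen_univ) ((convex_ball (0 : ℂ) r).prod convex_univ) (f := φ ∘ kk)
    (hφ.comp kk_cont.continuousOn (kk_map r)) (hm.comp (kk_map r))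
  have hT' := hT.comp (f' := fun z => φ (StdbH.φ z)) (ψ_cont.mono inter_subset_right) (ψ_map r)
    fun z _ => congrArg φ (kk_ψ z).symm
  have hs' := fun a (z : ℂ × ℂ) (hz : z ∈ B2 r ∩ {z | z.1 ≠ 0}) =>
    hs a _ (StdbH.φ_mem hz.2 hz.1) (pow_ne_zero 2 hz.2)
  refine ⟨fun a z => (z.1 / (‖z.1‖ : ℂ)) ^ γ.val * T a (ψ z), ⟨fun a => ?_,
    fun a b z hz ha hb => ?_, fun a z hz ha => ?_⟩, fun a z => ?_⟩
  · refine ContinuousOn.mul ((continuousOn_fst.div (by fun_prop) fun z hz => ?_).pow _)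
      ((hT'.cont a).mono fun z hz => ⟨hz.1, (hs' a z hz.1 hz.2).1⟩)
    exact_mod_cast norm_ne_zero_iff.2 hz.1.2
  · have := hT'.rel a b z hz (hs' a z hz ha).1 (hs' b z hz hb).1
    rw [this, hg]
    ring
  · have := hT'.sq a z hz (hs' a z hz ha).1
    rw [mul_pow, this, (hs' a z hz ha).2, ← pow_mul, mul_comm γ.val, pow_mul]
    simp [StdbH.φ, div_pow]
  · simp only [ψ_neg, Prod.fst_neg, norm_neg, ch]
    rw [neg_div, neg_pow]
    ring

end top

theorem conn_two (r : ℝ) :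
    IsPreconnected ((B2 r ∩ {z | z.1 ≠ 0}) ∩ (B2 r ∩ {z | z.2 ≠ 0})) := by
  have h1 : ∀ L : (ℂ × ℂ) →ₗ[ℝ] ℝ, ConvexOn ℝ univ fun y => Real.exp (L y) := fun L =>
    convexOn_exp.comp_linearMap L
  have h2 := ((h1 ((2 : ℝ) • Complex.reLm ∘ₗ LinearMap.fst ℝ ℂ ℂ)).add
    (h1 ((2 : ℝ) • Complex.reLm ∘ₗ LinearMap.snd ℝ ℂ ℂ))).convex_lt r
  have h3 := h2.isPreconnected.image (fun y : ℂ × ℂ => (Complex.exp y.1, Complex.exp y.2))
    (by fun_prop)
  have h4 : ∀ y : ℂ, ‖Complex.exp y‖ ^ 2 = Real.exp (2 * y.re) := fun y => by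
    rw [Complex.norm_exp, ← Real.exp_nat_mul, Nat.cast_ofNat]
  convert h3 using 1
  ext z
  constructor
  · rintro ⟨⟨k, k1⟩, -, k2⟩
    refine ⟨(Complex.log z.1, Complex.log z.2), ⟨trivial, ?_⟩,
      Prod.ext (Complex.exp_log k1) (Complex.exp_log k2)⟩
    show Real.exp (2 * (Complex.log z.1).re) + Real.exp (2 * (Complex.log z.2).re) < r
    rw [← h4, ← h4, Complex.exp_log k1, Complex.exp_log k2]
    exact k
  · rintro ⟨y, ⟨-, hy⟩, rfl⟩
    have k : (Complex.exp y.1, Complex.exp y.2) ∈ B2 r := by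
      show ‖Complex.exp y.1‖ ^ 2 + ‖Complex.exp y.2‖ ^ 2 < r
      rw [h4, h4]
      exact hy
    exact ⟨⟨k, Complex.exp_ne_zero _⟩, k, Complex.exp_ne_zero _⟩

variable {X : Type} [TopologicalSpace X] [ChartedSpace HS.E4 X] [IsManifold (𝓡 4) ∞ X]
  {w : Tri X} {W : Set X} {n : Type}

/-- the monodromy of the cocycle of the square roots -/
theorem model (cob : COB_statement) (R : RD W n) (S : Std w) (hc : ContinuousOn (sq S) (B0 S.r))
    (hm : MapsTo (sq S) (B0 S.r) W) (γ : ZMod 2) {Wp Wq : Set X} (Rp : RD Wp n) (Rq : RD Wq n)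
    (mp : MapsTo S.p (Nr S.r) Wp) (mq : MapsTo S.q (Nr S.r) Wq) (gp : R.g = Rp.g) (gq : R.g = Rq.g)
    (sp : ∀ a, ∀ y ∈ Nr S.r, y.1 ≠ 0 → S.p y ∈ R.U a →
      S.p y ∈ Rp.U a ∧ R.s a (S.p y) = (y.1 / (‖y.1‖ : ℂ)) ^ γ.val * Rp.s a (S.p y))
    (sq' : ∀ a, ∀ y ∈ Nr S.r, y.1 ≠ 0 → S.q y ∈ R.U a →
      S.q y ∈ Rq.U a ∧ R.s a (S.q y) = (y.1 / (‖y.1‖ : ℂ)) ^ γ.val * Rq.s a (S.q y)) :
    CocModel R.coc S γ := by
  obtain ⟨tp, h1, o1⟩ := chart cob R Rp S.p_smooth.continuousOn mp γ gp sp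
  obtain ⟨tq, h2, o2⟩ := chart cob R Rq S.q_smooth.continuousOn mq γ gq sq'
  have h1' := h1.comp (k := id) continuousOn_id (mapsTo_id _) (f' := sq S)
    fun z hz => StdbH.sq_p S hz.2
  have h2' := h2.comp (k := Prod.swap) (O' := B2 S.r ∩ {z | z.2 ≠ 0}) continuous_swap.continuousOn
    (fun z hz => ⟨StdbH.swap_mem hz.1, hz.2⟩) (f' := sq S) fun z hz => StdbH.sq_q S hz.2 hz.1
  have hU : (B2 S.r ∩ {z | z.1 ≠ 0}) ∪ (B2 S.r ∩ {z | z.2 ≠ 0}) = B0 S.r := by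
    rw [← inter_union_distrib_left]
    ext z
    exact and_congr_right fun _ => ⟨fun k e => by
      rw [mem_singleton_iff] at e
      rcases k with k | k <;> exact k (by rw [e]; rfl), fun k => StdbH.ne_or k⟩
  obtain ⟨κ, T, hT, e1, e2⟩ := h1'.glue h2'
    ((StdbH.isOpen_B2 _).inter (isOpen_ne_fun continuous_fst continuous_const))
    ((StdbH.isOpen_B2 _).inter (isOpen_ne_fun continuous_snd continuous_const)) (hU ▸ hc)
    (fun z hz => hm (hU ▸ Or.inl hz.1)) (conn_two _)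
  have hneg : ∀ z ∈ B2 S.r, -z ∈ B2 S.r := fun z hz => by simpa [B2] using hz
  have hsn : ∀ z, sq S (-z) = sq S z := fun z => by simp [sq]
  have hodd : ∀ a, ∀ z ∈ B0 S.r, sq S z ∈ R.U a → T a (-z) = ch γ * T a z := fun a z hz ha => by
    rcases hU.symm ▸ hz with k | k
    · rw [e1 a z k, e1 a (-z) ⟨hneg z k.1, neg_ne_zero.2 k.2⟩]
      exact o1 a z
    · rw [e2 a z k ha, e2 a (-z) ⟨hneg z k.1, neg_ne_zero.2 k.2⟩ (by rwa [hsn])]
      have := o2 a z.swap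
      rw [mul_left_comm, ← this]
      rfl
  rw [hU] at hT
  have hq : ∀ α : LR R, ∀ z ∈ B0 S.r, sq S z ∈ α.V → (α.r (sq S z) / T α.a z) ^ 2 = 1 :=
    fun α z hz k => by
      rw [div_pow, α.sq _ k, hT.sq _ z hz (α.sub k), div_self (R.s_ne _ _ (α.sub k))]
  refine ⟨fun α z => sg (α.r (sq S z) / T α.a z), fun α => ?_, fun α β z hz k => ?_,
    fun α z hz k => ?_⟩
  · exact lc_sg (hc.isOpen_inter_preimage (StdbH.isOpen_B0 _) α.opn)
      ((α.cont.comp (hc.mono inter_subset_left) fun z hz => hz.2).div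
        ((hT.cont _).mono fun z hz => ⟨hz.1, α.sub hz.2⟩) fun z hz => hT.ne hz.1 (α.sub hz.2))
      fun z hz => hq α z hz.1 hz.2
  · refine (sub_eq_iff_eq_add.2 (show sg (α.r (sq S z) / T α.a z) = sg (LR.q α β (sq S z)) +
      sg (β.r (sq S z) / T β.a z) from ?_)).symm
    apply ch_inj
    rw [ch_add, ch_sg (α.q_sq β k.1 k.2), ch_sg (hq α z hz k.1), ch_sg (hq β z hz k.2),
      hT.rel α.a β.a z hz (α.sub k.1) (β.sub k.2)]
    unfold LR.q
    have := R.g_ne (α.sub k.1) (β.sub k.2)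
    have := β.ne k.2
    have := hT.ne hz (β.sub k.2)
    field_simp
  · apply ch_inj
    have hz' : -z ∈ B0 S.r := ⟨hneg z hz.1, fun e => hz.2 (neg_eq_zero.1 e)⟩
    rw [ch_add, ch_sg (hq α z hz k), ch_sg (hq α _ hz' (by rwa [hsn])), hsn,
      hodd _ z hz (α.sub k)]
    have := hT.ne hz (α.sub k)
    have h0 : ch γ ≠ 0 := pow_ne_zero _ (by norm_num)
    field_simp
    rw [ch_sq, mul_one]

end Vale.Agent.P247Y.DivH
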