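import Vale.Agent.P247Y.Cv
import Vale.Agent.P247Y.Cov
import Vale.Agent.P247Y.Folb
import Vale.Agent.P247.H74.RPFIN.Data

/-!
# P247, block Y, row FOLX: algebra, the sign of the complex structure, lifts through a tube
-/

set_option linter.all false

open scoped Manifold ContDiff Topology
open Set MeasureTheory Filter Metric Function

noncomputable section

namespace Vale.Agent.P247Y.FolX

open Vale.Agent.P247.SCY Vale.Agent.P247.SCY.HS Vale.Agent.P247X Vale.Agent.P247C
open Vale.Agent.P247.H74 (R4 P2 Data e lin)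
open Vale.Agent.P247.H74.RPFIN
open Vale.Agent.P204.Mfd (dch dsym endRep SmoothEnd)

theorem r4_dec (u : R4) : u = u 0 • e 0 + u 1 • e 1 + u 2 • e 2 + u 3 • e 3 := by
  funext i
  fin_cases i <;> simp [e]

theorem expand (α : R4 [⋀^Fin 2]→L[ℝ] ℝ) (u v : R4) : α ![u, v] =
    (u 0 * v 1 - u 1 * v 0) * α ![e 0, e 1] + (u 0 * v 2 - u 2 * v 0) * α ![e 0, e 2] +
    (u 0 * v 3 - u 3 * v 0) * α ![e 0, e 3] + (u 1 * v 2 - u 2 * v 1) * α ![e 1, e 2] +
    (u 1 * v 3 - u 3 * v 1) * α ![e 1, e 3] + (u 2 * v 3 - u 3 * v 2) * α ![e 2, e 3] := by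
  have h : ∀ x y : R4, α ![x, y] = y 0 * α ![x, e 0] + y 1 * α ![x, e 1] + y 2 * α ![x, e 2] +
      y 3 * α ![x, e 3] := fun x y => by
    conv_lhs => rw [r4_dec y]
    simp only [alt2_add_right, alt2_smul_right]
  rw [h u v, alt2_swap α u (e 0), alt2_swap α u (e 1), alt2_swap α u (e 2), alt2_swap α u (e 3),
    h (e 0) u, h (e 1) u, h (e 2) u, h (e 3) u, alt2_swap α (e 1) (e 0), alt2_swap α (e 2) (e 0),
    alt2_swap α (e 3) (e 0), alt2_swap α (e 2) (e 1), alt2_swap α (e 3) (e 1),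
    alt2_swap α (e 3) (e 2)]
  simp only [alt2_self]
  ring

/-- a nonzero anti-invariant form is nondegenerate -/
theorem wedge_ne {α : R4 [⋀^Fin 2]→L[ℝ] ℝ} {J : R4 →L[ℝ] R4} (hJ : ∀ u, J (J u) = -u)
    (h : ∀ u v, α ![J u, J v] = -α ![u, v]) {u v : R4} (huv : α ![u, v] ≠ 0) :
    HS.wedge α α e ≠ 0 := by
  intro h0
  have key : ∀ a b c d : R4, α ![a, b] * α ![c, d] - α ![a, c] * α ![b, d] +
      α ![a, d] * α ![b, c] = 0 := fun a b c d => by
    rw [expand α a b, expand α c d, expand α a c, expand α b d, expand α a d, expand α b c]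
    unfold HS.wedge at h0
    linear_combination ((a 0 * b 1 - a 1 * b 0) * (c 2 * d 3 - c 3 * d 2) -
      (a 0 * b 2 - a 2 * b 0) * (c 1 * d 3 - c 3 * d 1) +
      (a 0 * b 3 - a 3 * b 0) * (c 1 * d 2 - c 2 * d 1) +
      (a 1 * b 2 - a 2 * b 1) * (c 0 * d 3 - c 3 * d 0) -
      (a 1 * b 3 - a 3 * b 1) * (c 0 * d 2 - c 2 * d 0) +
      (a 2 * b 3 - a 3 * b 2) * (c 0 * d 1 - c 1 * d 0)) / 2 * h0
  have h1 := key u (J u) v (J v)
  have h2 := h u (J v)
  rw [hJ, ← neg_one_smul ℝ v, alt2_smul_right] at h2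
  rw [anti_zero α J hJ h u, h u v, show α ![J u, v] = α ![u, J v] by linarith] at h1
  nlinarith [mul_self_pos.2 huv, mul_self_nonneg (α ![u, J v])]

/-- the complex structure is determined by the pair up to sign -/
theorem sign_pt (D : Data) (x : R4) {J : R4 →L[ℝ] R4} (hJ : ∀ u, J (J u) = -u)
    (h : ∀ j u v, (D.η j).val x (J u) (J v) = -(D.η j).val x u v) :
    (∀ u, J u = D.J x u) ∨ ∀ u, J u = -D.J x u := by
  have ng : ∀ j u v, (D.η j).val x u (-v) = -(D.η j).val x u v := fun j u v => by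
    rw [← neg_one_smul ℝ v, val_smul_right, neg_one_mul]
  have h2 : ∀ u, u ≠ 0 → ∃ a b : ℝ, J u = a • u + b • D.J x u := fun u hu =>
    D.nd x u _ hu fun j => by
      have k := h j u (J u)
      rw [hJ, ng, val_swap _ x (J u)] at k
      linarith
  have h3 : ∀ u, J u = D.J x u ∨ J u = -D.J x u := fun u => by
    rcases eq_or_ne u 0 with rfl | hu
    · simp
    obtain ⟨v, hv⟩ : ∃ v, ¬∀ j, (D.η j).val x u v = 0 := by
      by_contra! k
      have k1 : Submodule.span ℝ (range ![u, D.J x u]) = ⊤ := eq_top_iff.2 fun v _ => by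
        obtain ⟨a, b, rfl⟩ := D.nd x u v hu (k v)
        exact add_mem (Submodule.smul_mem _ _ (Submodule.subset_span ⟨0, rfl⟩))
          (Submodule.smul_mem _ _ (Submodule.subset_span ⟨1, rfl⟩))
      simpa using finrank_le_of_span_eq_top k1
    have hv0 : v ≠ 0 := fun k => hv fun j => by
      rw [k, ← zero_smul ℝ u, val_smul_right, zero_mul]
    obtain ⟨a, b, ha⟩ := h2 u hu
    obtain ⟨a', b', ha'⟩ := h2 v hv0
    have c00 := D.c_sq x 0 0
    have c01 := D.c_sq x 0 1
    have c10 := D.c_sq x 1 0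
    have c11 := D.c_sq x 1 1
    simp only [Fin.sum_univ_two, if_pos, Fin.zero_eq_one_iff, OfNat.ofNat_ne_one, if_false,
      Fin.one_eq_zero_iff] at c00 c01 c10 c11
    have r1 : ∀ j u v, (D.η j).val x u (D.J x v) =
        D.c x j 0 * (D.η 0).val x u v + D.c x j 1 * (D.η 1).val x u v := fun j u v => by
      rw [D.η_J, Fin.sum_univ_two]
    have r2 : ∀ j, (D.η j).val x (D.J x u) v =
        D.c x j 0 * (D.η 0).val x u v + D.c x j 1 * (D.η 1).val x u v := fun j => by
      rw [val_swap, r1, val_swap _ x v, val_swap _ x v]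
      ring
    have ind : ∀ s t : ℝ, (∀ j, s * (D.η j).val x u v + t * (D.c x j 0 * (D.η 0).val x u v +
        D.c x j 1 * (D.η 1).val x u v) = 0) → s = 0 ∧ t = 0 := fun s t k => by
      have k0 := k 0
      have k1 := k 1
      have k2 : (s ^ 2 + t ^ 2) * (D.η 0).val x u v = 0 := by
        linear_combination s * k0 - t * (D.c x 0 0 * k0 + D.c x 0 1 * k1) +
          t ^ 2 * ((D.η 0).val x u v * c00 + (D.η 1).val x u v * c01)
      have k3 : (s ^ 2 + t ^ 2) * (D.η 1).val x u v = 0 := by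
        linear_combination s * k1 - t * (D.c x 1 0 * k0 + D.c x 1 1 * k1) +
          t ^ 2 * ((D.η 0).val x u v * c10 + (D.η 1).val x u v * c11)
      have k4 : s ^ 2 + t ^ 2 = 0 := by_contra fun k4 => hv (Fin.forall_fin_two.2
        ⟨(mul_eq_zero.1 k2).resolve_left k4, (mul_eq_zero.1 k3).resolve_left k4⟩)
      constructor <;> nlinarith [sq_nonneg s, sq_nonneg t]
    obtain ⟨e1, e2⟩ := ind (a - a') (b - b') fun j => by
      have k := h j u (J v)
      rw [hJ, ng, ha, ha', val_add_left, val_add_right, val_smul_left, val_smul_left,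
        val_smul_right, val_smul_right, r1, r2] at k
      linarith
    obtain ⟨e3, e4⟩ := ind (a * a' - b * b' + 1) (a * b' + b * a') (Fin.forall_fin_two.2 ⟨by
      have k := h 0 u v
      simp only [ha, ha', val_add_left, val_add_right, val_smul_left, val_smul_right, r1, r2] at k
      linear_combination k - b * b' * ((D.η 0).val x u v * c00 + (D.η 1).val x u v * c01), by
      have k := h 1 u v
      simp only [ha, ha', val_add_left, val_add_right, val_smul_left, val_smul_right, r1, r2] at k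
      linear_combination k - b * b' * ((D.η 0).val x u v * c10 + (D.η 1).val x u v * c11)⟩)
    obtain rfl : a = a' := by linarith
    obtain rfl : b = b' := by linarith
    have b0 : b ≠ 0 := fun k => by
      rw [k] at e3
      nlinarith [mul_self_nonneg a]
    obtain rfl : a = 0 := by
      refine (mul_eq_zero.1 (by linarith : a * b = 0)).resolve_right b0
    rcases mul_self_eq_one_iff.1 (by linarith : b * b = 1) with rfl | rfl
    · exact .inl (by simpa using ha)
    · exact .inr (by simpa using ha)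
  by_contra! k
  obtain ⟨⟨u, hu⟩, v, hv⟩ := k
  have k1 := (h3 u).resolve_left hu
  have k2 := (h3 v).resolve_right hv
  rcases h3 (u + v) with k3 | k3
  · rw [map_add, map_add, k2, add_left_inj] at k3
    exact hu k3
  · rw [map_add, map_add, k1, neg_add, add_right_inj] at k3
    exact hv k3

theorem isOpen_Tb (r : ℝ) : IsOpen (Tb r) :=
  (isOpen_lt (continuous_apply 0).abs continuous_const).inter
    (isOpen_lt (continuous_apply 1).abs continuous_const)

theorem convex_Tb (r : ℝ) : Convex ℝ (Tb r) := by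
  have h : ∀ i, Convex ℝ {x : R4 | |x i| < r} := fun i => by
    have h := (convex_ball (0 : ℝ) r).linear_preimage (LinearMap.proj i : R4 →ₗ[ℝ] ℝ)
    have e1 : {x : R4 | |x i| < r} = (LinearMap.proj i : R4 →ₗ[ℝ] ℝ) ⁻¹' ball 0 r := by
      ext x
      simp
    rwa [e1]
  exact (h 0).inter (h 1)

theorem tr2_mem {r : ℝ} (m n : ℤ) {x : R4} (h : x ∈ Tb r) : tr2 m n x ∈ Tb r := by
  simpa [Tb, tr2, e] using h

theorem lin_mem {r : ℝ} (hr : 0 < r) (p : P2) : lin p ∈ Tb r := by
  simpa [Tb, lin] using hr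

theorem Tb_mono {r r' : ℝ} (h : r ≤ r') : Tb r ⊆ Tb r' :=
  fun _ hx => ⟨hx.1.trans_le h, hx.2.trans_le h⟩

theorem continuous_tr2 (m n : ℤ) : Continuous (tr2 m n) := by
  unfold tr2
  fun_prop

variable {Z : Type} [TopologicalSpace Z] [ChartedSpace HS.E4 Z] [IsManifold (𝓡 4) ∞ Z]

/-- the differential as a map of the model spaces -/
def dd4 (Φ : R4 → Z) (x : R4) : R4 →L[ℝ] HS.E4 := mfderiv 𝓘(ℝ, R4) (𝓡 4) Φ x

/-- an endomorphism field as a plain function -/
def jj (J : EndF Z) (x : Z) : HS.E4 →L[ℝ] HS.E4 := J x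

theorem sign_loc {Φ : R4 → Z} {s : Set R4} (hs : IsOpen s)
    (hΦ : ContMDiffOn 𝓘(ℝ, R4) (𝓡 4) ∞ Φ s) {J : EndF Z} (hJ : SmoothEnd J) {k : R4 → R4}
    (hk : Continuous k) (u : R4) {x : R4} (hx : x ∈ s) (h0 : dd4 Φ x (k x) ≠ 0)
    (h : jj J (Φ x) (dd4 Φ x u) = dd4 Φ x (k x)) :
    ∀ᶠ y in 𝓝 x, jj J (Φ y) (dd4 Φ y u) ≠ -dd4 Φ y (k y) := by
  have hc := chart_mem_atlas HS.E4 (Φ x)
  have hz := mem_chart_source HS.E4 (Φ x)
  set c := chartAt HS.E4 (Φ x)
  have h1 := cd_chart hc (hΦ.contMDiffAt (hs.mem_nhds hx)) hz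
  have h2 := (h1.fderiv_right (m := ∞) (by simp)).continuousAt
  have h3 : ContinuousAt (fun y => endRep c J (c (Φ y)) (fderiv ℝ (fun y => c (Φ y)) y u) +
      fderiv ℝ (fun y => c (Φ y)) y (k y)) x :=
    ((ContinuousAt.comp (g := endRep c J) (f := fun y => c (Φ y)) ((hJ c hc).continuousOn.continuousAt
      (c.open_target.mem_nhds (c.map_source hz))) h1.continuousAt).clm_apply
        (h2.clm_apply continuousAt_const)).add (h2.clm_apply hk.continuousAt)
  have h4 : ∀ y ∈ s, Φ y ∈ c.source → endRep c J (c (Φ y)) (fderiv ℝ (fun y => c (Φ y)) y u) +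
      fderiv ℝ (fun y => c (Φ y)) y (k y) =
        dch c (Φ y) (jj J (Φ y) (dd4 Φ y u) + dd4 Φ y (k y)) := fun y hy hy' => by
    have m1 := (hΦ.contMDiffAt (hs.mem_nhds hy)).mdifferentiableAt (by simp)
    have m2 := dsym_dch hc (c.map_source hy') (dd4 Φ y u)
    rw [fderiv_chart hc m1 hy', fderiv_chart hc m1 hy', map_add]
    congr 1
    show dch c (c.symm (c (Φ y))) (jj J (c.symm (c (Φ y))) (dsym c (c (Φ y))
      (dch c (Φ y) (dd4 Φ y u)))) = _
    rw [c.left_inv hy'] at m2 ⊢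
    rw [m2]
  have h5 : dch c (Φ x) (jj J (Φ x) (dd4 Φ x u) + dd4 Φ x (k x)) ≠ 0 := fun k1 => h0 (by
    have m2 := dsym_dch hc (c.map_source hz) (jj J (Φ x) (dd4 Φ x u) + dd4 Φ x (k x))
    rw [c.left_inv hz, k1, map_zero, h, ← two_smul ℝ] at m2
    exact (smul_eq_zero.1 m2.symm).resolve_left two_ne_zero)
  filter_upwards [h3.eventually_ne (by rw [h4 x hx hz]; exact h5), hs.mem_nhds hx,
    (hΦ.contMDiffAt (hs.mem_nhds hx)).continuousAt.eventually (c.open_source.mem_nhds hz)]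
    with y k1 hy hy' k2
  rw [h4 y hy hy', k2, neg_add_cancel, map_zero] at k1
  exact k1 rfl

/-- the sign is constant -/
theorem sign_glob {Φ : R4 → Z} {s : Set R4} (hs : IsOpen s) (hp : IsPreconnected s)
    (hΦ : ContMDiffOn 𝓘(ℝ, R4) (𝓡 4) ∞ Φ s) (hi : ∀ x ∈ s, Injective (dd4 Φ x)) {J : EndF Z}
    (hJ : SmoothEnd J) (D : Data) (h : ∀ x ∈ s, (∀ u, jj J (Φ x) (dd4 Φ x u) = dd4 Φ x (D.J x u)) ∨
      ∀ u, jj J (Φ x) (dd4 Φ x u) = dd4 Φ x (-D.J x u)) :
    ∃ D' : Data, ∀ x ∈ s, ∀ u, jj J (Φ x) (dd4 Φ x u) = dd4 Φ x (D'.J x u) := by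
  have k0 : Continuous fun x => D.J x (e 0) := D.J_smooth.continuous.clm_apply continuous_const
  have k1 : ∀ x ∈ s, dd4 Φ x (D.J x (e 0)) ≠ 0 := fun x hx k => by
    have k2 := D.J_sq x (e 0)
    rw [(injective_iff_map_eq_zero _).1 (hi x hx) _ k, map_zero] at k2
    simpa [e] using congrFun k2 0
  have o1 : IsOpen {x | x ∈ s ∧ ∀ u, jj J (Φ x) (dd4 Φ x u) = dd4 Φ x (D.J x u)} :=
    isOpen_iff_mem_nhds.2 fun x hx => by
      filter_upwards [sign_loc hs hΦ hJ k0 (e 0) hx.1 (k1 x hx.1) (hx.2 _), hs.mem_nhds hx.1]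
        with y k hy
      exact ⟨hy, (h y hy).resolve_right fun k' => k (by rw [k', map_neg])⟩
  have o2 : IsOpen {x | x ∈ s ∧ ∀ u, jj J (Φ x) (dd4 Φ x u) = dd4 Φ x (-D.J x u)} :=
    isOpen_iff_mem_nhds.2 fun x hx => by
      filter_upwards [sign_loc hs hΦ hJ k0.neg (e 0) hx.1
        (by rw [Pi.neg_apply, map_neg]; exact neg_ne_zero.2 (k1 x hx.1)) (hx.2 _),
        hs.mem_nhds hx.1] with y k hy
      exact ⟨hy, (h y hy).resolve_left fun k' => k (by rw [k', Pi.neg_apply, map_neg, neg_neg])⟩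
  rcases hp.subset_or_subset o1 o2 (disjoint_left.2 fun x h1 h2 => by
    have k := (h1.2 (e 0)).symm.trans (h2.2 (e 0))
    rw [map_neg, eq_neg_iff_add_eq_zero, ← two_smul ℝ] at k
    exact k1 x h1.1 ((smul_eq_zero.1 k).resolve_left two_ne_zero))
    (fun x hx => (h x hx).imp (fun k => ⟨hx, k⟩) fun k => ⟨hx, k⟩) with k | k
  · exact ⟨D, fun x hx => (k hx).2⟩
  · exact ⟨negD D, fun x hx => (k hx).2⟩

/-- lifts through a tube -/
theorem lift_tube {Φ : R4 → Z} {r : ℝ} (hΦ : ContMDiffOn 𝓘(ℝ, R4) (𝓡 4) ∞ Φ (Tb r))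
    (hb : ∀ x ∈ Tb r, Bijective (dm4 Φ x)) (hp : ∀ m n x, Φ (tr2 m n x) = Φ x)
    (hi : ∀ x ∈ Tb r, ∀ y ∈ Tb r, Φ x = Φ y → ∃ m n, y = tr2 m n x) {f : ℂ → Z}
    (hf : Continuous f) (h : ∀ z, f z ∈ Φ '' Tb r) :
    ∃ u : ℂ → R4, Continuous u ∧ ∀ z, u z ∈ Tb r ∧ Φ (u z) = f z := by
  classical
  let C : GCov (Φ '' Tb r) (ℤ × ℤ) :=
    { Z := Tb r
      top := inferInstance
      t2 := inferInstance
      π := fun x => Φ x
      act := fun g x => ⟨tr2 g.1 g.2 x, tr2_mem _ _ x.2⟩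
      π_cont := continuousOn_iff_continuous_restrict.1 hΦ.continuousOn
      act_cont := fun g => ((continuous_tr2 _ _).comp continuous_subtype_val).subtype_mk _
      act_zero := fun x => Subtype.ext (by simp [tr2])
      act_add := fun g g' x => Subtype.ext (by
        simp only [tr2, Prod.fst_add, Prod.snd_add, Int.cast_add, add_smul]
        abel)
      π_act := fun g x => hp _ _ _
      free := fun g x k => by
        have k1 := congrFun (congrArg Subtype.val k) 2
        have k2 := congrFun (congrArg Subtype.val k) 3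
        simp [tr2, e] at k1 k2
        exact Prod.ext k1 k2
      trans := fun x y k => by
        obtain ⟨m, n, k1⟩ := hi _ x.2 _ y.2 k
        exact ⟨(m, n), Subtype.ext k1⟩
      mem := fun x => ⟨x, x.2, rfl⟩
      loc := by
        rintro _ ⟨x, hx, rfl⟩
        obtain ⟨c, k1, k2, k3, -⟩ := locInv (isOpen_Tb r) hΦ hx (hb x hx)
        refine ⟨c.target, c.open_target, k3 x ▸ c.map_source k1,
          fun y hy => ⟨_, k2 (c.map_target hy), (k3 _).symm.trans (c.right_inv hy)⟩,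
          fun y => if hy : y ∈ c.target then ⟨c.symm y, k2 (c.map_target hy)⟩ else ⟨x, hx⟩, ?_,
          fun y hy => ?_, ?_⟩
        · refine Topology.IsInducing.subtypeVal.continuousOn_iff.2
            (c.continuousOn_symm.congr fun y hy => ?_)
          simp only [comp_apply, dif_pos hy]
        · simp only [dif_pos hy]
          exact (k3 _).symm.trans (c.right_inv hy)
        · convert c.open_source.preimage continuous_subtype_val using 1
          ext y
          refine ⟨?_, fun hy => ⟨c y, c.map_source hy, Subtype.ext ?_⟩⟩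
          · rintro ⟨y', hy', rfl⟩
            simp only [mem_preimage, dif_pos hy']
            exact c.map_target hy'
          · simp only [dif_pos (c.map_source hy)]
            exact c.left_inv hy }
  obtain ⟨F, k1, k2⟩ := C.lift hf h
  exact ⟨fun z => (F z).1, continuous_subtype_val.comp k1, fun z => ⟨(F z).2, k2 z⟩⟩

end Vale.Agent.P247Y.FolX
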