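import Vale.Agent.P247Y.Dc

/-!
# P247, block Y: monodromy of coverings along families of tori
-/

set_option linter.all false

open scoped Manifold ContDiff Topology
open Set MeasureTheory Filter Metric Function

noncomputable section

namespace Vale.Agent.P247Y

open Vale.Agent.P247.H74 (R4 P2)

/-- shifts -/
def sh (m n : ℤ) (q : P2 × P2) : P2 × P2 := (q.1, (q.2.1 + m, q.2.2 + n))

theorem sh_cont (m n : ℤ) : Continuous (sh m n) := by
  unfold sh
  fun_prop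

theorem sh_add (m n m' n' : ℤ) (q : P2 × P2) : sh (m + m') (n + n') q = sh m n (sh m' n' q) := by
  simp only [sh]
  push_cast
  congr 2 <;> ring

theorem sh_dom {ε : ℝ} {q : P2 × P2} (h : q ∈ Dom ε) (m n : ℤ) : sh m n q ∈ Dom ε :=
  mem_dom.2 h.1

/-- additive maps on `ℤ²` -/
def Add2 {G : Type} [AddCommGroup G] (μ : ℤ → ℤ → G) : Prop :=
  ∀ m n m' n', μ (m + m') (n + n') = μ m n + μ m' n'

theorem Add2.mul {G : Type} [AddCommGroup G] {μ : ℤ → ℤ → G} (h : Add2 μ) (N : ℕ) (m n : ℤ) :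
    μ (N * m) (N * n) = N • μ m n := by
  induction N with
  | zero =>
    have := h 0 0 0 0
    simpa using this
  | succ N ih => rw [Nat.cast_succ, add_mul, add_mul, h, ih, one_mul, one_mul, succ_nsmul]

variable {X : Type} [TopologicalSpace X] {W : Set X} {G : Type} [AddCommGroup G] (Z : GCov W G)

theorem mono_hom (hL : LIFT_statement) {s : Set (P2 × P2)} (hs : IsPreconnected s)
    (hne : s.Nonempty) (hper : ∀ q ∈ s, ∀ m n, sh m n q ∈ s) {g : P2 × P2 → Z.Z}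
    (hg : ContinuousOn g s) (hπ : ∀ q ∈ s, ∀ m n, Z.π (g (sh m n q)) = Z.π (g q)) :
    ∃ μ : ℤ → ℤ → G, Add2 μ ∧ ∀ q ∈ s, ∀ m n, g (sh m n q) = Z.act (μ m n) (g q) := by
  choose μ hμ using fun m n : ℤ => (hL X W G Z).1 _ s hs g (fun q => g (sh m n q)) hg
    (hg.comp (sh_cont m n).continuousOn fun q hq => hper q hq m n) fun q hq => (hπ q hq m n).symm
  refine ⟨μ, fun m n m' n' => ?_, fun q hq m n => hμ m n q hq⟩
  obtain ⟨q, hq⟩ := hne
  refine Z.act_cancel (z := g q) ?_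
  rw [← hμ _ _ q hq, Z.act_add, ← hμ m' n' q hq, ← hμ m n _ (hper q hq m' n'), sh_add]

theorem conn_of_onto {g : P2 → Z.Z} (hg : Continuous g) {μ : ℤ → ℤ → G}
    (h : ∀ (p : P2) (m n : ℤ), g (p.1 + m, p.2 + n) = Z.act (μ m n) (g p))
    (ho : ∀ a, ∃ m n, μ m n = a) : IsPreconnected (Z.π ⁻¹' range fun p => Z.π (g p)) := by
  have e : (Z.π ⁻¹' range fun p => Z.π (g p)) = range g := by
    ext z
    refine ⟨fun ⟨p, hp⟩ => ?_, fun ⟨p, hp⟩ => ⟨p, by rw [← hp]⟩⟩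
    obtain ⟨a, rfl⟩ := Z.trans _ _ hp
    obtain ⟨m, n, rfl⟩ := ho a
    exact ⟨_, h p m n⟩
  rw [e]
  exact isPreconnected_range hg

theorem onto_of_conn [Finite G] {g : P2 → Z.Z} (hg : Continuous g) {μ : ℤ → ℤ → G} (hμ : Add2 μ)
    (h : ∀ (p : P2) (m n : ℤ), g (p.1 + m, p.2 + n) = Z.act (μ m n) (g p))
    (hi : ∀ p p', Z.π (g p) = Z.π (g p') → ∃ m n : ℤ, p' = (p.1 + m, p.2 + n))
    (hc : IsPreconnected (Z.π ⁻¹' range fun p => Z.π (g p))) (a : G) : ∃ m n, μ m n = a := by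
  classical
  have hK : IsCompact (range g) := cpt_per hg (Nat.card G) Nat.card_pos fun p m n => by
    rw [h, hμ.mul, card_nsmul_eq_zero', Z.act_zero]
  let V : Set Z.Z := ⋃ b : {b : G // ∀ m n, μ m n ≠ b}, Z.act b.1 '' range g
  have hV : IsClosed V := isClosed_iUnion_of_finite fun b => (hK.image (Z.act_cont _)).isClosed
  have hd : ∀ z ∈ range g, z ∉ V := by
    rintro _ ⟨p, rfl⟩ hz
    obtain ⟨b, _, ⟨p', rfl⟩, e⟩ := mem_iUnion.1 hz
    obtain ⟨m, n, rfl⟩ := hi p' p (by rw [← e, Z.π_act])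
    rw [h] at e
    exact b.2 m n (Z.act_cancel e).symm
  by_contra! ha
  rcases isPreconnected_iff_subset_of_disjoint_closed.1 hc (range g) V hK.isClosed hV (by
    rintro z ⟨p, hp⟩
    obtain ⟨b, rfl⟩ := Z.trans _ _ hp
    by_cases hb : ∃ m n, μ m n = b
    · obtain ⟨m, n, rfl⟩ := hb
      exact Or.inl ⟨_, h p m n⟩
    · push Not at hb
      exact Or.inr (mem_iUnion.2 ⟨⟨b, hb⟩, _, ⟨p, rfl⟩, rfl⟩))
    (eq_empty_of_forall_notMem fun z hz => hd z hz.2.1 hz.2.2) with k | k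
  · exact hd _ (k (a := Z.act a (g 0)) ⟨0, (Z.π_act _ _).symm⟩)
      (mem_iUnion.2 ⟨⟨a, ha⟩, _, ⟨0, rfl⟩, rfl⟩)
  · exact hd _ ⟨0, rfl⟩ (k (a := g 0) ⟨0, rfl⟩)

/-- the lift of a family -/
theorem lift_fam (hL : LIFT_statement) {ε : ℝ} (hε : 0 < ε) {f : P2 × P2 → X}
    (hf : ContinuousOn f (Dom ε)) (hW : ∀ q ∈ Dom ε, f q ∈ W)
    (hper : ∀ q m n, f (sh m n q) = f q) : ∃ (g : P2 × P2 → Z.Z) (μ : ℤ → ℤ → G), Add2 μ ∧
      ContinuousOn g (Dom ε) ∧ (∀ q ∈ Dom ε, Z.π (g q) = f q) ∧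
      ∀ q ∈ Dom ε, ∀ m n, g (sh m n q) = Z.act (μ m n) (g q) := by
  have h0 : (0 : P2 × P2) ∈ Dom ε := mem_dom.2 (mem_ball_self hε)
  obtain ⟨z₀, -⟩ := Z.surj (hW 0 h0)
  obtain ⟨g, h1, h2, -⟩ := (hL X W G Z).2 (P2 × P2) (Dom ε) ∅ (dom_open ε) (dom_convex ε)
    (fun x _ => Eventually.of_forall fun y => notMem_empty y) f (hf.mono diff_subset)
    (fun x hx => hW x hx.1) (fun _ _ => z₀) fun s hs => hs.2.elim
  rw [diff_empty] at h1 h2
  obtain ⟨μ, h3, h4⟩ := mono_hom Z hL (dom_convex ε).isPreconnected ⟨0, h0⟩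
    (fun q hq => sh_dom hq) h1 fun q hq m n => by rw [h2 _ (sh_dom hq m n), h2 q hq, hper]
  exact ⟨g, μ, h3, h1, h2, h4⟩

theorem cont_slice {A : Type*} [TopologicalSpace A] {g : P2 × P2 → A} {s : Set (P2 × P2)}
    (hg : ContinuousOn g s) {y : P2} (hy : ∀ p, (y, p) ∈ s) : Continuous fun p => g (y, p) :=
  hg.comp_continuous (Continuous.prodMk_right y) hy

/-- connectedness of the preimage does not depend on the member of the family -/
theorem conn_transfer [Finite G] (hL : LIFT_statement) {ε : ℝ} {f : P2 × P2 → X}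
    (hf : ContinuousOn f (Dom ε)) (hW : ∀ q ∈ Dom ε, f q ∈ W)
    (hper : ∀ q m n, f (sh m n q) = f q) {y y' : P2} (hy : y ∈ ball (0 : P2) ε)
    (hy' : y' ∈ ball (0 : P2) ε)
    (hi : ∀ p p', f (y, p) = f (y, p') → ∃ m n : ℤ, p' = (p.1 + m, p.2 + n))
    (hc : IsPreconnected (Z.π ⁻¹' range fun p => f (y, p))) :
    IsPreconnected (Z.π ⁻¹' range fun p => f (y', p)) := by
  obtain ⟨g, μ, h1, h2, h3, h4⟩ := lift_fam Z hL (pos_of_mem_ball hy) hf hW hper
  have e : ∀ y ∈ ball (0 : P2) ε, (fun p => f (y, p)) = fun p => Z.π (g (y, p)) :=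
    fun y hy => funext fun p => (h3 _ (mem_dom.2 hy)).symm
  rw [e y hy] at hc
  rw [e y' hy']
  refine conn_of_onto Z (cont_slice h2 fun p => mem_dom.2 hy') (μ := μ)
    (fun p m n => h4 (y', p) (mem_dom.2 hy') m n) ?_
  refine onto_of_conn Z (cont_slice h2 fun p => mem_dom.2 hy) h1
    (fun p m n => h4 (y, p) (mem_dom.2 hy) m n) (fun p p' k => hi p p' ?_) hc
  rwa [h3 _ (mem_dom.2 hy), h3 _ (mem_dom.2 hy)] at k

theorem rank_P2 : 1 < Module.rank ℝ P2 := by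
  simp only [rank_prod', Module.rank_self]
  norm_num

/-- punctured balls are connected -/
theorem conn_punct {E : Type*} [NormedAddCommGroup E] [NormedSpace ℝ E] (h : 1 < Module.rank ℝ E)
    {ε : ℝ} (hε : 0 < ε) : IsPreconnected (ball (0 : E) ε \ {0}) := by
  let e := OpenPartialHomeomorph.univBall (0 : E) ε
  have h1 : e.source = univ := OpenPartialHomeomorph.univBall_source _ _
  have h2 : e.target = ball 0 ε := OpenPartialHomeomorph.univBall_target _ hε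
  have h3 : e 0 = 0 := OpenPartialHomeomorph.univBall_apply_zero _ _
  have h4 : e '' {0}ᶜ = ball 0 ε \ {0} := by
    ext y
    constructor
    · rintro ⟨x, hx, rfl⟩
      refine ⟨h2 ▸ e.map_source (h1 ▸ mem_univ x), fun k => hx ?_⟩
      exact e.injOn (h1 ▸ mem_univ _) (h1 ▸ mem_univ _) (k.trans h3.symm)
    · rintro ⟨hy, hy'⟩
      refine ⟨e.symm y, fun k => hy' ?_, e.right_inv (h2 ▸ hy)⟩
      rw [← e.right_inv (x := y) (h2 ▸ hy), mem_singleton_iff.1 k]
      exact h3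
  rw [← h4]
  exact (isConnected_compl_singleton_of_one_lt_rank h 0).isPreconnected.image _
    (e.continuousOn.mono (h1 ▸ subset_univ _))

/-- the domain minus a subset of the central leaf is connected -/
theorem conn_dom_diff {ε : ℝ} (hε : 0 < ε) {S : Set (P2 × P2)} (hS : ∀ q ∈ S, q.1 = 0) :
    IsPreconnected (Dom ε \ S) := by
  refine ((conn_punct rank_P2 hε).prod (isPreconnected_univ (α := P2))).subset_closure
    (fun q hq => ⟨mem_dom.2 hq.1.1, fun k => hq.1.2 (hS q k)⟩) fun q hq => ?_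
  rw [closure_prod_eq, closure_univ]
  refine ⟨?_, mem_univ _⟩
  have : Dense ({0}ᶜ : Set P2) := dense_compl_singleton 0
  exact this.open_subset_closure_inter isOpen_ball hq.1.1

end Vale.Agent.P247Y
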