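import Vale.Agent.P247Y.Meet

/-!
# P247, block Y: leaves near a special leaf, local lemmas
-/

set_option linter.all false

open scoped Manifold ContDiff Topology
open Set Filter Metric Function

noncomputable section

namespace Vale.Agent.P247Y.NeH

open Vale.Agent.P247.SCY hiding dm
open Vale.Agent.P247.SCY.HS
open Vale.Agent.P247X
open Vale.Agent.P247.H74 (P2)
open MeH

section fol

variable {Z : Type} [TopologicalSpace Z] [ChartedSpace HS.E4 Z] {J : EndF Z}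

/-- the projection to the base -/
structure Prj (F : Fol J) (π : Z → P2) : Prop where
  opn : IsOpen F.img
  sm : ContMDiffOn (𝓡 4) 𝓘(ℝ, P2) ∞ π F.img
  eq : ∀ q ∈ Dom F.ε, π (F.Ψ q) = q.1

variable {F : Fol J} {π : Z → P2}

theorem Prj.md (h : Prj F π) {z : Z} (hz : z ∈ F.img) :
    MDifferentiableAt (𝓡 4) 𝓘(ℝ, P2) π z :=
  (h.sm.contMDiffAt (h.opn.mem_nhds hz)).mdifferentiableAt (by simp)

theorem Prj.leaf (h : Prj F π) {y : P2} (hy : y ∈ ball (0 : P2) F.ε) {x : Z} (hx : x ∈ F.leaf y) :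
    π x = y := by
  obtain ⟨p, rfl⟩ := hx
  exact h.eq (y, p) (mem_dom.2 hy)

theorem Prj.mem (h : Prj F π) {x : Z} (hx : x ∈ F.img) : x ∈ F.leaf (π x) := by
  obtain ⟨q, hq, rfl⟩ := hx
  rw [h.eq q hq]
  exact ⟨q.2, rfl⟩

theorem Prj.dπ (h : Prj F π) {q : P2 × P2} (hq : q ∈ Dom F.ε) (a : P2 × P2) :
    (mfderiv (𝓡 4) 𝓘(ℝ, P2) π (F.Ψ q) (dmP F.Ψ q a) : P2) = a.1 := by
  have a1 := ((F.at hq).mdifferentiableAt (by simp)).hasMFDerivAt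
  have a2 := (h.md ⟨_, hq, rfl⟩).hasMFDerivAt
  have a3 := (a2.comp _ a1).congr_of_eventuallyEq (f₁ := ContinuousLinearMap.fst ℝ P2 P2)
    (eventually_of_mem ((dom_open _).mem_nhds hq) fun q hq => (h.eq q hq).symm)
  exact (congrArg (fun A : P2 × P2 →L[ℝ] P2 => A a)
    (hasMFDerivAt_unique (ContinuousLinearMap.fst ℝ P2 P2).hasMFDerivAt a3)).symm

theorem dΨ_tan {T : Tor J} (h6 : ∀ p : P2, F.Ψ (0, p) = T.u (p.1 + p.2 * T.τ)) (p β : P2) :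
    (dmP F.Ψ (0, p) (0, β) : HS.E4) = (dm T.u (cz T.τ p) (lp T.τ β) : HS.E4) := by
  have a1 := ((F.at (F.zero_mem p)).mdifferentiableAt (by simp)).hasMFDerivAt
  have a4 : HasMFDerivAt 𝓘(ℝ, P2) (𝓡 4) (F.Ψ ∘ ContinuousLinearMap.inr ℝ P2 P2) p _ :=
    a1.comp p (ContinuousLinearMap.inr ℝ P2 P2).hasMFDerivAt
  have a5 := (Tor.mdiff T _).hasMFDerivAt.comp p (lp T.τ).hasMFDerivAt
  have e : T.u ∘ lp T.τ = F.Ψ ∘ ContinuousLinearMap.inr ℝ P2 P2 := funext fun p => by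
    rw [comp_apply, lp_apply, ← h6]
    rfl
  have a6 := a4.mfderiv
  rw [← e, a5.mfderiv] at a6
  rw [cz, ← lp_apply T.τ p]
  exact (congrArg (fun A : P2 →L[ℝ] HS.E4 => A β) a6).symm

theorem Prj.ker (h : Prj F π) {T : Tor J} (h6 : ∀ p : P2, F.Ψ (0, p) = T.u (p.1 + p.2 * T.τ))
    (p : P2) (v : HS.E4) (hv : (mfderiv (𝓡 4) 𝓘(ℝ, P2) π (F.Ψ (0, p)) v : P2) = 0) :
    ∃ a, v = (dm T.u (cz T.τ p) a : HS.E4) := by
  obtain ⟨⟨α, β⟩, rfl⟩ := (F.bij _ (F.zero_mem p)).2 v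
  obtain rfl : α = 0 := (h.dπ (F.zero_mem p) (α, β)).symm.trans hv
  exact ⟨_, dΨ_tan h6 p β⟩

/-- an involution with differential `-1` at a fixed point moves the nearby leaves -/
theorem Prj.move (h : Prj F π) {ι : Z → Z} {p : P2}
    (hι : MDifferentiableAt (𝓡 4) (𝓡 4) ι (F.Ψ (0, p))) (hfix : ι (F.Ψ (0, p)) = F.Ψ (0, p))
    (hd : ∀ v : HS.E4, (mfderiv (𝓡 4) (𝓡 4) ι (F.Ψ (0, p)) v : HS.E4) = -v) :
    ∀ᶠ y in 𝓝 (0 : P2), π (ι (F.Ψ (y, p))) = y → y = 0 := by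
  have hq := F.zero_mem p
  have a0 : HasFDerivAt (fun y : P2 => (y, p)) (ContinuousLinearMap.inl ℝ P2 P2) 0 :=
    hasFDerivAt_prodMk_left 0 p
  have a1 := ((F.at hq).mdifferentiableAt (by simp)).hasMFDerivAt.comp (0 : P2) a0.hasMFDerivAt
  have a2 := hι.hasMFDerivAt.comp (0 : P2) a1
  have a3 : HasMFDerivAt (𝓡 4) 𝓘(ℝ, P2) π (ι (F.Ψ (0, p)))
      (mfderiv (𝓡 4) 𝓘(ℝ, P2) π (F.Ψ (0, p))) := by
    rw [hfix]
    exact (h.md ⟨_, hq, rfl⟩).hasMFDerivAt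
  have a4 := hasMFDerivAt_iff_hasFDerivAt.1 (a3.comp (0 : P2) a2)
  have a5 : HasFDerivAt (fun y : P2 => π (ι (F.Ψ (y, p)))) (-ContinuousLinearMap.id ℝ P2) 0 := by
    refine a4.congr_fderiv (ContinuousLinearMap.ext fun v => ?_)
    have k1 := hd (dmP F.Ψ (0, p) (v, 0))
    have k2 := h.dπ hq (v, 0)
    show (mfderiv (𝓡 4) 𝓘(ℝ, P2) π (F.Ψ (0, p)))
      (mfderiv (𝓡 4) (𝓡 4) ι (F.Ψ (0, p)) (dmP F.Ψ (0, p) (v, 0)) : HS.E4) = -v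
    rw [k1]
    exact (map_neg (mfderiv (𝓡 4) 𝓘(ℝ, P2) π (F.Ψ (0, p))) _).trans (congrArg Neg.neg k2)
  have a6 := a5.isLittleO.def (c := 1) one_pos
  filter_upwards [a6] with y hy e
  rw [e, hfix, h.eq _ hq] at hy
  simp only [sub_zero, ContinuousLinearMap.neg_apply, ContinuousLinearMap.id_apply,
    sub_neg_eq_add, one_mul, ← two_smul ℝ y, norm_smul, Real.norm_ofNat] at hy
  exact norm_eq_zero.1 (by linarith [norm_nonneg y])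

variable [IsManifold (𝓡 4) ∞ Z] [T2Space Z]

theorem exists_prj (hF : FOLB_statement) (F : Fol J) : ∃ π, Prj F π := by
  obtain ⟨h2, -, ⟨π, h4, h5⟩, -⟩ := hF Z J F
  exact ⟨π, h2 _ isOpen_ball Subset.rfl, h4, h5⟩

/-- a torus which meets the central leaf once, transversally, meets the nearby leaves once -/
theorem Prj.once (hF : FOLB_statement) (h : Prj F π) (B : Tor J) {z₀ : ℂ}
    (h1 : B.set ∩ F.leaf 0 = {B.u z₀})
    (h2 : ∀ a, (mfderiv (𝓡 4) 𝓘(ℝ, P2) π (B.u z₀) (dm B.u z₀ a) : P2) = 0 → a = 0) :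
    ∀ᶠ y in 𝓝 (0 : P2), ∃ z, B.set ∩ F.leaf y = {B.u z} ∧
      ∀ a, (mfderiv (𝓡 4) 𝓘(ℝ, P2) π (B.u z) (dm B.u z a) : P2) = 0 → a = 0 := by
  have hz : (0 : P2) ∈ ball (0 : P2) F.ε := mem_ball_self F.ε_pos
  have h0 : B.u z₀ ∈ F.leaf 0 := (h1.ge rfl).2
  have hs : IsOpen (B.u ⁻¹' F.img) := h.opn.preimage B.smooth.continuous
  have hβ : ContMDiffOn 𝓘(ℝ, ℂ) 𝓘(ℝ, P2) ∞ (π ∘ B.u) (B.u ⁻¹' F.img) :=
    h.sm.comp B.smooth.contMDiffOn fun z hz => hz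
  have hd : ∀ z ∈ B.u ⁻¹' F.img, ∀ a, (mfderiv 𝓘(ℝ, ℂ) 𝓘(ℝ, P2) (π ∘ B.u) z a : P2) =
      (mfderiv (𝓡 4) 𝓘(ℝ, P2) π (B.u z) (dm B.u z a) : P2) := fun z hz a =>
    DFunLike.congr_fun ((h.md hz).hasMFDerivAt.comp z (Tor.mdiff B z).hasMFDerivAt).mfderiv a
  have hi : Injective (mfderiv 𝓘(ℝ, ℂ) 𝓘(ℝ, P2) (π ∘ B.u) z₀) :=
    (injective_iff_map_eq_zero _).2 fun a ha => h2 a ((hd z₀ (F.leaf_sub hz h0) a).symm.trans ha)
  have hb : ∀ A : ℂ →L[ℝ] P2, Injective A → Bijective A := fun A hA =>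
    ⟨hA, (LinearMap.injective_iff_surjective_of_finrank_eq_finrank (f := A.toLinearMap)
      (by simp)).1 hA⟩
  obtain ⟨e, e1, e2, e3, e4⟩ := locInv hs hβ (F.leaf_sub hz h0) (hb _ hi)
  have e5 : ContMDiffOn 𝓘(ℝ, ℂ) 𝓘(ℝ, P2) ∞ e e.source := (hβ.mono e2).congr fun x _ => e3 x
  have e6 : (e : ℂ → P2) = π ∘ B.u := funext e3
  let G : Set P2 := (Icc (0 : ℝ) (1 : ℕ) ×ˢ Icc (0 : ℝ) (1 : ℕ)) ∩
    ⋂ m : ℤ, ⋂ n : ℤ, (fun p => cz B.τ p + m + n * B.τ) ⁻¹' e.sourceᶜ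
  have hG : IsCompact G := (isCompact_Icc.prod isCompact_Icc).inter_right
    (isClosed_iInter fun m => isClosed_iInter fun n => e.open_source.isClosed_compl.preimage
      (((cz_cont _).add continuous_const).add continuous_const))
  have hC : IsCompact ((fun p => B.u (cz B.τ p)) '' G) :=
    hG.image (B.smooth.continuous.comp (cz_cont _))
  obtain ⟨ε, g1, g2, g3⟩ := (hF Z J F).2.2.2.1 _ hC.isClosed.isOpen_compl (by
    rintro x hx ⟨p, hp, rfl⟩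
    have k : B.u (cz B.τ p) = B.u z₀ := h1.le ⟨⟨_, rfl⟩, hx⟩
    obtain ⟨m, n, k'⟩ := B.inj _ _ k
    exact mem_iInter.1 (mem_iInter.1 hp.2 m) n (show cz B.τ p + m + n * B.τ ∈ e.source from k' ▸ e1))
  have t1 : e.target ∈ 𝓝 (0 : P2) := by
    have := e.map_source e1
    rw [e3, comp_apply, h.leaf hz h0] at this
    exact e.open_target.mem_nhds this
  filter_upwards [t1, ball_mem_nhds (0 : P2) g1] with y y1 y2
  have y3 := ball_subset_ball g2 y2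
  have y4 := e.map_target y1
  refine ⟨e.symm y, eq_singleton_iff_unique_mem.2 ⟨⟨⟨_, rfl⟩, ?_⟩, ?_⟩, fun a ha => ?_⟩
  · have k := h.mem (e2 y4)
    rwa [show π (B.u (e.symm y)) = y from (e3 _).symm.trans (e.right_inv y1)] at k
  · rintro x ⟨k1, k2⟩
    have k3 : x ∉ (fun p => B.u (cz B.τ p)) '' G := by
      obtain ⟨p, rfl⟩ := k2
      exact g3 ⟨(y, p), mem_dom.2 y2, rfl⟩
    rw [← Tor.range_cz B, range_per _ 1 one_pos (fun p m n => by rw [cz_add, B.per])] at k1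
    obtain ⟨p, hp, rfl⟩ := k1
    have k4 : ∃ m n : ℤ, cz B.τ p + m + n * B.τ ∈ e.source := by
      by_contra! k4
      exact k3 ⟨p, ⟨hp, mem_iInter.2 fun m => mem_iInter.2 fun n => k4 m n⟩, rfl⟩
    obtain ⟨m, n, k4⟩ := k4
    have k5 : e (cz B.τ p + m + n * B.τ) = y := by
      rw [e3, comp_apply, B.per]
      exact h.leaf y3 k2
    rw [← k5, e.left_inv k4, B.per]
  · have k := (mfderiv_bij e e5 e4 y4).1
    rw [e6] at k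
    exact k ((hd _ (e2 y4) a).trans (ha.trans (map_zero _).symm))

end fol

variable {X : Type} [Cl4 X] {c : Ctx X} {Y : DC c.St}

/-- push-forward of transversality -/
theorem trans_of (pre : Pre) {L : Set Y.Y} (hL : IsClosed L) (hs : L ⊆ Y.Yo) {B : Tor Y.P.J}
    {z : ℂ} (h0 : B.u z ∈ Y.Yo) (hne : Y.ι (B.u z) ∉ L) {K : Set X}
    (hB : ∀ y ∈ Y.Yo, Y.pr y ∈ K → y ∈ B.set) {π : Y.Y → P2}
    (hπ : MDifferentiableAt (𝓡 4) 𝓘(ℝ, P2) π (B.u z)) {k : P2} (hc : ∀ x ∈ L, π x = k)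
    (hi : ∀ a, (mfderiv (𝓡 4) 𝓘(ℝ, P2) π (B.u z) (dm B.u z a) : P2) = 0 → a = 0) :
    TransAt (Y.pr '' L) K (Y.pr (B.u z)) := by
  intro γ γ' h1 h2 d1 d2 m1 m2 hv
  obtain ⟨e, e1, e2, e3, e4⟩ := locInv Y.Yo_open Y.pr_smooth h0 (Y.pr_bij _ h0)
  have e5 : ContMDiffOn (𝓡 4) (𝓡 4) ∞ e e.source := (Y.pr_smooth.mono e2).congr fun x _ => e3 x
  have t0 : Y.pr (B.u z) ∈ e.target := e3 _ ▸ e.map_source e1
  have t1 : e.symm (Y.pr (B.u z)) = B.u z := by rw [← e3, e.left_inv e1]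
  have s1 : MDifferentiableAt (𝓡 4) (𝓡 4) e.symm (Y.pr (B.u z)) :=
    (e4.contMDiffAt (e.open_target.mem_nhds t0)).mdifferentiableAt (by simp)
  have key : ∀ δ : ℝ → X, δ 0 = Y.pr (B.u z) → MDifferentiableAt 𝓘(ℝ, ℝ) (𝓡 4) δ 0 →
      MDifferentiableAt 𝓘(ℝ, ℝ) (𝓡 4) (e.symm ∘ δ) 0 ∧ (e.symm ∘ δ) 0 = B.u z ∧
      (mfderiv 𝓘(ℝ, ℝ) (𝓡 4) (e.symm ∘ δ) 0 (1 : ℝ) : HS.E4) =
        (mfderiv (𝓡 4) (𝓡 4) e.symm (Y.pr (B.u z))
          (mfderiv 𝓘(ℝ, ℝ) (𝓡 4) δ 0 (1 : ℝ) : HS.E4) : HS.E4) ∧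
      ∀ᶠ t in 𝓝 (0 : ℝ), e.symm (δ t) ∈ Y.Yo ∧ Y.pr (e.symm (δ t)) = δ t := by
    intro δ k1 k2
    have k3 : HasMFDerivAt (𝓡 4) (𝓡 4) e.symm (δ 0)
        (mfderiv (𝓡 4) (𝓡 4) e.symm (Y.pr (B.u z))) := by
      rw [k1]
      exact s1.hasMFDerivAt
    have k4 := k3.comp (0 : ℝ) k2.hasMFDerivAt
    refine ⟨k4.mdifferentiableAt, by rw [comp_apply, k1, t1],
      DFunLike.congr_fun k4.mfderiv (1 : ℝ), ?_⟩
    filter_upwards [k2.continuousAt.eventually (e.open_target.mem_nhds (k1 ▸ t0))] with t ht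
    exact ⟨e2 (e.map_target ht), (e3 _).symm.trans (e.right_inv ht)⟩
  obtain ⟨a1, a2, a3, a4⟩ := key γ h1 d1
  obtain ⟨b1, b2, b3, b4⟩ := key γ' h2 d2
  obtain ⟨a, ha⟩ := (pre.tang Y.Y Y.P.J Y.P.ac.sq _ b1).1 B z (by
    filter_upwards [b4, m2] with t k1 k2
    exact hB _ k1.1 (k1.2.symm ▸ k2)) b2
  have c1 : ∀ᶠ t in 𝓝 (0 : ℝ), π ((e.symm ∘ γ) t) = k := by
    have c2 : ∀ᶠ t in 𝓝 (0 : ℝ), Y.ι ((e.symm ∘ γ) t) ∉ L :=
      (Y.ι_cont.continuousAt.comp a1.continuousAt).eventually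
        (hL.isOpen_compl.mem_nhds (by rw [comp_apply, a2]; exact hne))
    filter_upwards [a4, m1, c2] with t k1 ⟨l, k2, k3⟩ k4
    rcases Y.pr_eq (hs k2) k1.1 (k3.trans k1.2.symm) with k5 | k5
    · exact hc _ (show e.symm (γ t) ∈ L from k5 ▸ k2)
    · exact (k4 (by rw [comp_apply, k5, Y.ι_ι]; exact k2)).elim
  have c3 : HasMFDerivAt (𝓡 4) 𝓘(ℝ, P2) π ((e.symm ∘ γ) 0)
      (mfderiv (𝓡 4) 𝓘(ℝ, P2) π (B.u z)) := by
    rw [a2]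
    exact hπ.hasMFDerivAt
  have c4 := (c3.comp (0 : ℝ) a1.hasMFDerivAt).congr_of_eventuallyEq (f₁ := fun _ => k)
    (c1.mono fun t ht => ht.symm)
  have c5 := congrArg (fun A : ℝ →L[ℝ] P2 => A 1)
    (hasMFDerivAt_unique c4 (hasMFDerivAt_const k (0 : ℝ)))
  have c6 : (mfderiv (𝓡 4) 𝓘(ℝ, P2) π (B.u z)
      (mfderiv 𝓘(ℝ, ℝ) (𝓡 4) (e.symm ∘ γ) 0 (1 : ℝ) : HS.E4) : P2) = 0 := c5
  rw [a3, hv, ← b3, ha] at c6
  obtain rfl := hi a c6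
  rw [b3, ← hv] at ha
  exact (mfderiv_bij e.symm e4 e5 t0).1 ((ha.trans (map_zero _)).trans (map_zero _).symm)

end Vale.Agent.P247Y.NeH
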