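import Vale.Agent.P247L.T2

/-!
# P247, block Y, row TRANSPL: the primitive in the normal directions
-/

set_option linter.all false

open scoped BigOperators ContDiff Topology
open Set Filter Metric MeasureTheory

noncomputable section

namespace Vale.Agent.P247Y.TrP

open Vale.Agent.P204 Vale.Agent.P204.T4 Vale.Agent.P204.GX Vale.Agent.P247.SCY

/-- the scaling factors -/
def sc (t : ℝ) : Fin 4 → ℝ := ![t, t, 1, 1]

/-- the normal directions -/
def nz : Fin 4 → ℝ := ![1, 1, 0, 0]

/-- scaling of the normal directions -/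
def St (t : ℝ) (x : V4) : V4 := fun i => sc t i * x i

/-- closedness at a point -/
def ClAt (α : V4 → L2) (x : V4) : Prop := ∀ i j k, pd i (fun y => ent (α y) j k) x +
  pd j (fun y => ent (α y) k i) x + pd k (fun y => ent (α y) i j) x = 0

/-- the integrand -/
def hq (α : V4 → L2) (t : ℝ) (x : V4) : V4 :=
  fun j => sc t j * ∑ k, (nz k * x k) * ent (α (St t x)) k j

theorem sc_eq (t : ℝ) (i : Fin 4) : sc t i = nz i * t + (1 - nz i) := by
  fin_cases i <;> simp [sc, nz]

theorem contDiff_sc (i : Fin 4) : ContDiff ℝ ∞ fun t => sc t i := by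
  simp only [sc_eq]
  fun_prop

theorem hasDerivAt_sc (t : ℝ) (i : Fin 4) : HasDerivAt (fun t => sc t i) (nz i) t := by
  simp only [sc_eq]
  simpa using ((hasDerivAt_id t).const_mul (nz i)).add_const (1 - nz i)

theorem contDiff_St2 : ContDiff ℝ ∞ fun p : ℝ × V4 => St p.1 p.2 := by
  rw [contDiff_pi]
  intro i
  exact ((contDiff_sc i).comp contDiff_fst).mul (by fun_prop)

theorem contDiff_St (t : ℝ) : ContDiff ℝ ∞ (St t) :=
  contDiff_St2.comp (contDiff_const.prodMk contDiff_id)

theorem St_one (x : V4) : St 1 x = x := by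
  funext i
  fin_cases i <;> simp [St, sc]

theorem St_add (t : ℝ) (x v : V4) (h0 : v 0 = 0) (h1 : v 1 = 0) : St t (x + v) = St t x + v := by
  funext i
  fin_cases i <;> simp [St, sc, h0, h1]

theorem contDiff_hq {α : V4 → L2} (hα : ContDiff ℝ ∞ α) :
    ContDiff ℝ ∞ (Function.uncurry (hq α)) := by
  rw [contDiff_pi]
  intro j
  refine ((contDiff_sc j).comp contDiff_fst).mul (ContDiff.sum fun k _ => ?_)
  have h2 : ContDiff ℝ ∞ (fun p : ℝ × V4 => nz k * p.2 k) := by fun_prop
  exact h2.mul ((contDiff_ent k j).comp (hα.comp contDiff_St2))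

theorem pd_co (i k : Fin 4) (x : V4) : pd i (fun y : V4 => y k) x = if k = i then 1 else 0 := by
  unfold pd
  have : fderiv ℝ (fun y : V4 => y k) x =
      ContinuousLinearMap.proj (R := ℝ) (φ := fun _ : Fin 4 => ℝ) k :=
    (ContinuousLinearMap.proj (R := ℝ) (φ := fun _ : Fin 4 => ℝ) k).fderiv
  rw [this]
  simp [Pi.single_apply]

theorem pd_St {f : V4 → ℝ} (hf : ContDiff ℝ ∞ f) (t : ℝ) (x : V4) (i : Fin 4) :
    pd i (fun y => f (St t y)) x = sc t i * pd i f (St t x) := by
  have hc : ∀ k : Fin 4, DifferentiableAt ℝ (fun y : V4 => y k) x := fun k => by fun_prop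
  rw [pd_comp (hf.differentiable (by simp) _) ((contDiff_St t).differentiable (by simp) _)]
  have h1 : ∀ l, Dm (St t) x l i = if l = i then sc t i else 0 := by
    intro l
    show pd i (fun y => sc t l * y l) x = _
    rw [pd_const_mul (hc l), pd_co]
    split_ifs with h
    · rw [h, mul_one]
    · rw [mul_zero]
  simp only [h1]
  simp [mul_comm]

theorem pd_hq {α : V4 → L2} (hα : ContDiff ℝ ∞ α) (t : ℝ) (x : V4) (i j : Fin 4) :
    pd i (fun y => hq α t y j) x = sc t j * (nz i * ent (α (St t x)) i j +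
      ∑ k, (nz k * x k) * (sc t i * pd i (fun y => ent (α y) k j) (St t x))) := by
  have hs : ∀ k : Fin 4, DifferentiableAt ℝ (fun y : V4 => ent (α (St t y)) k j) x := fun k =>
    ((contDiff_ent k j).comp (hα.comp (contDiff_St t))).differentiable (by simp) x
  have hc : ∀ k : Fin 4, DifferentiableAt ℝ (fun y : V4 => nz k * y k) x := fun k => by fun_prop
  have hc' : ∀ k : Fin 4, DifferentiableAt ℝ (fun y : V4 => y k) x := fun k => by fun_prop
  unfold hq
  rw [pd_const_mul (DifferentiableAt.fun_sum fun k _ => (hc k).fun_mul (hs k)),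
    pd_sum (fun k _ => (hc k).fun_mul (hs k))]
  congr 1
  have e : ∀ k : Fin 4, pd i (fun y : V4 => (nz k * y k) * ent (α (St t y)) k j) x =
      (if k = i then nz k * ent (α (St t x)) k j else 0) +
        (nz k * x k) * (sc t i * pd i (fun y => ent (α y) k j) (St t x)) := by
    intro k
    rw [GX.pd_mul (hc k) (hs k), GX.pd_const_mul (hc' k), pd_co,
      pd_St (f := fun y => ent (α y) k j) ((contDiff_ent k j).comp hα)]
    split_ifs <;> ring
  rw [Finset.sum_congr rfl fun k _ => e k, Finset.sum_add_distrib]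
  congr 1
  simp

theorem norm_hq_le {α : V4 → L2} {t : ℝ} (ht : t ∈ Icc (0 : ℝ) 1) {x : V4} {B : ℝ}
    (hB : ‖α (St t x)‖ ≤ B) : ‖hq α t x‖ ≤ (|x 0| + |x 1|) * B := by
  have hB0 : 0 ≤ B := (norm_nonneg _).trans hB
  rw [pi_norm_le_iff_of_nonneg (by positivity)]
  intro j
  show ‖sc t j * ∑ k, (nz k * x k) * ent (α (St t x)) k j‖ ≤ _
  rw [norm_mul]
  have h1 : ‖∑ k, (nz k * x k) * ent (α (St t x)) k j‖ ≤ (|x 0| + |x 1|) * B := by
    have e : ∑ k, (nz k * x k) * ent (α (St t x)) k j =
        x 0 * ent (α (St t x)) 0 j + x 1 * ent (α (St t x)) 1 j := by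
      simp [Fin.sum_univ_four, nz]
    rw [e, add_mul]
    refine (norm_add_le _ _).trans (add_le_add ?_ ?_) <;> rw [norm_mul] <;>
      exact mul_le_mul_of_nonneg_left ((GX.abs_ent_le _ _ _).trans hB) (abs_nonneg _)
  have h2 : ‖sc t j‖ ≤ 1 := by
    have h3 : |t| ≤ 1 := by rw [abs_of_nonneg ht.1]; exact ht.2
    fin_cases j <;> simp [sc, h3]
  calc _ ≤ 1 * ((|x 0| + |x 1|) * B) := mul_le_mul h2 h1 (norm_nonneg _) zero_le_one
    _ = _ := one_mul _

/-- the primitive in the normal directions -/
theorem exists_primS {α : V4 → L2} (hα : ContDiff ℝ ∞ α) :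
    ∃ β : V4 → V4, ContDiff ℝ ∞ β ∧
      (∀ x, (∀ t ∈ Icc (0 : ℝ) 1, ClAt α (St t x)) → α (St 0 x) 5 = 0 → d1 β x = α x) ∧
      (∀ x B, (∀ t ∈ Icc (0 : ℝ) 1, ‖α (St t x)‖ ≤ B) → ‖β x‖ ≤ (|x 0| + |x 1|) * B) ∧
      ∀ v : V4, v 0 = 0 → v 1 = 0 → (∀ x, α (x + v) = α x) → ∀ x, β (x + v) = β x := by
  set ν : Measure ℝ := volume.restrict (Icc (0 : ℝ) 1) with hν
  have hνK : ν (Icc (0 : ℝ) 1)ᶜ = 0 := by
    rw [hν, Measure.restrict_apply measurableSet_Icc.compl]
    simp only [compl_inter_self, measure_empty]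
  have hcd := contDiff_hq hα
  have hcomp : ∀ j : Fin 4, ContDiff ℝ ∞ (Function.uncurry fun t y => hq α t y j) := fun j =>
    (contDiff_pi.1 hcd) j
  have hint : ∀ {E : Type} [NormedAddCommGroup E] [NormedSpace ℝ E] {g : ℝ → E},
      Continuous g → Integrable g ν := by
    intro E _ _ g hg
    exact hg.continuousOn.integrableOn_compact isCompact_Icc
  refine ⟨fun x => ∫ t, hq α t x ∂ν, contDiff_integral_param ν isCompact_Icc hνK hcd,
    fun x hcl h5 => ?_, fun x B hB => ?_, fun v h0 h1 hv x => ?_⟩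
  rotate_left
  · have h1 : ∀ᵐ t ∂ν, ‖hq α t x‖ ≤ (|x 0| + |x 1|) * B := by
      rw [hν, ae_restrict_iff' measurableSet_Icc]
      exact Filter.Eventually.of_forall fun t ht => norm_hq_le ht (hB t ht)
    have h2 := norm_integral_le_of_norm_le_const h1
    have h3 : ν.real univ = 1 := by
      rw [hν, Measure.real, Measure.restrict_apply_univ, Real.volume_Icc]; simp
    rw [h3, mul_one] at h2
    exact h2
  · have : ∀ t, hq α t (x + v) = hq α t x := by
      intro t
      funext j
      simp only [hq, St_add t x v h0 h1, hv]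
      congr 1
      simp [Fin.sum_univ_four, nz, h0, h1]
    simp only [this]
  have hpd : ∀ i j : Fin 4, pd i (fun y => (∫ t, hq α t y ∂ν) j) x =
      ∫ t, pd i (fun y => hq α t y j) x ∂ν := by
    intro i j
    have h1 : (fun y => (∫ t, hq α t y ∂ν) j) = fun y => ∫ t, hq α t y j ∂ν := by
      funext w
      have h2 := (ContinuousLinearMap.proj (R := ℝ) (φ := fun _ : Fin 4 => ℝ) j).integral_comp_comm
        (hint (g := fun t => hq α t w)
          (hcd.continuous.comp (continuous_id.prodMk continuous_const)))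
      exact h2.symm
    have h3 := hasFDerivAt_integral_param ν isCompact_Icc hνK
      (f := fun t y => hq α t y j) (hcomp j) x
    unfold pd
    rw [h1, h3.fderiv]
    have h4 : Continuous fun t => fderiv ℝ (fun y => hq α t y j) x :=
      (contDiff_fderiv_snd (hcomp j)).continuous.comp (continuous_id.prodMk continuous_const)
    exact (ContinuousLinearMap.integral_apply (hint h4) _)
  have hpc : ∀ i j : Fin 4, Continuous fun t => pd i (fun y => hq α t y j) x := by
    intro i j
    have h4 : Continuous fun t => fderiv ℝ (fun y => hq α t y j) x :=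
      (contDiff_fderiv_snd (hcomp j)).continuous.comp (continuous_id.prodMk continuous_const)
    exact h4.clm_apply continuous_const
  rw [← ofEnt_ent (d1 (fun y => ∫ t, hq α t y ∂ν) x), ← ofEnt_ent (α x)]
  apply ofEnt_congr
  intro i j
  rw [GX.ent_d1, hpd, hpd, ← integral_sub (hint (hpc i j)) (hint (hpc j i))]
  set G : ℝ → ℝ := fun t => (sc t i * sc t j) * ent (α (St t x)) i j with hG
  have hGd : ∀ t ∈ Icc (0 : ℝ) 1, HasDerivAt G
      (pd i (fun y => hq α t y j) x - pd j (fun y => hq α t y i) x) t := by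
    intro t ht
    have hd : DifferentiableAt ℝ (fun y : V4 => ent (α y) i j) (St t x) :=
      ((contDiff_ent i j).comp hα).differentiable (by simp) _
    have h5 : HasDerivAt (fun s : ℝ => St s x) (fun k => nz k * x k) t :=
      hasDerivAt_pi.2 fun k => (hasDerivAt_sc t k).mul_const (x k)
    have h6 := HasFDerivAt.comp_hasDerivAt (l := fun y : V4 => ent (α y) i j)
      (f := fun s : ℝ => St s x) t hd.hasFDerivAt h5
    have h7 : ∀ w : V4, fderiv ℝ (fun y : V4 => ent (α y) i j) (St t x) w =
        ∑ k, w k * pd k (fun y => ent (α y) i j) (St t x) := by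
      intro w
      have hx : w = ∑ k, w k • (Pi.single k (1 : ℝ) : V4) := by
        funext l
        simp [Finset.sum_apply, Pi.single_apply]
      conv_lhs => rw [hx, map_sum]
      refine Finset.sum_congr rfl fun k _ => ?_
      rw [map_smul, smul_eq_mul]
      rfl
    have h9 := ((hasDerivAt_sc t i).mul (hasDerivAt_sc t j)).mul h6
    refine h9.congr_deriv ?_
    rw [pd_hq hα, pd_hq hα, h7]
    have hsw : ∀ k l : Fin 4, ∀ m : Fin 4, pd m (fun y => ent (α y) k l) (St t x) =
        - pd m (fun y => ent (α y) l k) (St t x) := by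
      intro k l m
      have e1 : (fun y => ent (α y) k l) = fun y => (-1 : ℝ) * ent (α y) l k := by
        funext y; rw [ent_swap]; ring
      have hdd : DifferentiableAt ℝ (fun y => ent (α y) l k) (St t x) :=
        ((contDiff_ent l k).comp hα).differentiable (by simp) _
      rw [e1, pd_const_mul hdd]
      ring
    have hk : ∀ k : Fin 4, pd k (fun y => ent (α y) i j) (St t x) =
        pd i (fun y => ent (α y) k j) (St t x) - pd j (fun y => ent (α y) k i) (St t x) := by
      intro k
      have h10 := hcl t ht i j k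
      have h11 := hsw j k i
      linarith
    have e2 : ent (α (St t x)) j i = - ent (α (St t x)) i j := ent_swap _ _ _
    rw [e2]
    simp only [hk]
    simp only [Fin.sum_univ_four, Pi.mul_apply, Function.comp_apply]
    ring
  have h12 : ∫ t in (0 : ℝ)..1, (pd i (fun y => hq α t y j) x - pd j (fun y => hq α t y i) x) =
      G 1 - G 0 :=
    intervalIntegral.integral_eq_sub_of_hasDerivAt
      (fun t ht => hGd t (by rwa [uIcc_of_le zero_le_one] at ht))
      (((hpc i j).sub (hpc j i)).intervalIntegrable 0 1)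
  rw [hν, integral_Icc_eq_integral_Ioc, ← intervalIntegral.integral_of_le zero_le_one, h12, hG]
  have h13 : (sc 0 i * sc 0 j) * ent (α (St 0 x)) i j = 0 := by
    fin_cases i <;> fin_cases j <;> simp [sc, ent, h5]
  have h14 : sc 1 i * sc 1 j = 1 := by
    fin_cases i <;> fin_cases j <;> simp [sc]
  simp only [h13, h14, St_one]
  ring

end Vale.Agent.P247Y.TrP
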