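import Vale.Agent.P247Y.Transpl1

/-!
# P247, block Y, row TRANSPL: logarithmic cut-off, periodisation, algebra
-/

set_option linter.all false

open scoped BigOperators ContDiff Topology
open Set Filter Metric

noncomputable section

namespace Vale.Agent.P247Y.TrP

open Vale.Agent.P204 Vale.Agent.P204.T4 Vale.Agent.P204.GX Vale.Agent.P247.SCY
open Vale.Agent.P247L (PerZ def3_open)

theorem exists_deriv_bound : ∃ M > 0, ∀ s, |deriv Real.smoothTransition s| ≤ M := by
  have hc : Continuous (deriv Real.smoothTransition) :=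
    (Real.smoothTransition.contDiff (n := 1)).continuous_deriv (by simp)
  obtain ⟨M, hM⟩ := (isCompact_Icc (a := (0 : ℝ)) (b := 1)).exists_bound_of_continuousOn
    hc.continuousOn
  have h0 : 0 ≤ M := (norm_nonneg _).trans (hM 0 (by simp))
  refine ⟨M + 1, by linarith, fun s => ?_⟩
  rcases lt_or_ge s 0 with h | h
  · have : Real.smoothTransition =ᶠ[𝓝 s] fun _ => 0 := by
      filter_upwards [Iio_mem_nhds h] with t ht using Real.smoothTransition.zero_of_nonpos (le_of_lt ht)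
    rw [this.deriv_eq]
    simp; linarith
  rcases lt_or_ge 1 s with h' | h'
  · have : Real.smoothTransition =ᶠ[𝓝 s] fun _ => 1 := by
      filter_upwards [Ioi_mem_nhds h'] with t ht using Real.smoothTransition.one_of_one_le (le_of_lt ht)
    rw [this.deriv_eq]
    simp; linarith
  · exact (hM s ⟨h, h'⟩).trans (by linarith)

/-- the logarithmic cut-off -/
theorem exists_logcut {a δ : ℝ} (ha : 0 < a) (hδ : 0 < δ) : ∃ (χ : V4 → ℝ) (ρ : ℝ), 0 < ρ ∧
    ContDiff ℝ ∞ χ ∧ (∀ x, χ x ∈ Icc (0 : ℝ) 1) ∧ (∀ x, |x 0| < ρ → |x 1| < ρ → χ x = 1) ∧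
    (∀ x, a ≤ |x 0| ∨ a ≤ |x 1| → χ x = 0) ∧
    (∀ x v : V4, v 0 = 0 → v 1 = 0 → χ (x + v) = χ x) ∧
    ∀ x, (|x 0| + |x 1|) * ‖grad χ x‖ ≤ δ := by
  obtain ⟨M, hM0, hM⟩ := exists_deriv_bound
  set c := δ / (4 * M) with hc
  have hc0 : 0 < c := by positivity
  set b := a ^ 2 * Real.exp (-(1 / c)) / 2 with hb
  have hb0 : 0 < b := by positivity
  set q : V4 → ℝ := fun x => x 0 * x 0 + x 1 * x 1 + b with hq
  have hq0 : ∀ x, 0 < q x := fun x => by
    have := mul_self_nonneg (x 0)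
    have := mul_self_nonneg (x 1)
    simp only [hq]
    linarith
  have sq : ContDiff ℝ ∞ q := by simp only [hq]; fun_prop
  set g : V4 → ℝ := fun x => c * (Real.log (a ^ 2) - Real.log (q x)) with hg
  have sl : ContDiff ℝ ∞ fun x => Real.log (q x) := sq.log fun x => (hq0 x).ne'
  have sg : ContDiff ℝ ∞ g := contDiff_const.mul (contDiff_const.sub sl)
  refine ⟨fun x => Real.smoothTransition (g x), Real.sqrt (b / 2), by positivity,
    Real.smoothTransition.contDiff.comp sg,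
    fun x => ⟨Real.smoothTransition.nonneg _, Real.smoothTransition.le_one _⟩,
    fun x h0 h1 => ?_, fun x h => ?_, fun x v h0 h1 => ?_, fun x => ?_⟩
  · refine Real.smoothTransition.one_of_one_le ?_
    have e0 : x 0 * x 0 < b / 2 := by
      have := (Real.lt_sqrt (abs_nonneg _)).1 h0
      rwa [sq_abs, pow_two] at this
    have e1 : x 1 * x 1 < b / 2 := by
      have := (Real.lt_sqrt (abs_nonneg _)).1 h1
      rwa [sq_abs, pow_two] at this
    have e2 : q x ≤ a ^ 2 * Real.exp (-(1 / c)) := by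
      simp only [hq]
      linarith
    have e3 := Real.log_le_log (hq0 x) e2
    rw [Real.log_mul (by positivity) (by positivity), Real.log_exp] at e3
    have e4 : 1 / c ≤ Real.log (a ^ 2) - Real.log (q x) := by linarith
    calc (1 : ℝ) = c * (1 / c) := by field_simp
      _ ≤ _ := mul_le_mul_of_nonneg_left e4 hc0.le
  · refine Real.smoothTransition.zero_of_nonpos ?_
    have e2 : a ^ 2 ≤ q x := by
      have := mul_self_nonneg (x 0)
      have := mul_self_nonneg (x 1)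
      simp only [hq]
      rcases h with h | h
      · have := pow_le_pow_left₀ ha.le h 2
        rw [sq_abs] at this
        nlinarith
      · have := pow_le_pow_left₀ ha.le h 2
        rw [sq_abs] at this
        nlinarith
    have e3 := Real.log_le_log (by positivity) e2
    exact mul_nonpos_of_nonneg_of_nonpos hc0.le (by linarith)
  · simp [hg, hq, h0, h1]
  · have hc' : ∀ k : Fin 4, DifferentiableAt ℝ (fun y : V4 => y k) x := fun k => by fun_prop
    have dq : ∀ i, pd i q x = 2 * (nz i * x i) := by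
      intro i
      simp only [hq]
      rw [GX.pd_add (by fun_prop) (by fun_prop), GX.pd_add (by fun_prop) (by fun_prop),
        GX.pd_mul (hc' 0) (hc' 0), GX.pd_mul (hc' 1) (hc' 1), GX.pd_const, pd_co, pd_co]
      fin_cases i <;> simp [nz] <;> ring
    have dg : ∀ i, pd i g x = -(c * ((q x)⁻¹ * (2 * (nz i * x i)))) := by
      intro i
      simp only [hg]
      rw [GX.pd_const_mul ((contDiff_const.sub sl).differentiable (by simp) x),
        GX.pd_sub (by fun_prop) (sl.differentiable (by simp) x), GX.pd_const,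
        EMF.pd_comp (h := Real.log) (Real.differentiableAt_log (hq0 x).ne')
          (sq.differentiable (by simp) x), Real.deriv_log, dq]
      ring
    have key : ‖grad (fun x => Real.smoothTransition (g x)) x‖ ≤
        M * (c * ((q x)⁻¹ * (2 * (|x 0| + |x 1|)))) := by
      have := hq0 x
      rw [pi_norm_le_iff_of_nonneg (by positivity)]
      intro i
      show ‖pd i (fun x => Real.smoothTransition (g x)) x‖ ≤ _
      rw [EMF.pd_comp (h := Real.smoothTransition)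
        ((Real.smoothTransition.contDiff (n := 1)).differentiable (by simp) _)
        (sg.differentiable (by simp) x), dg, norm_mul, norm_neg]
      refine mul_le_mul (hM _) ?_ (norm_nonneg _) hM0.le
      have e1 : |nz i * x i| ≤ |x 0| + |x 1| := by
        have := abs_nonneg (x 0)
        have := abs_nonneg (x 1)
        fin_cases i <;> simp [nz] <;> linarith
      rw [Real.norm_eq_abs, abs_mul, abs_mul, abs_mul, abs_of_pos hc0,
        abs_of_pos (inv_pos.2 this), abs_two]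
      gcongr
    refine (mul_le_mul_of_nonneg_left key (by positivity)).trans ?_
    have e2 : (|x 0| + |x 1|) * (|x 0| + |x 1|) ≤ 2 * q x := by
      simp only [hq]
      have := abs_mul_abs_self (x 0)
      have := abs_mul_abs_self (x 1)
      nlinarith [mul_self_nonneg (|x 0| - |x 1|)]
    have e3 : (q x)⁻¹ * ((|x 0| + |x 1|) * (|x 0| + |x 1|)) ≤ 2 := by
      rw [inv_mul_le_iff₀ (hq0 x)]
      linarith
    calc _ = (2 * M * c) * ((q x)⁻¹ * ((|x 0| + |x 1|) * (|x 0| + |x 1|))) := by ring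
      _ ≤ (2 * M * c) * 2 := mul_le_mul_of_nonneg_left e3 (by positivity)
      _ = δ := by rw [hc]; field_simp; ring

/-! ### periodisation in the normal directions -/

/-- the nearest lattice point in the normal directions -/
def rd2 (y : V4) : V4 := ![(round (y 0) : ℝ), (round (y 1) : ℝ), 0, 0]

/-- periodisation -/
def pz2 (γ : V4 → V4) (y : V4) : V4 := γ (y - rd2 y)

theorem perZ_pz2 {γ : V4 → V4}
    (hp : ∀ (m n : ℤ) x, γ (x + ![0, 0, (m : ℝ), (n : ℝ)]) = γ x) : PerZ (pz2 γ) := by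
  intro n x
  unfold pz2
  rw [← hp (n 2) (n 3) (x - rd2 x)]
  congr 1
  funext i
  fin_cases i <;> simp [rd2, round_add_intCast] <;> rfl

theorem pz2_ev {γ : V4 → V4} (h : ∀ y : V4, 3 / 8 ≤ |y 0| ∨ 3 / 8 ≤ |y 1| → γ y = 0) (y0 : V4) :
    pz2 γ =ᶠ[𝓝 y0] fun y => γ (y - rd2 y0) := by
  filter_upwards [ball_mem_nhds y0 (by norm_num : (0 : ℝ) < 1 / 16)] with y hy
  have hy' : ∀ i, |y i - y0 i| < 1 / 16 := fun i =>
    (norm_le_pi_norm (y - y0) i).trans_lt (mem_ball_iff_norm.1 hy)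
  have k1 : ∀ i, |y0 i - round (y0 i)| < 7 / 16 → round (y i) = round (y0 i) := by
    intro i hi
    have h1 := abs_lt.1 (hy' i)
    have h2 := abs_lt.1 hi
    rw [round_eq (y i), Int.floor_eq_iff]
    constructor <;> linarith [h1.1, h1.2, h2.1, h2.2]
  have k2 : ∀ i, ¬ |y0 i - round (y0 i)| < 7 / 16 → ∀ n : ℤ, 3 / 8 ≤ |y i - n| := by
    intro i hi n
    have h1 := round_le (y0 i) n
    have h2 : |y0 i - n| ≤ |y i - y0 i| + |y i - n| := by
      have := abs_sub (y i - n) (y i - y0 i)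
      rw [show y i - n - (y i - y0 i) = y0 i - n by ring] at this
      linarith
    linarith [hy' i, not_lt.1 hi]
  unfold pz2
  by_cases c0 : |y0 0 - round (y0 0)| < 7 / 16
  · by_cases c1 : |y0 1 - round (y0 1)| < 7 / 16
    · simp only [rd2, k1 0 c0, k1 1 c1]
    · rw [h _ (Or.inr (k2 1 c1 _)), h _ (Or.inr (k2 1 c1 _))]
  · rw [h _ (Or.inl (k2 0 c0 _)), h _ (Or.inl (k2 0 c0 _))]

theorem pz2_smooth {γ : V4 → V4} (hs : ContDiff ℝ ∞ γ)
    (h : ∀ y : V4, 3 / 8 ≤ |y 0| ∨ 3 / 8 ≤ |y 1| → γ y = 0) :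
    ContDiff ℝ ∞ (pz2 γ) := contDiff_iff_contDiffAt.2 fun y0 =>
  ((hs.comp (contDiff_id.sub contDiff_const)).contDiffAt).congr_of_eventuallyEq (pz2_ev h y0)

theorem d1_pz2 {γ : V4 → V4} (h : ∀ y : V4, 3 / 8 ≤ |y 0| ∨ 3 / 8 ≤ |y 1| → γ y = 0) (y : V4) :
    d1 (pz2 γ) y = d1 γ (y - rd2 y) := by
  rw [GX.d1_congr (pz2_ev h y)]
  have h1 : ∀ i j, pd i (fun z => γ (z - rd2 y) j) y = pd i (fun z => γ z j) (y - rd2 y) := by
    intro i j
    unfold pd
    rw [fderiv_comp_sub (𝕜 := ℝ) (f := fun z : V4 => γ z j) (x := y) (rd2 y)]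
  simp only [d1, h1]

theorem rd2_zero {y : V4} (h0 : |y 0| < 1 / 4) (h1 : |y 1| < 1 / 4) : rd2 y = 0 := by
  have k : ∀ s : ℝ, |s| < 1 / 4 → round s = 0 := by
    intro s hs
    have h1 := abs_lt.1 hs
    rw [round_eq_zero_iff]
    constructor <;> linarith [h1.1, h1.2]
  funext i
  fin_cases i <;> simp [rd2, k _ h0, k _ h1]

/-! ### algebra -/

/-- the third form -/
def Ck (K : ℝ) : L2 := ![K, 0, 0, 0, 0, 1]

/-- normalised forms -/
def NrmA (A : L2) : Prop := A 1 = 0 ∧ A 2 = 1 ∧ A 3 = 1 ∧ A 4 = 0 ∧ A 5 = 0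

/-- the discriminant -/
def Δ (B : L2) : ℝ := -4 * B 1 * B 4 - (B 2 - B 3) ^ 2

theorem Δ_pos {A B : L2} (hA : NrmA A) (hB : B 5 = 0)
    (h : ∀ a b : ℝ, (a ≠ 0 ∨ b ≠ 0) → Q (a • A + b • B) (a • A + b • B) ≠ 0) : 0 < Δ B := by
  by_contra hn
  have h0 : 0 ≤ -Δ B := by linarith [not_lt.1 hn]
  obtain ⟨a1, a2, a3, a4, a5⟩ := hA
  refine h (Real.sqrt (-Δ B) / 2 - (B 2 + B 3) / 2) 1 (Or.inr one_ne_zero) ?_
  have h1 := Real.mul_self_sqrt h0
  simp only [Q, Pi.add_apply, Pi.smul_apply, smul_eq_mul, a1, a2, a3, a4, a5, hB]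
  unfold Δ at h1 ⊢
  linear_combination (1 / 2 : ℝ) * h1

theorem Δ_convex {B B' : L2} (h : 0 < Δ B) (h' : 0 < Δ B') (hs : 0 < B 1 * B' 1) {t : ℝ}
    (ht : t ∈ Icc (0 : ℝ) 1) : 0 < Δ ((1 - t) • B + t • B') := by
  unfold Δ at *
  simp only [Pi.add_apply, Pi.smul_apply, smul_eq_mul]
  set u := B 1
  set u' := B' 1
  set v := B 4
  set v' := B' 4
  have e : (1 - t) * B 2 + t * B' 2 - ((1 - t) * B 3 + t * B' 3) =
      (1 - t) * (B 2 - B 3) + t * (B' 2 - B' 3) := by ring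
  rw [e]
  set w := B 2 - B 3
  set w' := B' 2 - B' 3
  have p1 : 0 < -(u * v) := by nlinarith [sq_nonneg w]
  have p2 : 0 < -(u' * v') := by nlinarith [sq_nonneg w']
  have p3 : 0 < -(u * v') := by
    have h1 : 0 < (u * u') * -(u' * v') := mul_pos hs p2
    have h2 : (u * u') * -(u' * v') = -(u * v') * (u' * u') := by ring
    rw [h2] at h1
    exact (pos_iff_pos_of_mul_pos h1).2
      (lt_of_le_of_ne (mul_self_nonneg u') fun h0 => by rw [← h0] at h1; simp at h1)
  have p4 : 0 < -(u' * v) := by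
    have h1 : 0 < (u * u') * -(u * v) := mul_pos hs p1
    have h2 : (u * u') * -(u * v) = -(u' * v) * (u * u) := by ring
    rw [h2] at h1
    exact (pos_iff_pos_of_mul_pos h1).2
      (lt_of_le_of_ne (mul_self_nonneg u) fun h0 => by rw [← h0] at h1; simp at h1)
  have p5 : w * w' ≤ 2 * (-(u * v') + -(u' * v)) := by
    refine (le_abs_self _).trans (abs_le_of_sq_le_sq' ?_ (by linarith)).2
    have h1 : w ^ 2 * w' ^ 2 ≤ (-4 * u * v) * (-4 * u' * v') :=
      mul_le_mul (by linarith) (by linarith) (sq_nonneg _) (by linarith)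
    rw [sq_abs]
    nlinarith [sq_nonneg (u * v' - u' * v)]
  have q1 : 0 ≤ t * (1 - t) * (4 * (-(u * v') + -(u' * v)) - 2 * (w * w')) :=
    mul_nonneg (mul_nonneg ht.1 (by linarith [ht.2])) (by linarith)
  have q2 : 0 < (1 - t) ^ 2 * (-4 * u * v - w ^ 2) + t ^ 2 * (-4 * u' * v' - w' ^ 2) := by
    rcases eq_or_ne t 0 with rfl | h0
    · simpa using h
    · have := mul_pos (pow_pos (lt_of_le_of_ne ht.1 h0.symm) 2) h'
      have := mul_nonneg (sq_nonneg (1 - t)) h.le
      linarith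
  nlinarith

theorem exists_K {A B : L2} (hA : NrmA A) (hB : B 5 = 0) (h : 0 < Δ B) :
    ∃ K, Def3 1 (Ck K) A B := by
  obtain ⟨a1, a2, a3, a4, a5⟩ := hA
  set β := B 0 - A 0 * (B 2 + B 3) / 2 with hβ
  refine ⟨A 0 ^ 2 / 4 + β ^ 2 / Δ B + 1, fun c a b hc => ?_⟩
  have e : Q (c • Ck (A 0 ^ 2 / 4 + β ^ 2 / Δ B + 1) + a • A + b • B)
      (c • Ck (A 0 ^ 2 / 4 + β ^ 2 / Δ B + 1) + a • A + b • B) =
      2 * ((a + b * (B 2 + B 3) / 2 + c * A 0 / 2) ^ 2 + Δ B / 4 * (b + 2 * c * β / Δ B) ^ 2 +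
        c ^ 2) := by
    have h1 : Δ B = -4 * B 1 * B 4 - (B 2 - B 3) ^ 2 := rfl
    simp only [Q, Pi.add_apply, Pi.smul_apply, smul_eq_mul, a1, a2, a3, a4, a5, hB, Ck,
      Matrix.cons_val_zero, Matrix.cons_val_one, Matrix.cons_val]
    have h2 := h.ne'
    field_simp
    rw [hβ]
    linear_combination (-4 * b ^ 2 * Δ B) * h1
  rw [e, one_mul]
  have s1 := sq_nonneg (a + b * (B 2 + B 3) / 2 + c * A 0 / 2)
  have s2 : 0 ≤ Δ B / 4 * (b + 2 * c * β / Δ B) ^ 2 := by positivity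
  have s3 := sq_nonneg c
  by_cases c0 : c = 0
  · by_cases b0 : b = 0
    · have a0 : a ≠ 0 := by tauto
      subst c0 b0
      have := sq_pos_of_ne_zero a0
      simp
      exact this
    · subst c0
      have : 0 < Δ B / 4 * (b + 2 * 0 * β / Δ B) ^ 2 := by
        have := sq_pos_of_ne_zero b0
        simp only [mul_zero, zero_mul, zero_div, add_zero]
        positivity
      linarith
  · have := sq_pos_of_ne_zero c0
    linarith

theorem def3_mono {A B : L2} (hA : A 5 = 0) (hB : B 5 = 0) {K K' : ℝ} (hK : K ≤ K')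
    (h : Def3 1 (Ck K) A B) : Def3 1 (Ck K') A B := by
  intro c a b hc
  have h1 := h c a b hc
  simp only [Q, Pi.add_apply, Pi.smul_apply, smul_eq_mul, hA, hB, Ck,
      Matrix.cons_val_zero, Matrix.cons_val_one, Matrix.cons_val] at h1 ⊢
  nlinarith [mul_nonneg (sq_nonneg c) (sub_nonneg.2 hK)]

theorem isOpen_def3 (C : L2) : IsOpen {q : L2 × L2 | Def3 1 C q.1 q.2} := by
  rw [Metric.isOpen_iff]
  intro q hq
  obtain ⟨η, hη, h⟩ := def3_open (T := ![q.1, q.2, C]) hq
  refine ⟨η, hη, fun q' hq' => h 1 one_pos ![q'.1, q'.2, C] fun j => ?_⟩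
  rw [mem_ball_iff_norm] at hq'
  rw [one_smul, one_mul]
  fin_cases j
  · exact (norm_fst_le (q' - q)).trans hq'.le
  · exact (norm_snd_le (q' - q)).trans hq'.le
  · simpa using hη.le

/-- a uniform third form -/
theorem exists_unif {S : Set (L2 × L2)} (hS : IsCompact S)
    (h : ∀ q ∈ S, NrmA q.1 ∧ q.2 5 = 0 ∧ 0 < Δ q.2) : ∃ K : ℝ, ∃ δ > 0, ∀ q ∈ S, ∀ A B : L2,
      ‖A - q.1‖ ≤ δ → ‖B - q.2‖ ≤ δ → Def3 1 (Ck K) A B := by
  obtain ⟨t, ht⟩ := hS.elim_finite_subcover (fun K : ℝ => {q : L2 × L2 | Def3 1 (Ck K) q.1 q.2})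
    (fun K => isOpen_def3 _) fun q hq =>
      mem_iUnion.2 (exists_K (h q hq).1 (h q hq).2.1 (h q hq).2.2)
  obtain ⟨K, hK⟩ := t.bddAbove
  have h1 : S ⊆ {q : L2 × L2 | Def3 1 (Ck K) q.1 q.2} := by
    intro q hq
    obtain ⟨K', hK', h2⟩ := mem_iUnion₂.1 (ht hq)
    exact def3_mono (h q hq).1.2.2.2.2 (h q hq).2.1 (hK hK') h2
  obtain ⟨δ, hδ, h2⟩ := hS.exists_cthickening_subset_open (isOpen_def3 _) h1
  refine ⟨K, δ, hδ, fun q hq A B hA hB => h2 (a := (A, B)) ?_⟩
  refine mem_cthickening_of_dist_le _ q _ _ hq ?_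
  rw [dist_eq_norm]
  exact max_le hA hB

end Vale.Agent.P247Y.TrP
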