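import Vale.Agent.P247Y.Cv
import Vale.Agent.P247Y.LocInv

/-!
# P247, block Y, row TUBE, part 1: tubes with a prescribed normal frame
-/

set_option linter.all false

open scoped Manifold ContDiff Topology
open Set MeasureTheory Filter Metric Function

noncomputable section

namespace Vale.Agent.P247Y.Tub

open Vale.Agent.P247.SCY
open Vale.Agent.P247.SCY.HS
open Vale.Agent.P247X
open Vale.Agent.P247.H74 (R4 e P2 lin)

/-- the projection to the torus coordinates -/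
def prj : R4 →L[ℝ] P2 :=
  (ContinuousLinearMap.proj (R := ℝ) (φ := fun _ : Fin 4 => ℝ) 2).prod
    (ContinuousLinearMap.proj (R := ℝ) (φ := fun _ : Fin 4 => ℝ) 3)

theorem prj_apply (x : R4) : prj x = (x 2, x 3) := rfl

theorem prj_lin (p : P2) : prj (lin p) = p := rfl

theorem tr2_0 (m n : ℤ) (x : R4) : tr2 m n x 0 = x 0 := by simp [tr2, e]
theorem tr2_1 (m n : ℤ) (x : R4) : tr2 m n x 1 = x 1 := by simp [tr2, e]
theorem tr2_2 (m n : ℤ) (x : R4) : tr2 m n x 2 = x 2 + m := by simp [tr2, e]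
theorem tr2_3 (m n : ℤ) (x : R4) : tr2 m n x 3 = x 3 + n := by simp [tr2, e]

theorem r4_ext {x y : R4} (h0 : x 0 = y 0) (h1 : x 1 = y 1) (h2 : x 2 = y 2) (h3 : x 3 = y 3) :
    x = y := by
  funext i
  fin_cases i
  exacts [h0, h1, h2, h3]

theorem tr2_tr2 (m n m' n' : ℤ) (x : R4) : tr2 m n (tr2 m' n' x) = tr2 (m + m') (n + n') x := by
  apply r4_ext <;> simp only [tr2_0, tr2_1, tr2_2, tr2_3] <;> push_cast <;> ring

theorem tr2_zero (x : R4) : tr2 0 0 x = x := by simp [tr2]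

theorem tr2_lin (m n : ℤ) (p : P2) : tr2 m n (lin p) = lin (p.1 + m, p.2 + n) := by
  apply r4_ext <;> simp only [tr2_0, tr2_1, tr2_2, tr2_3] <;> rfl

theorem prj_tr2 (m n : ℤ) (x : R4) : prj (tr2 m n x) = ((prj x).1 + m, (prj x).2 + n) := by
  simp only [prj_apply, tr2_2, tr2_3]

theorem cont_tr2 (m n : ℤ) : Continuous (tr2 m n) := by
  unfold tr2; fun_prop

/-- the linear embedding as a continuous linear map -/
def linL : P2 →L[ℝ] R4 :=
  (ContinuousLinearMap.fst ℝ ℝ ℝ).smulRight (e 2) + (ContinuousLinearMap.snd ℝ ℝ ℝ).smulRight (e 3)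

theorem linL_apply (p : P2) : linL p = lin p := by
  apply r4_ext <;> simp [linL, e, lin]

theorem isOpen_Tb (r : ℝ) : IsOpen (Tb r) := by
  have h : ∀ i : Fin 4, IsOpen {x : R4 | |x i| < r} := fun i =>
    isOpen_lt (continuous_apply i).abs continuous_const
  exact (h 0).inter (h 1)

/-- the tube lemma for pairs -/
theorem tube2 {W : Set (R4 × R4)} (h : ∀ p q, W ∈ 𝓝 (lin p, lin q)) :
    ∃ r > 0, ∀ x ∈ Tb r, ∀ y ∈ Tb r, ∃ m n m' n', (tr2 m n x, tr2 m' n' y) ∈ W := by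
  have hK : IsCompact (linL '' (Icc (0 : ℝ) 1 ×ˢ Icc (0 : ℝ) 1)) :=
    (isCompact_Icc.prod isCompact_Icc).image linL.continuous
  obtain ⟨δ, hδ, hs⟩ := (hK.prod hK).exists_thickening_subset_open (isOpen_interior (s := W)) (by
    rintro ⟨_, _⟩ ⟨⟨p, -, rfl⟩, ⟨q, -, rfl⟩⟩
    rw [linL_apply, linL_apply]
    exact mem_interior_iff_mem_nhds.2 (h p q))
  have key : ∀ x ∈ Tb δ, ∃ m n, ∃ k ∈ linL '' (Icc (0 : ℝ) 1 ×ˢ Icc (0 : ℝ) 1),
      dist (tr2 m n x) k < δ := by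
    intro x hx
    refine ⟨-⌊x 2⌋, -⌊x 3⌋, _, ⟨(Int.fract (x 2), Int.fract (x 3)),
      ⟨⟨Int.fract_nonneg _, (Int.fract_lt_one _).le⟩,
        ⟨Int.fract_nonneg _, (Int.fract_lt_one _).le⟩⟩, rfl⟩, ?_⟩
    rw [linL_apply, dist_pi_lt_iff hδ]
    intro i
    fin_cases i
    · simpa [tr2_0, lin, Real.dist_eq] using hx.1
    · simpa [tr2_1, lin, Real.dist_eq] using hx.2
    · simpa [tr2_2, lin, Real.dist_eq, Int.fract, sub_eq_add_neg] using hδ
    · simpa [tr2_3, lin, Real.dist_eq, Int.fract, sub_eq_add_neg] using hδ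
  refine ⟨δ, hδ, fun x hx y hy => ?_⟩
  obtain ⟨m, n, k, hk, h1⟩ := key x hx
  obtain ⟨m', n', k', hk', h2⟩ := key y hy
  refine ⟨m, n, m', n', interior_subset (hs (mem_thickening_iff.2 ⟨(k, k'), ⟨hk, hk'⟩, ?_⟩))⟩
  rw [Prod.dist_eq]
  exact max_lt h1 h2

variable {Z : Type} [TopologicalSpace Z] [ChartedSpace HS.E4 Z] [IsManifold (𝓡 4) ∞ Z]

/-- the differential with values in the model space -/
def D4 (Φ : R4 → Z) (x : R4) : R4 →L[ℝ] HS.E4 := mfderiv 𝓘(ℝ, R4) (𝓡 4) Φ x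

/-- the differential of the inverse of a chart -/
def Dc (c : OpenPartialHomeomorph Z HS.E4) (y : HS.E4) : HS.E4 →L[ℝ] HS.E4 :=
  mfderiv (𝓡 4) (𝓡 4) c.symm y

/-- germs of periodic extensions of `φ` with normal derivatives `N` -/
structure Inv (φ : P2 → Z) (N : Fin 2 → P2 → HS.E4) (Φ : R4 → Z) : Prop where
  sm : ∀ p, ∀ᶠ x in 𝓝 (lin p), ContMDiffAt 𝓘(ℝ, R4) (𝓡 4) ∞ Φ x
  per : ∀ m n x, Φ (tr2 m n x) = Φ x
  zero : ∀ p, Φ (lin p) = φ p
  d0 : ∀ p, D4 Φ (lin p) (e 0) = N 0 p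
  d1 : ∀ p, D4 Φ (lin p) (e 1) = N 1 p

theorem inv_zero {φ : P2 → Z} (h : ContMDiff 𝓘(ℝ, P2) (𝓡 4) ∞ φ)
    (hp : ∀ (m n : ℤ) (p : P2), φ (p.1 + m, p.2 + n) = φ p) : Inv φ 0 (fun x => φ (prj x)) := by
  have hd : ∀ x v, D4 (fun x => φ (prj x)) x v =
      (mfderiv 𝓘(ℝ, P2) (𝓡 4) φ (prj x) (prj v) : HS.E4) := by
    intro x v
    have h1 := mfderiv_comp x (h.mdifferentiableAt (by simp) (x := prj x))
      (prj.mdifferentiableAt (x := x))
    rw [prj.mfderiv_eq] at h1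
    exact congrArg (fun A : R4 →L[ℝ] HS.E4 => A v) h1
  refine ⟨fun p => Eventually.of_forall fun x => (h.comp prj.contMDiff) x, fun m n x => ?_,
    fun p => rfl, fun p => ?_, fun p => ?_⟩
  · rw [prj_tr2, hp]
  · rw [hd, show prj (e 0) = 0 by simp [prj_apply, e]]
    exact map_zero _
  · rw [hd, show prj (e 1) = 0 by simp [prj_apply, e]]
    exact map_zero _

/-- one chart translation -/
theorem Inv.step {φ : P2 → Z} (hφ : Continuous φ) {N : Fin 2 → P2 → HS.E4} {Φ : R4 → Z}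
    (h : Inv φ N Φ) (z : Z) (V : Fin 2 → P2 → HS.E4) {K : Set P2} (hK : IsClosed K)
    (hKs : K ⊆ φ ⁻¹' (chartAt HS.E4 z).source)
    (hV : ∀ a, ContDiffOn ℝ ∞ (V a) (φ ⁻¹' (chartAt HS.E4 z).source))
    (h0 : ∀ a, ∀ p ∉ K, V a p = 0) (hp : ∀ a (m n : ℤ) (p : P2), V a (p.1 + m, p.2 + n) = V a p) :
    ∃ Φ', Inv φ (fun a p => N a p + Dc (chartAt HS.E4 z) (chartAt HS.E4 z (φ p)) (V a p)) Φ' := by
  classical
  set c := chartAt HS.E4 z with hc
  let G : R4 → HS.E4 := fun x => c (Φ x) + x 0 • V 0 (prj x) + x 1 • V 1 (prj x)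
  let Φ' : R4 → Z := fun x => if Φ x ∈ c.source then c.symm (G x) else Φ x
  have hG0 : ∀ p, G (lin p) = c (φ p) := fun p => by
    simp [G, lin, h.zero p, show Φ ![0, 0, p.1, p.2] = φ p from h.zero p]
  have hO : IsOpen (φ ⁻¹' c.source) := c.open_source.preimage hφ
  have key : ∀ p, (∀ᶠ x in 𝓝 (lin p), ContMDiffAt 𝓘(ℝ, R4) (𝓡 4) ∞ Φ' x) ∧
      ∀ v, D4 Φ' (lin p) v = D4 Φ (lin p) v + Dc c (c (φ p)) (v 0 • V 0 p + v 1 • V 1 p) := by
    intro p
    have hΦc : ContinuousAt Φ (lin p) := (h.sm p).self_of_nhds.continuousAt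
    have hpc : Tendsto prj (𝓝 (lin p)) (𝓝 p) := prj.continuous.continuousAt (x := lin p)
    by_cases hz : φ p ∈ c.source
    · have e1 : ∀ᶠ x in 𝓝 (lin p), Φ x ∈ c.source :=
        hΦc.eventually (c.open_source.mem_nhds (by rw [h.zero]; exact hz))
      have e2 : ∀ᶠ x in 𝓝 (lin p), prj x ∈ φ ⁻¹' c.source := hpc.eventually (hO.mem_nhds hz)
      have hVa : ∀ a x, prj x ∈ φ ⁻¹' c.source → ContDiffAt ℝ ∞ (fun x => V a (prj x)) x :=
        fun a x hx => ((hV a).contDiffAt (hO.mem_nhds hx)).comp x prj.contDiff.contDiffAt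
      have hcΦ : ∀ x, ContMDiffAt 𝓘(ℝ, R4) (𝓡 4) ∞ Φ x → Φ x ∈ c.source →
          ContDiffAt ℝ ∞ (fun x => c (Φ x)) x := fun x h1 h2 =>
        contMDiffAt_iff_contDiffAt.1
          (((chart_sm z).contMDiffAt (c.open_source.mem_nhds h2)).comp x h1)
      have e3 : ∀ᶠ x in 𝓝 (lin p), ContDiffAt ℝ ∞ G x := by
        filter_upwards [h.sm p, e1, e2] with x h1 h2 h3
        exact ((hcΦ x h1 h2).add ((contDiffAt_apply ℝ ℝ 0 x).smul (hVa 0 x h3))).add
          ((contDiffAt_apply ℝ ℝ 1 x).smul (hVa 1 x h3))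
      have e4 : ∀ᶠ x in 𝓝 (lin p), G x ∈ c.target :=
        e3.self_of_nhds.continuousAt.eventually
          (c.open_target.mem_nhds (by rw [hG0]; exact c.map_source hz))
      have e5 : Φ' =ᶠ[𝓝 (lin p)] c.symm ∘ G := by
        filter_upwards [e1] with x hx
        simp only [Φ', if_pos hx, comp_apply]
      have hs : ∀ y ∈ c.target, ContMDiffAt (𝓡 4) (𝓡 4) ∞ c.symm y := fun y hy =>
        (chart_symm_sm z).contMDiffAt (c.open_target.mem_nhds hy)
      refine ⟨?_, fun v => ?_⟩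
      · filter_upwards [e3, e4, e5.eventually_nhds] with x h1 h2 h3
        exact ((hs _ h2).comp x h1.contMDiffAt).congr_of_eventuallyEq h3
      · have d1 := (hcΦ _ (h.sm p).self_of_nhds e1.self_of_nhds).differentiableAt (by simp)
        have d2 := fun a => (hVa a _ e2.self_of_nhds).differentiableAt (by simp)
        have d3 : ∀ i : Fin 4, HasFDerivAt (fun x : R4 => x i)
            (ContinuousLinearMap.proj (R := ℝ) (φ := fun _ : Fin 4 => ℝ) i) (lin p) :=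
          fun i => hasFDerivAt_apply i _
        have dG := (d1.hasFDerivAt.add ((d3 0).smul (d2 0).hasFDerivAt)).add
          ((d3 1).smul (d2 1).hasFDerivAt)
        have dG' : fderiv ℝ G (lin p) v =
            fderiv ℝ (fun x => c (Φ x)) (lin p) v + (v 0 • V 0 p + v 1 • V 1 p) := by
          have : fderiv ℝ G (lin p) = _ := dG.fderiv
          rw [this]
          simp [lin, prj_apply, add_assoc]
        have m1 := mfderiv_comp (I := 𝓘(ℝ, R4)) (lin p)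
          ((hs _ e4.self_of_nhds).mdifferentiableAt (by simp))
          (e3.self_of_nhds.contMDiffAt.mdifferentiableAt (by simp))
        have m2 : D4 Φ' (lin p) v = Dc c (G (lin p)) (fderiv ℝ G (lin p) v) := by
          unfold D4 Dc
          rw [e5.mfderiv_eq, m1, mfderiv_eq_fderiv]
          rfl
        have m3 := mfderiv_comp (I := 𝓘(ℝ, R4)) (lin p)
          (((chart_sm z).contMDiffAt (c.open_source.mem_nhds e1.self_of_nhds)).mdifferentiableAt
            (by simp)) ((h.sm p).self_of_nhds.mdifferentiableAt (by simp))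
        rw [mfderiv_eq_fderiv] at m3
        have m4 : fderiv ℝ (fun x => c (Φ x)) (lin p) v =
            mfderiv (𝓡 4) (𝓡 4) c (Φ (lin p)) (D4 Φ (lin p) v) :=
          congrArg (fun A : R4 →L[ℝ] HS.E4 => A v) m3
        have m5 := mfderiv_symm_apply c (chart_sm z) (chart_symm_sm z) e1.self_of_nhds
          (D4 Φ (lin p) v)
        rw [m2, dG', map_add, hG0, m4]
        congr 1
        rw [← h.zero p]
        exact m5
    · have hk : p ∉ K := fun hk => hz (hKs hk)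
      have e5 : Φ' =ᶠ[𝓝 (lin p)] Φ := by
        filter_upwards [hpc.eventually (hK.isOpen_compl.mem_nhds hk)] with x hx
        simp only [Φ', G, h0 _ _ hx, smul_zero, add_zero]
        split_ifs with h1
        · exact c.left_inv h1
        · rfl
      refine ⟨?_, fun v => ?_⟩
      · filter_upwards [h.sm p, e5.eventually_nhds] with x h1 h2
        exact h1.congr_of_eventuallyEq h2
      · unfold D4
        rw [e5.mfderiv_eq, h0 _ _ hk, h0 _ _ hk, smul_zero, smul_zero, add_zero, map_zero, add_zero]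
  refine ⟨Φ', fun p => (key p).1, fun m n x => ?_, fun p => ?_, fun p => ?_, fun p => ?_⟩
  · simp only [Φ', G, h.per, tr2_0, tr2_1, prj_tr2, hp]
  · simp only [Φ', hG0, h.zero]
    split_ifs with h1
    · exact c.left_inv h1
    · rfl
  · rw [(key p).2, h.d0]
    simp [e]
  · rw [(key p).2, h.d1]
    simp [e]

/-- from a germ to a tube -/
theorem Inv.tube [T2Space Z] {φ : P2 → Z} {N : Fin 2 → P2 → HS.E4} {Φ : R4 → Z} (h : Inv φ N Φ)
    (hi : ∀ p q, φ p = φ q → ∃ m n : ℤ, q = (p.1 + m, p.2 + n))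
    (hb : ∀ p, Bijective (D4 Φ (lin p))) {O : Set Z} (hO : IsOpen O) (hφ : ∀ p, φ p ∈ O) :
    ∃ r > 0, ContMDiffOn 𝓘(ℝ, R4) (𝓡 4) ∞ Φ (Tb r) ∧ (∀ x ∈ Tb r, Bijective (dm4 Φ x)) ∧
      (∀ x ∈ Tb r, ∀ y ∈ Tb r, Φ x = Φ y → ∃ m n, y = tr2 m n x) ∧ Φ '' Tb r ⊆ O := by
  let s : Set R4 := interior {x | ContMDiffAt 𝓘(ℝ, R4) (𝓡 4) ∞ Φ x}
  have hs : ContMDiffOn 𝓘(ℝ, R4) (𝓡 4) ∞ Φ s := fun x hx =>
    ContMDiffAt.contMDiffWithinAt (interior_subset (s := {x | ContMDiffAt 𝓘(ℝ, R4) (𝓡 4) ∞ Φ x}) hx)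
  have hl : ∀ p, lin p ∈ s := fun p => mem_interior_iff_mem_nhds.2 (h.sm p)
  have hc : ∀ p, ContinuousAt Φ (lin p) := fun p => (h.sm p).self_of_nhds.continuousAt
  have e1 : ∀ p, ∀ᶠ x in 𝓝 (lin p), ContMDiffAt 𝓘(ℝ, R4) (𝓡 4) ∞ Φ x ∧ Bijective (D4 Φ x) ∧
      Φ x ∈ O := by
    intro p
    obtain ⟨f, h1, h2, h3, h4⟩ := locInv isOpen_interior hs (hl p) (hb p)
    have h5 : (f : R4 → Z) = Φ := funext h3
    filter_upwards [h.sm p, f.open_source.mem_nhds h1,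
      (hc p).eventually (hO.mem_nhds (by rw [h.zero]; exact hφ p))] with x a1 a2 a3
    refine ⟨a1, ?_, a3⟩
    have := mfderiv_bij f (by rw [h5]; exact hs.mono h2) h4 a2
    rwa [h5] at this
  have e2 : ∀ p q, ∀ᶠ u in 𝓝 (lin p, lin q), Φ u.1 = Φ u.2 → ∃ m n, u.2 = tr2 m n u.1 := by
    intro p q
    by_cases hpq : φ p = φ q
    · obtain ⟨m, n, rfl⟩ := hi p q hpq
      obtain ⟨t, ht, hinj⟩ := injOn_nhds_bij isOpen_interior hs (hl (p.1 + m, p.2 + n)) (hb _)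
      have t1 : ∀ᶠ x in 𝓝 (lin p), tr2 m n x ∈ t :=
        (cont_tr2 m n).continuousAt.eventually (by rw [tr2_lin]; exact ht)
      rw [nhds_prod_eq]
      filter_upwards [t1.prod_mk ht] with u hu h1
      exact ⟨m, n, hinj hu.2 hu.1 (by rw [h.per, h1])⟩
    · have c1 : ContinuousAt (fun u : R4 × R4 => (Φ u.1, Φ u.2)) (lin p, lin q) :=
        ((hc p).comp_of_eq continuousAt_fst rfl).prodMk ((hc q).comp_of_eq continuousAt_snd rfl)
      have := c1.eventually (isClosed_diagonal.isOpen_compl.mem_nhds (by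
        simpa [h.zero] using hpq))
      filter_upwards [this] with u hu h1
      exact (hu h1).elim
  obtain ⟨r, hr, H⟩ := tube2 (W := {u | (ContMDiffAt 𝓘(ℝ, R4) (𝓡 4) ∞ Φ u.1 ∧
      Bijective (D4 Φ u.1) ∧ Φ u.1 ∈ O) ∧ (Φ u.1 = Φ u.2 → ∃ m n, u.2 = tr2 m n u.1)})
    fun p q => ((continuousAt_fst (p := (lin p, lin q))).eventually (e1 p)).and (e2 p q)
  have H1 : ∀ x ∈ Tb r, ContMDiffAt 𝓘(ℝ, R4) (𝓡 4) ∞ Φ x ∧ Bijective (D4 Φ x) ∧ Φ x ∈ O := by
    intro x hx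
    obtain ⟨m, n, m', n', ⟨a1, a2, a3⟩, -⟩ := H x hx x hx
    have hΦ : Φ ∘ tr2 m n = Φ := funext fun y => h.per m n y
    have t1 : HasFDerivAt (tr2 m n) (ContinuousLinearMap.id ℝ R4) x := by
      unfold tr2
      exact ((hasFDerivAt_id x).add_const _).add_const _
    have t2 : ContMDiffAt 𝓘(ℝ, R4) 𝓘(ℝ, R4) ∞ (tr2 m n) x := by
      rw [contMDiffAt_iff_contDiffAt]
      unfold tr2
      fun_prop
    refine ⟨hΦ ▸ a1.comp x t2, ?_, h.per m n x ▸ a3⟩
    have m1 := mfderiv_comp x (a1.mdifferentiableAt (by simp)) (t2.mdifferentiableAt (by simp))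
    rw [hΦ, mfderiv_eq_fderiv, t1.fderiv] at m1
    have m2 : D4 Φ x = D4 Φ (tr2 m n x) := m1
    rw [m2]
    exact a2
  refine ⟨r, hr, fun x hx => (H1 x hx).1.contMDiffWithinAt, fun x hx => (H1 x hx).2.1,
    fun x hx y hy hxy => ?_, by rintro _ ⟨x, hx, rfl⟩; exact (H1 x hx).2.2⟩
  obtain ⟨m, n, m', n', -, a⟩ := H x hx y hy
  obtain ⟨k, l, hkl⟩ := a (by simp only [h.per, hxy])
  refine ⟨-m' + (k + m), -n' + (l + n), ?_⟩
  rw [← tr2_tr2, ← tr2_tr2, ← hkl, tr2_tr2]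
  simp [tr2_zero]

end Vale.Agent.P247Y.Tub
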