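import Vale.Agent.P014G.Uni

/-!
# P247, block Y: the Weierstrass function with four prescribed branch points
-/

set_option linter.all false

open Complex Filter Topology ModularForm
open UpperHalfPlane hiding I
open scoped Real

noncomputable section

namespace Vale.Agent.P247Y.WpH

open Vale.Agent.P010.H193 Vale.Agent.P014G

theorem ex_tau {g2 g3 : ℂ} (hd : g2 ^ 3 ≠ 27 * g3 ^ 2) : ∃ (τ : ℍ) (d : ℂ), d ≠ 0 ∧
    (mkPP 1 one_ne_zero τ).g₂ = d ^ 2 * g2 ∧ (mkPP 1 one_ne_zero τ).g₃ = d ^ 3 * g3 := by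
  obtain ⟨τ, hτ⟩ := exists_tau hd.symm
  have hΔ := discriminant_ne_zero τ
  rw [discriminant_eq_E₄_cube_sub_E₆_sq] at hΔ
  have hπ : (π : ℂ) ≠ 0 := by exact_mod_cast Real.pi_ne_zero
  refine ⟨τ, ?_⟩
  rw [g2_mk, g3_mk]
  simp only [one_pow, inv_one, one_mul]
  obtain ⟨a, ha⟩ : ∃ a : ℂ, a = 4 * π ^ 4 / 3 * E₄ τ := ⟨_, rfl⟩
  obtain ⟨b, hb⟩ : ∃ b : ℂ, b = 8 * π ^ 6 / 27 * E₆ τ := ⟨_, rfl⟩
  have hab : g3 ^ 2 * a ^ 3 = g2 ^ 3 * b ^ 2 := by
    rw [ha, hb]
    linear_combination (64 * (π : ℂ) ^ 12 / 729) * hτ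
  have hne : a ^ 3 ≠ 27 * b ^ 2 := by
    intro e
    apply hΔ
    have h1 : (64 * (π : ℂ) ^ 12 / 27) * (E₄ τ ^ 3 - E₆ τ ^ 2) = 0 := by
      rw [ha, hb] at e
      linear_combination e
    rw [(mul_eq_zero.1 h1).resolve_left (by simp [hπ]), zero_div]
  rw [← ha, ← hb]
  by_cases h2 : g2 = 0
  · have h3 : g3 ≠ 0 := fun h => hd (by simp [h, h2])
    have ha0 : a = 0 := by simpa [h2, h3] using hab
    have hb0 : b ≠ 0 := fun h => hne (by simp [h, ha0])
    obtain ⟨d, hd⟩ := IsAlgClosed.exists_pow_nat_eq (b / g3) (by norm_num : 0 < 3)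
    refine ⟨d, fun h => ?_, by simp [ha0, h2], by rw [hd]; field_simp⟩
    rw [h] at hd
    exact div_ne_zero hb0 h3 (by rw [← hd]; simp)
  by_cases h3 : g3 = 0
  · have hb0 : b = 0 := by simpa [h2, h3] using hab
    have ha0 : a ≠ 0 := fun h => hne (by simp [h, hb0])
    obtain ⟨d, hd⟩ := IsAlgClosed.exists_pow_nat_eq (a / g2) (by norm_num : 0 < 2)
    refine ⟨d, fun h => ?_, by rw [hd]; field_simp, by simp [hb0, h3]⟩
    rw [h] at hd
    exact div_ne_zero ha0 h2 (by rw [← hd]; simp)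
  have ha0 : a ≠ 0 := by
    intro h
    have hb0 : b = 0 := by simpa [h, h2] using hab
    exact hne (by simp [h, hb0])
  have hb0 : b ≠ 0 := by
    intro h
    exact ha0 (by simpa [h, h3] using hab)
  refine ⟨b * g2 / (a * g3), by positivity, ?_, ?_⟩
  · field_simp
    linear_combination hab
  · field_simp
    linear_combination hab

variable (L : PeriodPair)

theorem wp_sub {l : ℂ} (hl : l ∈ L.lattice) (z : ℂ) : L.weierstrassP (z - l) = L.weierstrassP z :=
  L.weierstrassP_sub_coe z ⟨l, hl⟩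

theorem near_lat {l : ℂ} (hl : l ∈ L.lattice) : ∀ᶠ z in 𝓝 l, z ≠ l → z ∉ L.lattice := by
  filter_upwards [L.compl_lattice_sdiff_singleton_mem_nhds l] with z h1 h2 h3
  exact h1 ⟨h3, h2⟩

theorem pa_an (l : ℂ) : AnalyticAt ℂ (fun z => pa L (z - l)) l :=
  AnalyticAt.comp (g := pa L) (f := fun z => z - l) (by simpa using pa_analytic L) (by fun_prop)

theorem wp_surj (w : ℂ) : ∃ z, z ∉ L.lattice ∧ L.weierstrassP z = w := by
  classical
  by_contra hne
  push Not at hne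
  let F : ℂ → ℂ := fun z => if z ∈ L.lattice then 0 else (L.weierstrassP z - w)⁻¹
  have hper : ∀ z, ∀ l ∈ L.lattice, F (z + l) = F z := by
    intro z l hl
    by_cases hz : z ∈ L.lattice
    · simp only [F, if_pos hz, if_pos (add_mem hz hl)]
    · have : z + l ∉ L.lattice := fun e => hz (by simpa using sub_mem e hl)
      simp only [F, if_neg hz, if_neg this]
      rw [L.weierstrassP_add_coe z ⟨l, hl⟩]
  have hd : Differentiable ℂ F := by
    intro l
    by_cases hl : l ∈ L.lattice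
    · have h1 : AnalyticAt ℂ (fun z => (z - l) ^ 2 / (pa L (z - l) - w * (z - l) ^ 2)) l :=
        AnalyticAt.fun_div (by fun_prop) ((pa_an L l).fun_sub (by fun_prop)) (by simp [pa_zero])
      refine h1.differentiableAt.congr_of_eventuallyEq ?_
      filter_upwards [near_lat L hl] with z hz
      by_cases e : z = l
      · simp [F, e, hl]
      · have h0 := sub_ne_zero.2 e
        simp only [F, if_neg (hz e)]
        rw [pa_eq L h0, wp_sub L hl, ← inv_div]
        congr 1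
        field_simp
    · refine (((wp_analyticAt L hl).differentiableAt.sub_const w).inv
        (sub_ne_zero.2 (hne l hl))).congr_of_eventuallyEq ?_
      filter_upwards [wp_notMem_nhds L hl] with z hz
      simp only [F, if_neg hz]
      rfl
  have := hd.apply_eq_apply_of_bounded (IsZLattice.isCompact_range_of_periodic L.lattice _
    hd.continuous hper).isBounded (L.ω₁ / 2) 0
  simp only [F, if_neg L.ω₁_div_two_notMem_lattice, if_pos (zero_mem _)] at this
  exact inv_ne_zero (sub_ne_zero.2 (hne _ L.ω₁_div_two_notMem_lattice)) this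

/-- the determinant -/
def det2 (a b : ℂ × ℂ) : ℂ := a.1 * b.2 - a.2 * b.1

open Classical in
/-- `℘` in homogeneous coordinates -/
def Wh (z : ℂ) : ℂ × ℂ := if z ∈ L.lattice then (1, 0) else (L.weierstrassP z, 1)

theorem Wh_mem {z : ℂ} (h : z ∈ L.lattice) : Wh L z = (1, 0) := if_pos h

theorem Wh_not {z : ℂ} (h : z ∉ L.lattice) : Wh L z = (L.weierstrassP z, 1) := if_neg h

theorem Wh_ne (z : ℂ) : Wh L z ≠ 0 := by
  by_cases h : z ∈ L.lattice
  · simp [Wh_mem L h]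
  · simp [Wh_not L h]

theorem Wh_det (z z' : ℂ) :
    det2 (Wh L z) (Wh L z') = 0 ↔ z' - z ∈ L.lattice ∨ z' + z ∈ L.lattice := by
  by_cases h : z ∈ L.lattice <;> by_cases h' : z' ∈ L.lattice
  · simp [Wh_mem L h, Wh_mem L h', det2, sub_mem h' h]
  · simp only [Wh_mem L h, Wh_not L h', det2]
    refine iff_of_false (by simp) ?_
    rintro (e | e)
    · exact h' (by simpa using add_mem e h)
    · exact h' (by simpa using sub_mem e h)
  · simp only [Wh_mem L h', Wh_not L h, det2]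
    refine iff_of_false (by simp) ?_
    rintro (e | e)
    · exact h (by simpa using sub_mem h' e)
    · exact h (by simpa using sub_mem e h')
  · rw [← wp_eq_iff L h h', Wh_not L h, Wh_not L h', det2]
    simp [sub_eq_zero]

theorem Wh_surj (w : ℂ × ℂ) : ∃ z, det2 (Wh L z) w = 0 := by
  by_cases h : w.2 = 0
  · exact ⟨0, by simp [Wh_mem L (zero_mem _), det2, h]⟩
  · obtain ⟨z, hz, e⟩ := wp_surj L (w.1 / w.2)
    exact ⟨z, by rw [Wh_not L hz, det2, e]; field_simp; ring⟩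

theorem deriv_two {k : ℂ → ℂ} {l : ℂ} (hk : AnalyticAt ℂ k l) :
    deriv (fun z => (z - l) ^ 2 * k z) l = 0 ∧
      deriv (deriv fun z => (z - l) ^ 2 * k z) l = 2 * k l := by
  have h1 : deriv (fun z => (z - l) ^ 2 * k z) =ᶠ[𝓝 l]
      fun z => (z - l) * (2 * k z + (z - l) * deriv k z) := by
    filter_upwards [hk.eventually_analyticAt] with z hz
    have := ((((hasDerivAt_id' z).sub_const l).fun_pow 2).fun_mul
      hz.differentiableAt.hasDerivAt).deriv
    rw [this]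
    push_cast
    ring
  refine ⟨by rw [h1.eq_of_nhds]; simp, ?_⟩
  have h2 : AnalyticAt ℂ (fun z => 2 * k z + (z - l) * deriv k z) l := by
    have := hk.deriv
    fun_prop
  rw [h1.deriv_eq, (((hasDerivAt_id' l).sub_const l).fun_mul h2.differentiableAt.hasDerivAt).deriv]
  simp

theorem Wh_loc (l : ℂ) : ∃ (g : ℂ → ℂ) (P Q : ℂ × ℂ), AnalyticAt ℂ g l ∧ det2 P Q ≠ 0 ∧
    (∀ᶠ z in 𝓝 l, det2 (Wh L z) (g z • P + Q) = 0) ∧ (2 * l ∉ L.lattice → deriv g l ≠ 0) ∧
    (2 * l ∈ L.lattice → deriv g l = 0 ∧ deriv (deriv g) l ≠ 0) := by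
  by_cases hl : l ∈ L.lattice
  · have h0 : pa L (l - l) ≠ 0 := by simp [pa_zero]
    have hk : AnalyticAt ℂ (fun z => (pa L (z - l))⁻¹) l := (pa_an L l).fun_inv h0
    refine ⟨fun z => (z - l) ^ 2 * (pa L (z - l))⁻¹, (0, 1), (1, 0), by fun_prop, by simp [det2],
      ?_, fun h => (h (by rw [two_mul]; exact add_mem hl hl)).elim, fun _ => ⟨(deriv_two hk).1, ?_⟩⟩
    · filter_upwards [near_lat L hl, (pa_an L l).continuousAt.eventually_ne h0] with z hz h1
      by_cases e : z = l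
      · simp [e, Wh_mem L hl, det2]
      · have h2 := pa_eq L (sub_ne_zero.2 e)
        rw [wp_sub L hl] at h2
        simp only [Wh_not L (hz e), det2, Prod.smul_mk, smul_eq_mul, Prod.mk_add_mk]
        field_simp
        linear_combination -h2
    · rw [(deriv_two hk).2]
      exact mul_ne_zero two_ne_zero (inv_ne_zero h0)
  · refine ⟨L.weierstrassP, (1, 0), (0, 1), wp_analyticAt L hl, by simp [det2], ?_, fun h => ?_,
      fun h => ?_⟩
    · filter_upwards [wp_notMem_nhds L hl] with z hz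
      simp [Wh_not L hz, det2]
    · rw [L.deriv_weierstrassP]
      exact fun e => h ((wp_deriv_eq_zero_iff L hl).1 e)
    · rw [L.deriv_weierstrassP]
      exact ⟨(wp_deriv_eq_zero_iff L hl).2 h, wp_deriv2_ne L hl h⟩

/-- the linear map with columns `P`, `Q` -/
def lin2 (P Q w : ℂ × ℂ) : ℂ × ℂ := w.1 • P + w.2 • Q

theorem det_lin (P Q w w' : ℂ × ℂ) : det2 (lin2 P Q w) (lin2 P Q w') = det2 P Q * det2 w w' := by
  simp only [det2, lin2, Prod.fst_add, Prod.snd_add, Prod.smul_fst, Prod.smul_snd, smul_eq_mul]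
  ring

theorem lin_ne {P Q w : ℂ × ℂ} (h : det2 P Q ≠ 0) (hw : w ≠ 0) : lin2 P Q w ≠ 0 := by
  intro e
  have h1 := det_lin P Q w (1, 0)
  have h2 := det_lin P Q w (0, 1)
  rw [e] at h1 h2
  apply hw
  simp only [det2, Prod.fst_zero, Prod.snd_zero, zero_mul, sub_zero, mul_zero, mul_one, zero_sub]
    at h1 h2
  refine Prod.ext ((mul_eq_zero.1 h2.symm).resolve_left h) ?_
  simpa using (mul_eq_zero.1 h1.symm).resolve_left h

theorem lin_surj {P Q : ℂ × ℂ} (h : det2 P Q ≠ 0) (w : ℂ × ℂ) : ∃ w', lin2 P Q w' = w := by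
  refine ⟨(det2 w Q / det2 P Q, det2 P w / det2 P Q), Prod.ext ?_ ?_⟩ <;>
  · simp only [lin2, Prod.fst_add, Prod.snd_add, Prod.smul_fst, Prod.smul_snd, smul_eq_mul]
    field_simp
    simp only [det2]
    ring

theorem mem_mk (τ : ℍ) (z : ℂ) :
    z ∈ (mkPP 1 one_ne_zero τ).lattice ↔ ∃ m n : ℤ, z = m + n * (τ : ℂ) := by
  rw [PeriodPair.mem_lattice]
  constructor
  · rintro ⟨m, n, rfl⟩
    exact ⟨n, m, by simp only [mkPP]; ring⟩
  · rintro ⟨m, n, rfl⟩
    exact ⟨n, m, by simp only [mkPP]; ring⟩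

/-- the quotient map of a torus by `± 1` with prescribed branch points -/
theorem wp_pure (y : Fin 4 → ℂ × ℂ) (hy : ∀ j k, j ≠ k → det2 (y j) (y k) ≠ 0) :
    ∃ (τ : ℂ) (W : ℂ → ℂ × ℂ), 0 < τ.im ∧ (∀ z, W z ≠ 0) ∧
    (∀ z z', det2 (W z) (W z') = 0 ↔ ∃ m n : ℤ, z' = z + m + n * τ ∨ z' = -z + m + n * τ) ∧
    (∀ w, ∃ z, det2 (W z) w = 0) ∧
    (∀ z, (∃ m n : ℤ, z = (m + n * τ) / 2) → ∃ j, det2 (W z) (y j) = 0) ∧
    ∀ l, ∃ (g : ℂ → ℂ) (P Q : ℂ × ℂ), AnalyticAt ℂ g l ∧ det2 P Q ≠ 0 ∧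
      (∀ᶠ z in 𝓝 l, det2 (W z) (g z • P + Q) = 0) ∧
      ((¬ ∃ m n : ℤ, l = (m + n * τ) / 2) → deriv g l ≠ 0) ∧
      ((∃ m n : ℤ, l = (m + n * τ) / 2) → deriv g l = 0 ∧ deriv (deriv g) l ≠ 0) := by
  let t : Fin 4 → ℂ := fun j => det2 (y j) (y 1) / det2 (y 0) (y j)
  have h01 := hy 0 1 (by decide)
  have ht : ∀ j, j ≠ 0 → det2 (t j • y 0 + y 1) (y j) = 0 := by
    intro j hj
    have h1 : t j * det2 (y 0) (y j) = det2 (y j) (y 1) := div_mul_cancel₀ _ (hy 0 j hj.symm)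
    simp only [det2, Prod.fst_add, Prod.snd_add, Prod.smul_fst, Prod.smul_snd, smul_eq_mul]
      at h1 ⊢
    linear_combination h1
  have htt : ∀ j k, j ≠ 0 → k ≠ 0 → j ≠ k → t j - t k ≠ 0 := by
    intro j k hj hk hjk e
    have h1 := ht j hj
    have h2 := ht k hk
    rw [sub_eq_zero.1 e] at h1
    apply hy j k hjk
    apply mul_left_cancel₀ h01
    simp only [det2, Prod.fst_add, Prod.snd_add, Prod.smul_fst, Prod.smul_snd, smul_eq_mul]
      at h1 h2 ⊢
    linear_combination ((y 0).1 * (y j).2 - (y 0).2 * (y j).1) * h2 -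
      ((y 0).1 * (y k).2 - (y 0).2 * (y k).1) * h1
  obtain ⟨s, hs⟩ : ∃ s, s = (t 1 + t 2 + t 3) / 3 := ⟨_, rfl⟩
  obtain ⟨τ, d, hd, h2, h3⟩ := ex_tau
    (g2 := -4 * ((t 1 - s) * (t 2 - s) + (t 1 - s) * (t 3 - s) + (t 2 - s) * (t 3 - s)))
    (g3 := 4 * ((t 1 - s) * (t 2 - s) * (t 3 - s))) (by
      intro e
      refine pow_ne_zero 2 (mul_ne_zero (mul_ne_zero (htt 1 2 (by decide) (by decide) (by decide))
        (htt 1 3 (by decide) (by decide) (by decide))) (htt 2 3 (by decide) (by decide)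
        (by decide))) ?_
      rw [hs] at e
      linear_combination e / 16)
  set L := mkPP 1 one_ne_zero τ with hL
  have hPQ : det2 (d⁻¹ • y 0) (s • y 0 + y 1) ≠ 0 := by
    have : det2 (d⁻¹ • y 0) (s • y 0 + y 1) = d⁻¹ * det2 (y 0) (y 1) := by
      simp only [det2, Prod.fst_add, Prod.snd_add, Prod.smul_fst, Prod.smul_snd, smul_eq_mul]
      ring
    rw [this]
    exact mul_ne_zero (inv_ne_zero hd) h01
  have hh : ∀ z : ℂ, (∃ m n : ℤ, z = (m + n * τ) / 2) ↔ 2 * z ∈ L.lattice := fun z => by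
    rw [mem_mk]
    refine exists_congr fun m => exists_congr fun n => ⟨fun e => ?_, fun e => ?_⟩
    · linear_combination 2 * e
    · linear_combination e / 2
  refine ⟨τ, fun z => lin2 (d⁻¹ • y 0) (s • y 0 + y 1) (Wh L z), τ.im_pos,
    fun z => lin_ne hPQ (Wh_ne L z), fun z z' => ?_, fun w => ?_, fun z hz => ?_, fun l => ?_⟩
  · rw [det_lin, mul_eq_zero, or_iff_right hPQ, Wh_det, mem_mk, mem_mk]
    constructor
    · rintro (⟨m, n, e⟩ | ⟨m, n, e⟩)
      · exact ⟨m, n, .inl (by linear_combination e)⟩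
      · exact ⟨m, n, .inr (by linear_combination e)⟩
    · rintro ⟨m, n, e | e⟩
      · exact .inl ⟨m, n, by linear_combination e⟩
      · exact .inr ⟨m, n, by linear_combination e⟩
  · obtain ⟨w', rfl⟩ := lin_surj hPQ w
    obtain ⟨z, hz⟩ := Wh_surj L w'
    exact ⟨z, by rw [det_lin, hz, mul_zero]⟩
  · by_cases h : z ∈ L.lattice
    · refine ⟨0, ?_⟩
      simp only [Wh_mem L h, lin2, det2, Prod.fst_add, Prod.snd_add, Prod.smul_fst, Prod.smul_snd,
        smul_eq_mul]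
      ring
    · have e := L.derivWeierstrassP_sq z h
      rw [(wp_deriv_eq_zero_iff L h).2 ((hh z).1 hz), h2, h3] at e
      have e' : (L.weierstrassP z - d * (t 1 - s)) * (L.weierstrassP z - d * (t 2 - s)) *
          (L.weierstrassP z - d * (t 3 - s)) = 0 := by
        have h4 : t 1 - s + (t 2 - s) + (t 3 - s) = 0 := by rw [hs]; ring
        linear_combination -e / 4 - L.weierstrassP z ^ 2 * d * h4
      have key : ∀ j, j ≠ 0 → L.weierstrassP z - d * (t j - s) = 0 →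
          det2 (lin2 (d⁻¹ • y 0) (s • y 0 + y 1) (Wh L z)) (y j) = 0 := by
        intro j hj e
        rw [← ht j hj, Wh_not L h, sub_eq_zero.1 e]
        simp only [lin2, det2, Prod.fst_add, Prod.snd_add, Prod.smul_fst, Prod.smul_snd,
          smul_eq_mul]
        field_simp
        ring
      rcases mul_eq_zero.1 e' with e1 | e1
      · rcases mul_eq_zero.1 e1 with e1 | e1
        · exact ⟨1, key 1 (by decide) e1⟩
        · exact ⟨2, key 2 (by decide) e1⟩
      · exact ⟨3, key 3 (by decide) e1⟩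
  · obtain ⟨g, P, Q, hg, hdet, hev, h5, h6⟩ := Wh_loc L l
    refine ⟨g, lin2 (d⁻¹ • y 0) (s • y 0 + y 1) P, lin2 (d⁻¹ • y 0) (s • y 0 + y 1) Q, hg,
      by rw [det_lin]; exact mul_ne_zero hPQ hdet, ?_, fun h => h5 (by rwa [← hh]),
      fun h => h6 (by rwa [← hh])⟩
    filter_upwards [hev] with z hz
    have : g z • lin2 (d⁻¹ • y 0) (s • y 0 + y 1) P + lin2 (d⁻¹ • y 0) (s • y 0 + y 1) Q =
        lin2 (d⁻¹ • y 0) (s • y 0 + y 1) (g z • P + Q) := by
      simp only [lin2, Prod.fst_add, Prod.snd_add, Prod.smul_fst, Prod.smul_snd, smul_eq_mul]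
      module
    rw [this, det_lin, hz, mul_zero]

end Vale.Agent.P247Y.WpH
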