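import Vale.Agent.P247Y.Sta
import Vale.Agent.P247Y.Wp1

/-!
# P247, block Y: Weierstrass parametrisation of a sphere with four marked points
-/

set_option linter.all false

open scoped Manifold ContDiff Topology
open Set Filter Metric

noncomputable section

namespace Vale.Agent.P247Y

open Vale.Agent.P247.SCY
open Vale.Agent.P247X

namespace WpH

variable {X : Type} [TopologicalSpace X] [ChartedSpace HS.E4 X] {J : EndF X}

theorem J_congr {x y : X} (e : x = y) (v : HS.E4) : (J x v : HS.E4) = J y v := by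
  subst e
  rfl

theorem dm_congr {a b : ℂ → X} {z : ℂ} (h : a =ᶠ[𝓝 z] b) (c : ℂ) :
    (dm a z c : HS.E4) = dm b z c := by
  unfold P247X.dm
  rw [h.mfderiv_eq]
  rfl

theorem JAt_congr {a b : ℂ → X} {z : ℂ} (h : a =ᶠ[𝓝 z] b) (hb : JAt J b z) : JAt J a z := by
  have h1 := dm_congr h Complex.I
  have h2 := dm_congr h 1
  exact h1.trans (hb.trans (by rw [← h2]; exact (J_congr h.eq_of_nhds _).symm))

theorem dm_lin (φ : ℂ → X) (w : ℂ) (s t : ℝ) (a b : ℂ) :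
    dm φ w (s • a + t • b) = s • dm φ w a + t • dm φ w b :=
  (map_add (mfderiv 𝓘(ℝ, ℂ) (𝓡 4) φ w) _ _).trans (congrArg₂ (· + ·)
    (map_smul (mfderiv 𝓘(ℝ, ℂ) (𝓡 4) φ w) _ _) (map_smul (mfderiv 𝓘(ℝ, ℂ) (𝓡 4) φ w) _ _))

theorem dm_eq {φ : ℂ → X} {w : ℂ} (hJ : JAt J φ w) (c : ℂ) :
    dm φ w c = c.re • dm φ w 1 + c.im • J (φ w) (dm φ w 1) := by
  rw [← hJ]
  have : c = c.re • (1 : ℂ) + c.im • Complex.I := by
    simp [Complex.ext_iff]
  conv_lhs => rw [this]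
  exact dm_lin ..

theorem dm_I {φ : ℂ → X} {w : ℂ} (hJ : JAt J φ w) (hsq : ∀ u, J (φ w) (J (φ w) u) = -u) (c : ℂ) :
    dm φ w (Complex.I * c) = J (φ w) (dm φ w c) := by
  rw [dm_eq hJ, dm_eq hJ c, map_add, map_smul, map_smul, hsq]
  simp [add_comm]

theorem dm_ne {φ : ℂ → X} {w : ℂ} (hJ : JAt J φ w) (hsq : ∀ u, J (φ w) (J (φ w) u) = -u)
    (h1 : dm φ w 1 ≠ 0) {c : ℂ} (hc : c ≠ 0) : dm φ w c ≠ 0 := by
  intro e
  apply h1
  have h2 : dm φ w (Complex.I * c) = 0 := by rw [dm_I hJ hsq, e, map_zero]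
  have : (1 : ℂ) = c⁻¹.re • c + c⁻¹.im • (Complex.I * c) := by
    rw [← mul_inv_cancel₀ hc]
    conv_lhs => rw [← Complex.re_add_im c⁻¹]
    simp only [Complex.real_smul]
    ring
  rw [this, dm_lin, e, h2, smul_zero, smul_zero, add_zero]

theorem dm_comp {φ : ℂ → X} {g : ℂ → ℂ} {z g' : ℂ}
    (hφ : MDifferentiableAt 𝓘(ℝ, ℂ) (𝓡 4) φ (g z)) (hg : HasDerivAt g g' z) (c : ℂ) :
    (dm (fun z => φ (g z)) z c : HS.E4) = dm φ (g z) (c * g') := by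
  have h1 := (hg.hasFDerivAt.restrictScalars ℝ).hasMFDerivAt
  have h2 := (hφ.hasMFDerivAt.comp z h1).mfderiv
  unfold P247X.dm
  rw [show (fun z => φ (g z)) = φ ∘ g from rfl, h2]
  rfl

theorem JAt_comp {φ : ℂ → X} {g : ℂ → ℂ} {z g' : ℂ}
    (hφ : MDifferentiableAt 𝓘(ℝ, ℂ) (𝓡 4) φ (g z)) (hg : HasDerivAt g g' z)
    (hJ : JAt J φ (g z)) (hsq : ∀ u, J (φ (g z)) (J (φ (g z)) u) = -u) :
    JAt J (fun z => φ (g z)) z := by
  refine (dm_comp hφ hg _).trans ((dm_I hJ hsq g').trans ?_)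
  rw [dm_comp hφ hg 1, one_mul]

theorem sm_an {g : ℂ → ℂ} {z : ℂ} (hg : AnalyticAt ℂ g z) :
    ContMDiffAt 𝓘(ℝ, ℂ) 𝓘(ℝ, ℂ) ∞ g z :=
  ((hg.contDiffAt (n := ∞)).restrict_scalars ℝ).contMDiffAt

open Classical in
/-- the point of the sphere with homogeneous coordinates `w` -/
def hom (S : Sph J) (w : ℂ × ℂ) : X := if w.2 = 0 then S.v 0 else S.u (w.1 / w.2)

theorem hom_u (S : Sph J) {w : ℂ × ℂ} (h : w.2 ≠ 0) : hom S w = S.u (w.1 / w.2) := if_neg h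

theorem hom_v (S : Sph J) {w : ℂ × ℂ} (h : w.1 ≠ 0) : hom S w = S.v (w.2 / w.1) := by
  by_cases h2 : w.2 = 0
  · rw [hom, if_pos h2, h2, zero_div]
  · rw [hom_u S h2, S.glue _ (div_ne_zero h2 h), inv_div]

theorem hom_mem (S : Sph J) (w : ℂ × ℂ) : hom S w ∈ S.set := by
  unfold hom
  split_ifs
  · exact .inl rfl
  · exact .inr ⟨_, rfl⟩

theorem hom_surj (S : Sph J) {x : X} (hx : x ∈ S.set) : ∃ w, w ≠ 0 ∧ hom S w = x := by
  rcases hx with rfl | ⟨z, rfl⟩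
  · exact ⟨(1, 0), by simp, if_pos rfl⟩
  · exact ⟨(z, 1), by simp, by rw [hom_u S one_ne_zero, div_one]⟩

theorem hom_eq (S : Sph J) {w w' : ℂ × ℂ} (h : w ≠ 0) (h' : w' ≠ 0) :
    hom S w = hom S w' ↔ det2 w w' = 0 := by
  have k : ∀ w : ℂ × ℂ, w ≠ 0 → w.2 = 0 → w.1 ≠ 0 := fun w h h2 h1 => h (Prod.ext h1 h2)
  unfold det2
  by_cases h2 : w.2 = 0 <;> by_cases h2' : w'.2 = 0
  · simp [hom, h2, h2']
  · rw [hom, if_pos h2, hom_u S h2']
    exact iff_of_false (fun e => S.inf ⟨_, e.symm⟩) (by simp [h2, h2', k w h h2])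
  · rw [hom_u S h2, hom, if_pos h2']
    exact iff_of_false (fun e => S.inf ⟨_, e⟩) (by simp [h2, h2', k w' h' h2'])
  · rw [hom_u S h2, hom_u S h2', S.inj.eq_iff, div_eq_div_iff h2 h2', sub_eq_zero, mul_comm w'.1]

theorem line_ne {P Q : ℂ × ℂ} (h : det2 P Q ≠ 0) (w : ℂ) : w • P + Q ≠ 0 := by
  have := lin_ne (w := (w, 1)) h (by simp)
  simpa [lin2] using this

theorem hom_loc (S : Sph J) {P Q : ℂ × ℂ} (h : det2 P Q ≠ 0) (w₀ : ℂ) :
    ∃ (φ : ℂ → X) (m : ℂ → ℂ), (φ = S.u ∨ φ = S.v) ∧ AnalyticAt ℂ m w₀ ∧ deriv m w₀ ≠ 0 ∧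
      ∀ᶠ w in 𝓝 w₀, hom S (w • P + Q) = φ (m w) := by
  have key : ∀ a b c d : ℂ, a * d - c * b ≠ 0 → w₀ * c + d ≠ 0 →
      AnalyticAt ℂ (fun w => (w * a + b) / (w * c + d)) w₀ ∧
      deriv (fun w => (w * a + b) / (w * c + d)) w₀ ≠ 0 ∧ ∀ᶠ w in 𝓝 w₀, w * c + d ≠ 0 := by
    intro a b c d h1 h2
    refine ⟨AnalyticAt.fun_div (by fun_prop) (by fun_prop) h2, ?_,
      ContinuousAt.eventually_ne (by fun_prop) h2⟩
    rw [((((hasDerivAt_id' w₀).mul_const a).add_const b).fun_div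
      (((hasDerivAt_id' w₀).mul_const c).add_const d) h2).deriv]
    refine div_ne_zero (fun e => h1 ?_) (pow_ne_zero 2 h2)
    linear_combination e
  by_cases h2 : w₀ * P.2 + Q.2 = 0
  · have h1 : w₀ * P.1 + Q.1 ≠ 0 := fun e => line_ne h w₀ (Prod.ext e h2)
    obtain ⟨k1, k2, k3⟩ := key P.2 Q.2 P.1 Q.1 (fun e => h (by unfold det2; linear_combination -e)) h1
    refine ⟨S.v, _, .inr rfl, k1, k2, ?_⟩
    filter_upwards [k3] with w hw
    exact hom_v S hw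
  · obtain ⟨k1, k2, k3⟩ := key P.1 Q.1 P.2 Q.2 h h2
    refine ⟨S.u, _, .inl rfl, k1, k2, ?_⟩
    filter_upwards [k3] with w hw
    exact hom_u S hw

theorem deriv2_comp {m g : ℂ → ℂ} {z : ℂ} (hm : AnalyticAt ℂ m (g z)) (hg : AnalyticAt ℂ g z)
    (h0 : deriv g z = 0) :
    deriv (deriv fun y => m (g y)) z = deriv m (g z) * deriv (deriv g) z := by
  have h1 : (deriv fun y => m (g y)) =ᶠ[𝓝 z] fun y => deriv m (g y) * deriv g y := by
    filter_upwards [hg.eventually_analyticAt, hg.continuousAt.eventually hm.eventually_analyticAt]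
      with y h1 h2
    exact (h2.differentiableAt.hasDerivAt.comp y h1.differentiableAt.hasDerivAt).deriv
  have h2 : HasDerivAt (fun y => deriv m (g y)) _ z := (hm.deriv.comp hg).differentiableAt.hasDerivAt
  rw [h1.deriv_eq, (h2.fun_mul hg.deriv.differentiableAt.hasDerivAt).deriv, h0, mul_zero, zero_add]

theorem sph_chart (S : Sph J) {φ : ℂ → X} (h : φ = S.u ∨ φ = S.v) :
    ContMDiff 𝓘(ℝ, ℂ) (𝓡 4) ∞ φ ∧ (∀ z, JAt J φ z) ∧ (∀ z, dm φ z 1 ≠ 0) ∧ ∀ z, φ z ∈ S.set := by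
  rcases h with rfl | rfl
  · exact ⟨S.u_smooth, S.u_hol, S.u_imm, fun z => .inr ⟨z, rfl⟩⟩
  · refine ⟨S.v_smooth, S.v_hol, S.v_imm, fun z => ?_⟩
    by_cases hz : z = 0
    · exact .inl (by rw [hz])
    · exact .inr ⟨_, (S.glue z hz).symm⟩

theorem hp_mem (τ : ℂ) (b : Fin 2 × Fin 2) : hp τ b ∈ HL τ :=
  ⟨(b.1 : ℕ), (b.2 : ℕ), by simp [hp]⟩

theorem lat_inj {τ : ℂ} (hτ : 0 < τ.im) {m n : ℤ} (h : (m : ℂ) + n * τ = 0) : m = 0 ∧ n = 0 := by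
  have h1 := congrArg Complex.im h
  simp [hτ.ne'] at h1
  subst h1
  simpa using h

theorem hp_inj {τ : ℂ} (hτ : 0 < τ.im) {b b' : Fin 2 × Fin 2} {m n : ℤ}
    (h : hp τ b' = hp τ b + m + n * τ ∨ hp τ b' = -hp τ b + m + n * τ) : b = b' := by
  obtain ⟨b1, b2⟩ := b
  obtain ⟨c1, c2⟩ := b'
  simp only [hp] at h
  have k1 := b1.2
  have k2 := b2.2
  have k3 := c1.2
  have k4 := c2.2
  rcases h with h | h
  · have := lat_inj hτ (m := ((b1 : ℕ) : ℤ) + 2 * m - (c1 : ℕ)) (n := ((b2 : ℕ) : ℤ) + 2 * n - (c2 : ℕ))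
      (by push_cast; linear_combination -2 * h)
    exact Prod.ext (Fin.ext (by dsimp only; omega)) (Fin.ext (by dsimp only; omega))
  · have := lat_inj hτ (m := -((b1 : ℕ) : ℤ) + 2 * m - (c1 : ℕ))
      (n := -((b2 : ℕ) : ℤ) + 2 * n - (c2 : ℕ)) (by push_cast; linear_combination -2 * h)
    exact Prod.ext (Fin.ext (by dsimp only; omega)) (Fin.ext (by dsimp only; omega))

end WpH

open WpH

/-- the Weierstrass parametrisation -/
theorem wp {X : Type} [TopologicalSpace X] [ChartedSpace HS.E4 X] {J : EndF X}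
    (hsq : ∀ x u, J x (J x u) = -u) (S : Sph J) (x : Fin 4 → X) (hx : Function.Injective x)
    (hS : ∀ j, x j ∈ S.set) :
    ∃ (τ : ℂ) (a : ℂ → X) (σ : Fin 2 × Fin 2 ≃ Fin 4), 0 < τ.im ∧
    ContMDiff 𝓘(ℝ, ℂ) (𝓡 4) ∞ a ∧ (∀ z, JAt J a z) ∧ range a = S.set ∧
    (∀ z z', a z = a z' ↔ ∃ m n : ℤ, z' = z + m + n * τ ∨ z' = -z + m + n * τ) ∧
    (∀ z, z ∉ HL τ → dm a z 1 ≠ 0) ∧
    ∀ b, a (hp τ b) = x (σ b) ∧ ∃ (φ : ℂ → X) (g : ℂ → ℂ), (φ = S.u ∨ φ = S.v) ∧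
      AnalyticAt ℂ g 0 ∧ deriv g 0 = 0 ∧ deriv (deriv g) 0 ≠ 0 ∧
      ∀ᶠ z in 𝓝 (0 : ℂ), a (hp τ b + z) = φ (g z) := by
  choose y hy0 hy using fun j => hom_surj S (hS j)
  obtain ⟨τ, W, hτ, hW, hdet, hsurj, hhalf, hloc⟩ := wp_pure y fun j k hjk e =>
    hjk (hx (by rw [← hy, ← hy, hom_eq S (hy0 j) (hy0 k)]; exact e))
  have hiff : ∀ z z', hom S (W z) = hom S (W z') ↔
      ∃ m n : ℤ, z' = z + m + n * τ ∨ z' = -z + m + n * τ := fun z z' => by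
    rw [hom_eq S (hW z) (hW z'), hdet]
  have key : ∀ l, ∃ (φ : ℂ → X) (g : ℂ → ℂ), (φ = S.u ∨ φ = S.v) ∧ AnalyticAt ℂ g l ∧
      ((fun z => hom S (W z)) =ᶠ[𝓝 l] fun z => φ (g z)) ∧ (l ∉ HL τ → deriv g l ≠ 0) ∧
      (l ∈ HL τ → deriv g l = 0 ∧ deriv (deriv g) l ≠ 0) := by
    intro l
    obtain ⟨g, P, Q, hg, hPQ, hev, h1, h2⟩ := hloc l
    obtain ⟨φ, m, hφ, hm, hm', hmev⟩ := hom_loc S hPQ (g l)
    have hd : deriv (fun z => m (g z)) l = deriv m (g l) * deriv g l :=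
      (hm.differentiableAt.hasDerivAt.comp l hg.differentiableAt.hasDerivAt).deriv
    refine ⟨φ, fun z => m (g z), hφ, hm.comp hg, ?_, fun h => ?_, fun h => ⟨?_, ?_⟩⟩
    · filter_upwards [hev, hg.continuousAt.eventually hmev] with z h3 h4
      rw [← h4, hom_eq S (hW z) (line_ne hPQ _)]
      exact h3
    · rw [hd]
      exact mul_ne_zero hm' (h1 h)
    · rw [hd, (h2 h).1, mul_zero]
    · rw [deriv2_comp hm hg (h2 h).1]
      exact mul_ne_zero hm' (h2 h).2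
  have hσ : ∀ b, ∃ j, hom S (W (hp τ b)) = x j := fun b => by
    obtain ⟨j, hj⟩ := hhalf _ (hp_mem τ b)
    exact ⟨j, by rw [← hy, hom_eq S (hW _) (hy0 j)]; exact hj⟩
  choose σ hσ using hσ
  have hinj : Function.Injective σ := fun b b' e => by
    obtain ⟨m, n, h⟩ := (hiff _ _).1 ((hσ b).trans (e ▸ (hσ b').symm))
    exact hp_inj hτ h
  refine ⟨τ, fun z => hom S (W z), Equiv.ofBijective σ
    ((Fintype.bijective_iff_injective_and_card σ).2 ⟨hinj, by simp⟩), hτ, fun l => ?_, fun l => ?_,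
    ?_, hiff, fun l hl => ?_, fun b => ⟨hσ b, ?_⟩⟩
  · obtain ⟨φ, g, hφ, hg, hev, -⟩ := key l
    exact (((sph_chart S hφ).1 _).comp l (sm_an hg)).congr_of_eventuallyEq hev
  · obtain ⟨φ, g, hφ, hg, hev, -⟩ := key l
    exact JAt_congr hev (JAt_comp (((sph_chart S hφ).1 _).mdifferentiableAt (by simp))
      hg.differentiableAt.hasDerivAt ((sph_chart S hφ).2.1 _) (hsq _))
  · refine Subset.antisymm (range_subset_iff.2 fun z => hom_mem S _) fun p hp => ?_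
    obtain ⟨w, hw, rfl⟩ := hom_surj S hp
    obtain ⟨z, hz⟩ := hsurj w
    exact ⟨z, (hom_eq S (hW z) hw).2 hz⟩
  · obtain ⟨φ, g, hφ, hg, hev, h1, -⟩ := key l
    intro e
    have h2 := (dm_congr hev 1).symm.trans e
    rw [dm_comp (((sph_chart S hφ).1 _).mdifferentiableAt (by simp))
      hg.differentiableAt.hasDerivAt, one_mul] at h2
    exact dm_ne ((sph_chart S hφ).2.1 _) (hsq _) ((sph_chart S hφ).2.2.1 _) (h1 hl) h2
  · obtain ⟨φ, g, hφ, hg, hev, -, h1⟩ := key (hp τ b)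
    obtain ⟨h2, h3⟩ := h1 (hp_mem τ b)
    have ht : Tendsto (fun z => hp τ b + z) (𝓝 0) (𝓝 (hp τ b)) :=
      Continuous.tendsto' (by fun_prop) _ _ (add_zero _)
    refine ⟨φ, fun z => g (hp τ b + z), hφ,
      AnalyticAt.comp (g := g) (f := fun z => hp τ b + z) (by simpa using hg) (by fun_prop),
      by rw [deriv_comp_const_add, add_zero, h2], ?_, ht.eventually hev⟩
    have : (deriv fun z => g (hp τ b + z)) = fun z => deriv g (hp τ b + z) :=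
      funext fun z => deriv_comp_const_add ..
    rw [this, deriv_comp_const_add, add_zero]
    exact h3

end Vale.Agent.P247Y
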